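import Vale.Agent.P147.Defs
import Vale.Agent.P147.MathlibUsed

set_option linter.all false

section

open MeasureTheory ProbabilityTheory
open scoped ENNReal

namespace Vale.Agent.P147

variable {d : ℕ}

/-- Displacement of a list of steps. -/
def dsp (l : List (Dir d)) : Site d := (l.map vec).sum

@[simp] lemma dsp_nil : dsp ([] : List (Dir d)) = 0 := rfl

@[simp] lemma dsp_cons (u : Dir d) (l : List (Dir d)) : dsp (u :: l) = vec u + dsp l := by
  simp [dsp]

@[simp] lemma dsp_append (a b : List (Dir d)) : dsp (a ++ b) = dsp a + dsp b := by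
  simp [dsp]

/-- Quenched weight of a list of steps, from `x`. -/
noncomputable def qw (ω : Env d) : Site d → List (Dir d) → ℝ≥0∞
  | _, [] => 1
  | x, u :: l => ENNReal.ofReal ((ω x).1 u) * qw ω (x + vec u) l

@[simp] lemma qw_nil (ω : Env d) (x : Site d) : qw ω x [] = 1 := rfl

@[simp] lemma qw_cons (ω : Env d) (x : Site d) (u : Dir d) (l : List (Dir d)) :
    qw ω x (u :: l) = ENNReal.ofReal ((ω x).1 u) * qw ω (x + vec u) l := rfl

lemma qw_append (ω : Env d) (x : Site d) (a b : List (Dir d)) :
    qw ω x (a ++ b) = qw ω x a * qw ω (x + dsp a) b := by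
  induction a generalizing x with
  | nil => simp
  | cons u a ih => simp [ih, mul_assoc, add_assoc]

lemma row_le_one (p : Row d) (u : Dir d) : p.1 u ≤ 1 := by
  have h := p.2
  calc p.1 u ≤ ∑ v, p.1 v := Finset.single_le_sum (fun v _ => h.1 v) (Finset.mem_univ u)
    _ = 1 := h.2

lemma qw_le_one (ω : Env d) (x : Site d) (l : List (Dir d)) : qw ω x l ≤ 1 := by
  induction l generalizing x with
  | nil => simp
  | cons u l ih =>
    rw [qw_cons]
    calc _ ≤ (1 : ℝ≥0∞) * 1 := by
          gcongr
          · exact ENNReal.ofReal_le_one.2 (row_le_one _ _)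
          · exact ih _
      _ = 1 := one_mul 1

lemma measurable_qw (x : Site d) (l : List (Dir d)) : Measurable (fun ω : Env d => qw ω x l) := by
  induction l generalizing x with
  | nil => simp
  | cons u l ih =>
    simp only [qw_cons]
    refine Measurable.mul ?_ (ih _)
    exact ENNReal.measurable_ofReal.comp
      ((measurable_pi_apply u).comp (measurable_subtype_coe.comp (measurable_pi_apply x)))

/-- Exit sites of a list of steps from `x`: the sites where a step is made. -/
def exits : Site d → List (Dir d) → Finset (Site d)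
  | _, [] => ∅
  | x, u :: l => insert x (exits (x + vec u) l)

@[simp] lemma exits_nil (x : Site d) : exits x [] = ∅ := rfl

@[simp] lemma exits_cons (x : Site d) (u : Dir d) (l : List (Dir d)) :
    exits x (u :: l) = insert x (exits (x + vec u) l) := rfl

lemma exits_append (x : Site d) (a b : List (Dir d)) :
    exits x (a ++ b) = exits x a ∪ exits (x + dsp a) b := by
  induction a generalizing x with
  | nil => simp
  | cons u a ih => simp [ih, add_assoc]

lemma mem_exits {x y : Site d} {l : List (Dir d)} :
    y ∈ exits x l ↔ ∃ a b, l = a ++ b ∧ b ≠ [] ∧ y = x + dsp a := by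
  induction l generalizing x with
  | nil => simp
  | cons u l ih =>
    rw [exits_cons, Finset.mem_insert, ih]
    constructor
    · rintro (rfl | ⟨a, b, rfl, hb, rfl⟩)
      · exact ⟨[], u :: l, by simp, by simp, by simp⟩
      · exact ⟨u :: a, b, by simp, hb, by simp [add_assoc]⟩
    · rintro ⟨a, b, h, hb, rfl⟩
      cases a with
      | nil => left; simp
      | cons v a =>
        right
        simp only [List.cons_append, List.cons.injEq] at h
        obtain ⟨rfl, h⟩ := h
        exact ⟨a, b, h, hb, by simp [add_assoc]⟩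

lemma exits_add (x z : Site d) (l : List (Dir d)) :
    exits (x + z) l = (exits x l).image (· + z) := by
  ext y
  simp only [Finset.mem_image, mem_exits]
  constructor
  · rintro ⟨a, b, h, hb, rfl⟩
    exact ⟨x + dsp a, ⟨a, b, h, hb, rfl⟩, by abel⟩
  · rintro ⟨_, ⟨a, b, h, hb, rfl⟩, rfl⟩
    exact ⟨a, b, h, hb, by abel⟩

/-- The event that the path starts at `x` and makes the steps `l` first. -/
def cyl (x : Site d) (l : List (Dir d)) : Set (ℕ → Site d) :=
  {X | ∀ n ≤ l.length, X n = x + dsp (l.take n)}

lemma measurableSet_cyl (x : Site d) (l : List (Dir d)) : MeasurableSet (cyl x l) := by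
  have : cyl x l = ⋂ n : ℕ, ⋂ _ : n ≤ l.length, (fun X : ℕ → Site d => X n) ⁻¹'
      {x + dsp (l.take n)} := by
    ext X; simp [cyl]
  rw [this]
  refine MeasurableSet.iInter fun n => MeasurableSet.iInter fun _ => ?_
  exact measurable_pi_apply n (MeasurableSet.singleton _)

lemma vec_injective : Function.Injective (vec : Dir d → Site d) := by
  rintro ⟨i, s⟩ ⟨j, t⟩ h
  have hi := congrFun h i
  have hj := congrFun h j
  simp only [vec] at hi hj
  rcases eq_or_ne i j with rfl | hij
  · simp only [Pi.single_eq_same] at hi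
    have : s = t := by
      cases s <;> cases t <;> simp_all
    rw [this]
  · rw [Pi.single_eq_same, Pi.single_eq_of_ne hij] at hi
    cases s <;> simp at hi

lemma stepLaw_vec (ω : Env d) (x : Site d) (u : Dir d) :
    stepLaw ω x {x + vec u} = ENNReal.ofReal ((ω x).1 u) := by
  simp only [stepLaw, Measure.coe_finsetSum, Finset.sum_apply, Measure.coe_smul, Pi.smul_apply,
    smul_eq_mul]
  rw [Finset.sum_eq_single u]
  · simp
  · intro v _ hv
    rw [Measure.dirac_apply' _ (MeasurableSet.singleton _), Set.indicator_of_notMem, mul_zero]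
    simp only [Set.mem_singleton_iff, add_right_inj]
    exact fun h => hv (vec_injective h)
  · simp

instance (ω : Env d) (x : Site d) : IsProbabilityMeasure (quenched ω x) := by
  unfold quenched
  infer_instance

/-- The event that the first `n + 1` positions are given by `g`. -/
def pc (n : ℕ) (g : ℕ → Site d) : Set (ℕ → Site d) := {X | ∀ i ≤ n, X i = g i}

lemma measurableSet_pc (n : ℕ) (g : ℕ → Site d) : MeasurableSet (pc n g) := by
  have : pc n g = ⋂ i : ℕ, ⋂ _ : i ≤ n, (fun X : ℕ → Site d => X i) ⁻¹' {g i} := by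
    ext X; simp [pc]
  rw [this]
  refine MeasurableSet.iInter fun n => MeasurableSet.iInter fun _ => ?_
  exact measurable_pi_apply n (MeasurableSet.singleton _)

lemma frestrictLe_preimage (n : ℕ) (g : ℕ → Site d) :
    Preorder.frestrictLe (π := fun _ : ℕ => Site d) n ⁻¹' {fun i : Finset.Iic n => g i} =
      pc n g := by
  ext X
  simp only [Set.mem_preimage, Set.mem_singleton_iff, pc, Set.mem_ofPred_eq]
  constructor
  · intro h i hi
    exact congrFun h ⟨i, by simpa using hi⟩
  · intro h
    funext i
    have := i.2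
    simp only [Finset.mem_Iic] at this
    exact h i this

lemma quenched_pc_succ (ω : Env d) (x : Site d) (n : ℕ) (g : ℕ → Site d) :
    quenched ω x (pc (n + 1) g) = quenched ω x (pc n g) * stepLaw ω (g n) {g (n + 1)} := by
  have key := Kernel.map_frestrictLe_trajMeasure_compProd_eq_map_trajMeasure
    (X := fun _ : ℕ => Site d) (μ₀ := Measure.dirac x)
    (κ := fun n => (stepKernel ω).comap (fun h : (i : Finset.Iic n) → Site d => h ⟨n, by simp⟩)
      (measurable_pi_apply _)) (a := n)
  set h0 : (i : Finset.Iic n) → Site d := fun i => g i with hh0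
  have hS : MeasurableSet ({h0} : Set ((i : Finset.Iic n) → Site d)) := MeasurableSet.singleton _
  have hy : MeasurableSet ({g (n + 1)} : Set (Site d)) := MeasurableSet.singleton _
  have key2 := congrArg (fun m => m ({h0} ×ˢ {g (n + 1)})) key
  beta_reduce at key2
  have hpre := frestrictLe_preimage n g
  rw [← hh0] at hpre
  rw [Measure.compProd_apply_prod hS hy, Measure.map_apply (by fun_prop) (hS.prod hy)] at key2
  have e1 : (fun X : ℕ → Site d => (Preorder.frestrictLe (π := fun _ : ℕ => Site d) n X,
      X (n + 1))) ⁻¹' ({h0} ×ˢ {g (n + 1)}) = pc (n + 1) g := by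
    have : (fun X : ℕ → Site d => (Preorder.frestrictLe (π := fun _ : ℕ => Site d) n X,
      X (n + 1))) ⁻¹' ({h0} ×ˢ {g (n + 1)}) = pc n g ∩ {X | X (n + 1) = g (n + 1)} := by
      rw [← hpre]; rfl
    rw [this]
    ext X
    simp only [pc, Set.mem_inter_iff, Set.mem_ofPred_eq]
    constructor
    · rintro ⟨h1, h2⟩ i hi
      rcases Nat.lt_or_ge n i with h | h
      · have : i = n + 1 := by omega
        subst this; exact h2
      · exact h1 i h
    · intro h
      exact ⟨fun i hi => h i (by omega), h _ le_rfl⟩
  rw [e1] at key2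
  have e2 : quenched ω x (pc (n + 1) g) = _ := key2.symm
  rw [e2]
  rw [lintegral_singleton, Measure.map_apply (by fun_prop) hS, hpre, Kernel.comap_apply]
  rw [mul_comm]
  rfl

lemma quenched_start (ω : Env d) (x : Site d) (y : Site d) :
    quenched ω x {X | X 0 = y} = Set.indicator {y} 1 x := by
  have hmap : (quenched ω x).map (Preorder.frestrictLe (π := fun _ : ℕ => Site d) 0) =
      (Measure.dirac x).map
        (MeasurableEquiv.piUnique (fun _ : Finset.Iic 0 => Site d)).symm := by
    unfold quenched
    rw [Kernel.trajMeasure, Measure.map_comp _ _ (by fun_prop), Kernel.traj_map_frestrictLe,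
      Kernel.partialTraj_self]
    simp
  have hm : Measurable (fun h : (i : Finset.Iic 0) → Site d => h ⟨0, by simp⟩) :=
    measurable_pi_apply _
  have hS : MeasurableSet {h : (i : Finset.Iic 0) → Site d | h ⟨0, by simp⟩ = y} :=
    hm (MeasurableSet.singleton y)
  have h1 := congrArg (fun m => m {h : (i : Finset.Iic 0) → Site d | h ⟨0, by simp⟩ = y}) hmap
  beta_reduce at h1
  rw [Measure.map_apply (by fun_prop) hS, Measure.map_apply (by exact Continuous.measurable (by fun_prop)) hS] at h1
  refine Eq.trans h1 ?_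
  rw [Measure.dirac_apply' _ (by measurability)]
  rfl

lemma quenched_start_self (ω : Env d) (x : Site d) : quenched ω x {X | X 0 = x} = 1 := by
  rw [quenched_start]; simp

lemma measurable_stepLaw (x y : Site d) : Measurable (fun ω : Env d => stepLaw ω x {y}) := by
  simp only [stepLaw, Measure.coe_finsetSum, Finset.sum_apply, Measure.coe_smul, Pi.smul_apply,
    smul_eq_mul]
  refine Finset.measurable_sum _ fun u _ => Measurable.mul_const ?_ _
  exact ENNReal.measurable_ofReal.comp
      ((measurable_pi_apply u).comp (measurable_subtype_coe.comp (measurable_pi_apply x)))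

lemma measurable_quenched_pc (x : Site d) (n : ℕ) (g : ℕ → Site d) :
    Measurable (fun ω : Env d => quenched ω x (pc n g)) := by
  induction n with
  | zero =>
    have : pc 0 g = {X | X 0 = g 0} := by ext X; simp [pc]
    simp only [this, quenched_start]
    exact measurable_const
  | succ n ih =>
    simp only [quenched_pc_succ]
    exact ih.mul (measurable_stepLaw _ _)

lemma measurable_quenched (x : Site d) : Measurable (fun ω : Env d => quenched ω x) := by
  refine Measurable.measure_of_isPiSystem_of_isProbabilityMeasure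
    (S := MeasureTheory.measurableCylinders (fun _ : ℕ => Site d))
    (MeasureTheory.generateFrom_measurableCylinders).symm
    MeasureTheory.isPiSystem_measurableCylinders ?_
  intro s hs
  rw [MeasureTheory.mem_measurableCylinders] at hs
  obtain ⟨I, T, hT, rfl⟩ := hs
  set n := I.sup id with hn
  have hsub : ∀ i ∈ I, i ∈ Finset.Iic n := fun i hi => by
    simp only [Finset.mem_Iic]
    exact Finset.le_sup (f := id) hi
  set T' : Set ((i : Finset.Iic n) → Site d) :=
    {g | (fun i : I => g ⟨i, hsub i i.2⟩) ∈ T} with hT'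
  have e : cylinder I T = Preorder.frestrictLe (π := fun _ : ℕ => Site d) n ⁻¹' T' := by
    ext X
    simp only [cylinder, Set.mem_preimage, hT', Set.mem_ofPred_eq]
    rfl
  rw [e]
  have e2 : Preorder.frestrictLe (π := fun _ : ℕ => Site d) n ⁻¹' T' =
      ⋃ g : T', Preorder.frestrictLe (π := fun _ : ℕ => Site d) n ⁻¹' {g.1} := by
    ext X; simp
  have hm : ∀ g : (i : Finset.Iic n) → Site d,
      Preorder.frestrictLe (π := fun _ : ℕ => Site d) n ⁻¹' {g} =
        pc n (fun i => if hi : i ≤ n then g ⟨i, by simpa using hi⟩ else 0) := by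
    intro g
    rw [← frestrictLe_preimage]
    congr 2
    funext i
    have := i.2
    simp only [Finset.mem_Iic] at this
    simp [this]
  have e3 : ∀ ω : Env d, quenched ω x (Preorder.frestrictLe (π := fun _ : ℕ => Site d) n ⁻¹' T') =
      ∑' g : T', quenched ω x
        (pc n (fun i => if hi : i ≤ n then g.1 ⟨i, by simpa using hi⟩ else 0)) := by
    intro ω
    rw [e2, measure_iUnion]
    · simp only [hm]
    · intro g g' hgg
      refine Disjoint.preimage _ ?_
      rw [Set.disjoint_singleton]
      exact fun h => hgg (Subtype.ext h)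
    · intro g
      rw [hm]
      exact measurableSet_pc _ _
  simp only [e3]
  exact Measurable.tsum fun g => measurable_quenched_pc _ _ _

lemma measurable_quenched_apply (x : Site d) {A : Set (ℕ → Site d)} (hA : MeasurableSet A) :
    Measurable (fun ω : Env d => quenched ω x A) :=
  (Measure.measurable_coe hA).comp (measurable_quenched x)

lemma cyl_eq_pc (x : Site d) (l : List (Dir d)) :
    cyl x l = pc l.length (fun n => x + dsp (l.take n)) := rfl

lemma quenched_cyl_append_singleton (ω : Env d) (x : Site d) (l : List (Dir d)) (u : Dir d) :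
    quenched ω x (cyl x (l ++ [u])) =
      quenched ω x (cyl x l) * ENNReal.ofReal ((ω (x + dsp l)).1 u) := by
  have h1 : cyl x (l ++ [u]) = pc (l.length + 1) (fun n => x + dsp ((l ++ [u]).take n)) := by
    rw [cyl_eq_pc]; simp
  have h2 : cyl x l = pc l.length (fun n => x + dsp ((l ++ [u]).take n)) := by
    ext X
    simp only [cyl, pc, Set.mem_ofPred_eq]
    refine forall_congr' fun n => forall_congr' fun hn => ?_
    rw [List.take_append_of_le_length hn]
  rw [h1, quenched_pc_succ, ← h2, ← stepLaw_vec]
  have h3 : dsp ((l ++ [u]).take l.length) = dsp l := by simp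
  have h4 : dsp ((l ++ [u]).take (l.length + 1)) = dsp l + vec u := by
    rw [List.take_of_length_le (by simp)]; simp
  rw [h3, h4, add_assoc]

lemma quenched_cyl (ω : Env d) (x : Site d) (l : List (Dir d)) :
    quenched ω x (cyl x l) = qw ω x l := by
  induction l using List.reverseRecOn with
  | nil =>
    have : cyl x ([] : List (Dir d)) = {X | X 0 = x} := by
      ext X; simp [cyl]
    rw [this, qw_nil, quenched_start_self]
  | append_singleton l u ih =>
    rw [quenched_cyl_append_singleton, ih, qw_append]
    simp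

end Vale.Agent.P147
end

section

open MeasureTheory ProbabilityTheory
open scoped ENNReal

namespace Vale.Agent.P147

variable {d : ℕ}

instance (μ : Measure (Row d)) [IsProbabilityMeasure μ] : IsProbabilityMeasure (envLaw μ) := by
  unfold envLaw
  infer_instance

/-- Annealed weight of a list of steps. -/
noncomputable def wt (μ : Measure (Row d)) (l : List (Dir d)) : ℝ≥0∞ :=
  ∫⁻ ω, qw ω 0 l ∂(envLaw μ)

/-- Shift of the environment. -/
def shift (z : Site d) (ω : Env d) : Env d := fun x => ω (x + z)

lemma qw_shift (z : Site d) (ω : Env d) (x : Site d) (l : List (Dir d)) :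
    qw (shift z ω) x l = qw ω (x + z) l := by
  induction l generalizing x with
  | nil => simp
  | cons u l ih =>
    rw [qw_cons, qw_cons, ih, add_right_comm]
    rfl

section law

variable (μ : Measure (Row d)) [IsProbabilityMeasure μ]

lemma measurePreserving_shift (z : Site d) :
    MeasurePreserving (shift z) (envLaw μ) (envLaw μ) := by
  have hm : Measurable (shift z : Env d → Env d) := by
    unfold shift
    exact measurable_pi_lambda _ fun x => measurable_pi_apply _
  refine ⟨hm, ?_⟩
  exact Measure.map_infinitePi_infinitePi_of_inj (P := fun _ : Site d => μ)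
    (f := fun x : Site d => x + z) (add_left_injective z)

lemma lintegral_qw (x : Site d) (l : List (Dir d)) :
    ∫⁻ ω, qw ω x l ∂(envLaw μ) = wt μ l := by
  rw [wt, ← (measurePreserving_shift μ x).lintegral_comp (measurable_qw 0 l)]
  simp only [qw_shift, zero_add]

lemma wt_le_one (l : List (Dir d)) : wt μ l ≤ 1 := by
  calc wt μ l ≤ ∫⁻ _, 1 ∂(envLaw μ) := lintegral_mono fun ω => qw_le_one ω 0 l
    _ = 1 := by simp

@[simp] lemma wt_nil : wt μ [] = 1 := by simp [wt]

lemma wt_append_le_right (a b : List (Dir d)) : wt μ (a ++ b) ≤ wt μ b := by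
  rw [← lintegral_qw μ (0 + dsp a) b, wt]
  refine lintegral_mono fun ω => ?_
  rw [qw_append]
  calc _ ≤ 1 * qw ω (0 + dsp a) b := by gcongr; exact qw_le_one _ _ _
    _ = _ := one_mul _

omit [IsProbabilityMeasure μ] in
lemma wt_append_le_left (a b : List (Dir d)) : wt μ (a ++ b) ≤ wt μ a := by
  rw [wt, wt]
  refine lintegral_mono fun ω => ?_
  rw [qw_append]
  calc _ ≤ qw ω 0 a * 1 := by gcongr; exact qw_le_one _ _ _
    _ = _ := mul_one _

omit [IsProbabilityMeasure μ] in
lemma qw_congr {ω ω' : Env d} {x : Site d} {l : List (Dir d)}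
    (h : ∀ y ∈ exits x l, ω y = ω' y) : qw ω x l = qw ω' x l := by
  induction l generalizing x with
  | nil => simp
  | cons u l ih =>
    rw [qw_cons, qw_cons, h x (by simp), ih]
    intro y hy
    exact h y (by simp [hy])

lemma exists_factor (S : Finset (Site d)) [Nonempty (Row d)] (x : Site d) (l : List (Dir d))
    (hl : exits x l ⊆ S) :
    ∃ F : ((y : S) → Row d) → ℝ≥0∞, Measurable F ∧
      ∀ ω : Env d, qw ω x l = F (fun y : S => ω y) := by
  classical
  let p0 : Row d := Classical.arbitrary _
  let ext : ((y : S) → Row d) → Env d := fun ρ y => if h : y ∈ S then ρ ⟨y, h⟩ else p0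
  refine ⟨fun ρ => qw (ext ρ) x l, ?_, ?_⟩
  · refine (measurable_qw x l).comp ?_
    refine measurable_pi_lambda _ fun y => ?_
    by_cases h : y ∈ S
    · simp only [ext, h, dif_pos]
      exact measurable_pi_apply _
    · simp only [ext, h, dif_neg, not_false_eq_true]
      exact measurable_const
  · intro ω
    refine qw_congr fun y hy => ?_
    simp [ext, hl hy]

lemma lintegral_mul_of_disjoint (x y : Site d) (a b : List (Dir d))
    (h : Disjoint (exits x a) (exits y b)) :
    ∫⁻ ω, qw ω x a * qw ω y b ∂(envLaw μ) = wt μ a * wt μ b := by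
  have : Nonempty (Row d) := nonempty_of_isProbabilityMeasure μ
  obtain ⟨F, hF, hFa⟩ := exists_factor (exits x a) x a subset_rfl
  obtain ⟨G, hG, hGb⟩ := exists_factor (exits y b) y b subset_rfl
  have hind : iIndepFun (fun (i : Site d) (ω : Env d) => ω i) (envLaw μ) :=
    iIndepFun_infinitePi (P := fun _ : Site d => μ) (X := fun _ p => p) (fun _ => measurable_id)
  have h2 := iIndepFun.indepFun_finset (exits x a) (exits y b) h hind
    (fun i => measurable_pi_apply i)
  have h3 := h2.comp hF hG
  rw [← lintegral_qw μ x a, ← lintegral_qw μ y b]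
  have h4 := lintegral_mul_eq_lintegral_mul_lintegral_of_indepFun (measurable_qw x a)
    (measurable_qw y b) (by
      have e1 : (fun ω : Env d => qw ω x a) = F ∘ (fun ω (i : exits x a) => ω i) := by
        funext ω; exact hFa ω
      have e2 : (fun ω : Env d => qw ω y b) = G ∘ (fun ω (i : exits y b) => ω i) := by
        funext ω; exact hGb ω
      rw [e1, e2]
      exact h3)
  exact h4

lemma wt_append {a b : List (Dir d)} (h : Disjoint (exits 0 a) (exits (dsp a) b)) :
    wt μ (a ++ b) = wt μ a * wt μ b := by
  rw [← lintegral_mul_of_disjoint μ 0 (dsp a) a b h, wt]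
  refine lintegral_congr fun ω => ?_
  rw [qw_append, zero_add]

lemma wt_ne_zero (hμ : Elliptic μ) (l : List (Dir d)) : wt μ l ≠ 0 := by
  have hae : ∀ᵐ ω ∂(envLaw μ), ∀ x : Site d, ∀ u : Dir d, 0 < (ω x).1 u := by
    rw [ae_all_iff]
    intro x
    have := (measurePreserving_eval_infinitePi (fun _ : Site d => μ) x).quasiMeasurePreserving
    exact this.ae hμ
  intro h0
  rw [wt, lintegral_eq_zero_iff (measurable_qw 0 l)] at h0
  have : ∀ᵐ ω ∂(envLaw μ), False := by
    filter_upwards [hae, h0] with ω h1 h2
    have h3 : ∀ x, qw ω x l ≠ 0 := by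
      clear h2 h0
      induction l with
      | nil => intro x; simp
      | cons u l ih =>
        intro x
        rw [qw_cons]
        exact mul_ne_zero (by simpa using h1 x u) (ih _)
    exact h3 0 h2
  simp only [Filter.eventually_false_iff_eq_bot, ae_eq_bot] at this
  exact IsProbabilityMeasure.ne_zero (envLaw μ) this

omit [IsProbabilityMeasure μ] in
lemma annealed_cyl (x : Site d) (l : List (Dir d)) :
    annealed μ x (cyl x l) = ∫⁻ ω, qw ω x l ∂(envLaw μ) := by
  simp only [annealed, quenched_cyl]

lemma annealed_cyl' (x : Site d) (l : List (Dir d)) :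
    annealed μ x (cyl x l) = wt μ l := by
  rw [annealed_cyl, lintegral_qw]

omit [IsProbabilityMeasure μ] in
lemma annealed_mono (x : Site d) {A B : Set (ℕ → Site d)} (h : A ⊆ B) :
    annealed μ x A ≤ annealed μ x B :=
  lintegral_mono fun _ => measure_mono h

omit [IsProbabilityMeasure μ] in
lemma annealed_iUnion_le (x : Site d) {ι : Type*} [Countable ι] {A : ι → Set (ℕ → Site d)}
    (hA : ∀ i, MeasurableSet (A i)) :
    annealed μ x (⋃ i, A i) ≤ ∑' i, annealed μ x (A i) := by
  simp only [annealed]
  rw [← lintegral_tsum fun i => (measurable_quenched_apply x (hA i)).aemeasurable]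
  exact lintegral_mono fun ω => measure_iUnion_le _

/-- Two lists of steps are comparable if one starts with the other. -/
def Free (S : Set (List (Dir d))) : Prop :=
  ∀ a ∈ S, ∀ b, a ++ b ∈ S → b = []

lemma cyl_inter {x : Site d} {a b : List (Dir d)} {X : ℕ → Site d} (ha : X ∈ cyl x a)
    (hb : X ∈ cyl x b) (hab : a.length ≤ b.length) : ∃ c, b = a ++ c := by
  induction a generalizing x b X with
  | nil => exact ⟨b, rfl⟩
  | cons u a ih =>
    cases b with
    | nil => simp at hab
    | cons v b =>
      have h1 := ha 1 (by simp)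
      have h2 := hb 1 (by simp)
      have huv : u = v := by
        apply vec_injective
        simp only [List.take_succ_cons, List.take_zero, dsp_cons, dsp_nil, add_zero] at h1 h2
        rw [h1] at h2
        exact add_left_cancel h2
      subst huv
      have ha' : (fun n => X (n + 1)) ∈ cyl (x + vec u) a := by
        intro n hn
        have := ha (n + 1) (by simpa using hn)
        simpa [add_assoc] using this
      have hb' : (fun n => X (n + 1)) ∈ cyl (x + vec u) b := by
        intro n hn
        have := hb (n + 1) (by simpa using hn)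
        simpa [add_assoc] using this
      obtain ⟨c, hc⟩ := ih ha' hb' (by simpa using hab)
      exact ⟨c, by rw [hc]; rfl⟩

lemma cyl_disjoint {S : Set (List (Dir d))} (hS : Free S) {x : Site d} {a b : List (Dir d)}
    (ha : a ∈ S) (hb : b ∈ S) (hab : a ≠ b) : Disjoint (cyl x a) (cyl x b) := by
  rw [Set.disjoint_left]
  intro X h1 h2
  rcases le_total a.length b.length with h | h
  · obtain ⟨c, rfl⟩ := cyl_inter h1 h2 h
    have := hS a ha c hb
    subst this
    simp at hab
  · obtain ⟨c, rfl⟩ := cyl_inter h2 h1 h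
    have := hS b hb c ha
    subst this
    simp at hab

lemma tsum_wt_le_one {S : Set (List (Dir d))} (hS : Free S) : ∑' l : S, wt μ l ≤ 1 := by
  have h1 : ∀ ω : Env d, ∑' l : S, qw ω 0 (l : List (Dir d)) ≤ 1 := by
    intro ω
    simp only [← quenched_cyl]
    rw [← measure_iUnion]
    · exact prob_le_one
    · intro a b hab
      exact cyl_disjoint hS a.2 b.2 (fun h => hab (Subtype.ext h))
    · intro a
      exact measurableSet_cyl _ _
  simp only [wt]
  rw [← lintegral_tsum (f := fun (l : S) (ω : Env d) => qw ω 0 (l : List (Dir d)))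
    fun l => (measurable_qw 0 (l : List (Dir d))).aemeasurable]
  calc _ ≤ ∫⁻ _, 1 ∂(envLaw μ) := lintegral_mono fun ω => h1 ω
    _ = 1 := by simp

end law

end Vale.Agent.P147
end

section
attribute [-instance] ProperSMul.toContinuousSMul IsTopologicalTorsor.toContinuousSMul IdemSemiring.toCanonicallyOrderedAdd IdemSemiring.toMulLeftMono IdemSemiring.toMulRightMono AddQuantale.instAddLeftMono AddQuantale.instAddRightMono Quantale.instMulLeftMono Quantale.instMulRightMono FiniteDimensional.rclike_to_real IsScalarTower.complexToReal FiniteDimensional.complexToReal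

open scoped ENNReal

namespace Vale.Agent.P147

section kernels

variable {S : Type*}

end kernels

section main

variable {S : Type*} [DecidableEq S]

end main

end Vale.Agent.P147
end

section

open scoped ENNReal

namespace Vale.Agent.P147

/-- Functions on a group with the convolution product. -/
@[ext] structure Cv (G : Type*) where
  v : G → ℝ≥0∞

namespace Cv

variable {G : Type*} [AddCommGroup G]

instance : Zero (Cv G) := ⟨⟨fun _ => 0⟩⟩

noncomputable instance : Add (Cv G) := ⟨fun f g => ⟨fun z => f.v z + g.v z⟩⟩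

noncomputable instance : Mul (Cv G) := ⟨fun f g => ⟨fun z => ∑' y, f.v y * g.v (z - y)⟩⟩

open Classical in
/-- Point mass. -/
noncomputable def pt (a : G) (c : ℝ≥0∞) : Cv G := ⟨fun z => if z = a then c else 0⟩

noncomputable instance : One (Cv G) := ⟨pt 0 1⟩

@[simp] lemma zero_v (z : G) : (0 : Cv G).v z = 0 := rfl

@[simp] lemma add_v (f g : Cv G) (z : G) : (f + g).v z = f.v z + g.v z := rfl

lemma mul_v (f g : Cv G) (z : G) : (f * g).v z = ∑' y, f.v y * g.v (z - y) := rfl

lemma one_def : (1 : Cv G) = pt 0 1 := rfl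

@[simp] lemma pt_v_self (a : G) (c : ℝ≥0∞) : (pt a c).v a = c := by simp [pt]

lemma pt_v_ne {a z : G} (h : z ≠ a) (c : ℝ≥0∞) : (pt a c).v z = 0 := by simp [pt, h]

lemma conv_comm (f g : Cv G) : f * g = g * f := by
  ext z
  rw [mul_v, mul_v, ← (Equiv.subLeft z).tsum_eq]
  refine tsum_congr fun y => ?_
  simp only [Equiv.subLeft_apply, sub_sub_cancel]
  ring

lemma conv_assoc (f g h : Cv G) : (f * g) * h = f * (g * h) := by
  ext z
  simp only [mul_v]
  calc ∑' y, (∑' x, f.v x * g.v (y - x)) * h.v (z - y)
      = ∑' y, ∑' x, f.v x * (g.v (y - x) * h.v (z - y)) := by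
        refine tsum_congr fun y => ?_
        rw [← ENNReal.tsum_mul_right]
        refine tsum_congr fun x => ?_
        ring
    _ = ∑' x, ∑' y, f.v x * (g.v (y - x) * h.v (z - y)) := ENNReal.tsum_comm
    _ = ∑' x, f.v x * ∑' w, g.v w * h.v (z - x - w) := by
        refine tsum_congr fun x => ?_
        rw [ENNReal.tsum_mul_left]
        congr 1
        rw [← (Equiv.subRight x).tsum_eq (fun w => g.v w * h.v (z - x - w))]
        refine tsum_congr fun y => ?_
        simp only [Equiv.subRight_apply]
        congr 2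
        abel

lemma pt_mul_v (a : G) (c : ℝ≥0∞) (f : Cv G) (z : G) : (pt a c * f).v z = c * f.v (z - a) := by
  rw [mul_v, tsum_eq_single a]
  · simp
  · intro y hy
    rw [pt_v_ne hy, zero_mul]

lemma one_conv (f : Cv G) : 1 * f = f := by
  ext z
  rw [one_def, pt_mul_v]; simp

lemma conv_add (f g h : Cv G) : f * (g + h) = f * g + f * h := by
  ext z
  simp only [mul_v, add_v, mul_add, ENNReal.tsum_add]

lemma conv_zero (f : Cv G) : f * 0 = 0 := by
  ext z
  simp [mul_v]

noncomputable instance : CommSemiring (Cv G) where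
  add_assoc := fun f g h => by ext z; simp [add_assoc]
  zero_add := fun f => by ext z; simp
  add_zero := fun f => by ext z; simp
  add_comm := fun f g => by ext z; simp [add_comm]
  left_distrib := conv_add
  right_distrib := fun f g h => by
    rw [conv_comm, conv_add, conv_comm h f, conv_comm h g]
  zero_mul := fun f => by rw [conv_comm, conv_zero]
  mul_zero := conv_zero
  mul_assoc := conv_assoc
  mul_comm := conv_comm
  one_mul := one_conv
  mul_one := fun f => by rw [conv_comm, one_conv]
  nsmul := nsmulRec

/-- Total mass. -/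
noncomputable def mass (f : Cv G) : ℝ≥0∞ := ∑' z, f.v z

lemma mass_mul (f g : Cv G) : mass (f * g) = mass f * mass g := by
  simp only [mass, mul_v]
  rw [ENNReal.tsum_comm, ← ENNReal.tsum_mul_right]
  refine tsum_congr fun y => ?_
  rw [ENNReal.tsum_mul_left]
  congr 1
  exact (Equiv.subRight y).tsum_eq g.v

lemma mass_pt (a : G) (c : ℝ≥0∞) : mass (pt a c) = c := by
  rw [mass, tsum_eq_single a]
  · simp
  · intro z hz; exact pt_v_ne hz c

lemma mass_one : mass (1 : Cv G) = 1 := mass_pt 0 1

lemma mass_pow (f : Cv G) (n : ℕ) : mass (f ^ n) = mass f ^ n := by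
  induction n with
  | zero => simp [mass_one]
  | succ n ih => rw [pow_succ, mass_mul, ih, pow_succ]

end Cv

namespace Cv

variable {G : Type*} [AddCommGroup G]

end Cv

end Vale.Agent.P147
end

section

/-!
# Directional zero-one law: basic definitions

Everything is expressed by annealed weights `wt μ l` of finite lists of steps `l`, started at `0`.
`L` is a real level function on the lattice.
-/

open MeasureTheory
open scoped ENNReal

namespace Vale.Agent.P147.Z

variable {d : ℕ}

/-- Normalised level function: a step changes the level by at most `1`, and some step raises it by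
exactly `1`. -/
structure Lvl (L : Site d →+ ℝ) : Prop where
  step : ∀ u : Dir d, |L (vec u)| ≤ 1
  top : ∃ u : Dir d, L (vec u) = 1

/-- First passage paths: the departure sites have level in `[0, a)` and the end has level at
least `a`. -/
def Fp (L : Site d →+ ℝ) (a : ℝ) : Set (List (Dir d)) :=
  {l | (∀ x ∈ exits 0 l, 0 ≤ L x ∧ L x < a) ∧ a ≤ L (dsp l)}

/-- Total weight of the first passage paths. -/
noncomputable def fu (μ : Measure (Row d)) (L : Site d →+ ℝ) (a : ℝ) : ℝ≥0∞ :=
  ∑' l : Fp L a, wt μ l.1

/-- Bridges: all departure sites have level at least `0` and strictly less than the level of the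
end. -/
def Br (L : Site d →+ ℝ) : Set (List (Dir d)) :=
  {l | ∀ x ∈ exits 0 l, 0 ≤ L x ∧ L x < L (dsp l)}

/-- Irreducible bridges. -/
def Ir (L : Site d →+ ℝ) : Set (List (Dir d)) :=
  {l | l ∈ Br L ∧ l ≠ [] ∧ ∀ a b, l = a ++ b → a ∈ Br L → b ∈ Br L → a = [] ∨ b = []}

/-- Sum over the words of `n` irreducible bridges: expectation of `Φ` of the concatenation of `n`
independent blocks. -/
noncomputable def En (μ : Measure (Row d)) (L : Site d →+ ℝ) :
    ℕ → (List (Dir d) → ℝ≥0∞) → ℝ≥0∞
  | 0, Φ => Φ []
  | n + 1, Φ => ∑' b : Ir L, wt μ b.1 * En μ L n (fun l => Φ (b.1 ++ l))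

/-- The law of the displacement of one block. -/
noncomputable def kap (μ : Measure (Row d)) (L : Site d →+ ℝ) : Cv (Site d) :=
  ⟨fun x => by classical exact ∑' b : Ir L, if dsp b.1 = x then wt μ b.1 else 0⟩

/-- The slab. -/
def Db (L : Site d →+ ℝ) (t : ℝ) : Set (Site d) := {x | -1 < L x ∧ L x < t}

/-- Paths from `v` that leave the slab through its bottom. -/
def Ds (L : Site d →+ ℝ) (t : ℝ) (v : Site d) : Set (List (Dir d)) :=
  {ρ | (∀ x ∈ exits v ρ, x ∈ Db L t) ∧ L (v + dsp ρ) ≤ -1}

/-- Weight of the prefix `l` followed by an exit of the slab through the bottom. -/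
noncomputable def Eb (μ : Measure (Row d)) (L : Site d →+ ℝ) (t : ℝ) (l : List (Dir d)) : ℝ≥0∞ :=
  ∑' ρ : Ds L t (dsp l), wt μ (l ++ ρ.1)

open Classical in
/-- Sum over the continuations of the prefix `l`, stopped when they leave `D` and at the latest
after `n` more steps. -/
noncomputable def Ex {R : Type*} [Semiring R] (W : List (Dir d) → R) (D : Set (Site d))
    (F : List (Dir d) → R) : ℕ → List (Dir d) → R
  | 0, l => W l * F l
  | n + 1, l => if dsp l ∈ D then ∑ u : Dir d, Ex W D F n (l ++ [u]) else W l * F l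

open Classical in
/-- The sites seen by the prefix `l`: the departure sites, and the present site if it is
in `D`. -/
noncomputable def sit (D : Set (Site d)) (l : List (Dir d)) : Finset (Site d) :=
  if dsp l ∈ D then insert (dsp l) (exits 0 l) else exits 0 l

open Classical in
/-- Total weight of the paths of `T`, started at `z`, with a departure site in `S`. -/
noncomputable def kill (μ : Measure (Row d)) (T : Set (List (Dir d))) (z : Site d)
    (S : Finset (Site d)) : ℝ≥0∞ :=
  ∑' ρ : T, if Disjoint (exits z ρ.1) S then 0 else wt μ ρ.1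

/-- Downward paths from `z` to level at most `-1`, with a first passage at level `l1` that is a
cut point. -/
def Td (L : Site d →+ ℝ) (l1 : ℝ) (z : Site d) : Set (List (Dir d)) :=
  {ρ | ∃ β₁ ∈ Fp (-L) (L z - l1), ∃ β₂ ∈ Fp (-L) (L (z + dsp β₁) + 1), ρ = β₁ ++ β₂}

/-- The starting segment of `l` up to its first passage to level `h`. -/
noncomputable def fpre (L : Site d →+ ℝ) (h : ℝ) (l : List (Dir d)) : List (Dir d) :=
  l.take (sInf {i | h ≤ L (dsp (l.take i))})

/-- The box of radius `R`. -/
noncomputable def bx (d R : ℕ) : Finset (Site d) := Fintype.piFinset fun _ => Finset.Icc (-(R : ℤ)) R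

/-- Paths that leave the box of radius `R` at their end for the first time, inside the slab of
levels between `-1` and `n`. -/
def Rch (L : Site d →+ ℝ) (n : ℝ) (R : ℕ) : Set (List (Dir d)) :=
  {π | (∀ x ∈ exits 0 π, x ∈ Db L n ∧ x ∈ bx d R) ∧ dsp π ∈ Db L n ∧ dsp π ∉ bx d R}

/-- Polynomial tails, in a convenient form. -/
def PolyTail (κ : Cv (Site d)) : Prop :=
  ∃ K n0 : ℕ, ∀ n : ℕ, n0 ≤ n →
    ∑' x, (if x ∈ bx d (n ^ K) then 0 else κ.v x) ≤ ((n : ℝ≥0∞) ^ 2)⁻¹

/-- Average total variation distance between the law of a sum of `n` blocks given the first `m`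
blocks and its unconditional law (positive part). -/
noncomputable def tv (κ : Cv (Site d)) (n m : ℕ) : ℝ≥0∞ :=
  ∑' η, (κ ^ m).v η * ∑' z, ((κ ^ (n - m)).v (z - η) - (κ ^ n).v z)

end Vale.Agent.P147.Z
end

section

end

section

/-! Exponential moment of an increasing process on the tree of lists (Khasminskii, Garsia). -/

open MeasureTheory Filter
open scoped ENNReal

namespace Vale.Agent.P147.Z

variable {d : ℕ}

/-- Lists of steps of a given length. -/
def wds (d : ℕ) : ℕ → Finset (List (Dir d))
  | 0 => {[]}
  | n + 1 => (Finset.univ ×ˢ wds d n).image (fun p : Dir d × List (Dir d) => p.1 :: p.2)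

/-- Sum over the lists of length `n + 1`: the first step is split off. -/
lemma sum_wds_succ {M : Type*} [AddCommMonoid M] (n : ℕ) (f : List (Dir d) → M) :
    ∑ g ∈ wds d (n + 1), f g = ∑ u : Dir d, ∑ g ∈ wds d n, f (u :: g) := by
  rw [wds, Finset.sum_image]
  · rw [Finset.sum_product]
  · rintro ⟨u, l⟩ _ ⟨v, l'⟩ _ h
    simpa using h

@[simp] lemma sum_wds_zero {M : Type*} [AddCommMonoid M] (f : List (Dir d) → M) :
    ∑ g ∈ wds d 0, f g = f [] := by
  simp only [wds, Finset.sum_singleton]

/-- Sum of `a` over the proper prefixes of `γ`, appended to `l`. -/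
def sumX {M : Type*} [AddMonoid M] (a : List (Dir d) → M) : List (Dir d) → List (Dir d) → M
  | _, [] => 0
  | l, u :: g => a l + sumX a (l ++ [u]) g

@[simp] lemma sumX_nil {M : Type*} [AddMonoid M] (a : List (Dir d) → M) (l : List (Dir d)) :
    sumX a l [] = 0 := rfl

@[simp] lemma sumX_cons {M : Type*} [AddMonoid M] (a : List (Dir d) → M) (l : List (Dir d))
    (u : Dir d) (g : List (Dir d)) :
    sumX a l (u :: g) = a l + sumX a (l ++ [u]) g := rfl

section tree

variable (w a : List (Dir d) → ℝ)

variable {w a}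

end tree

end Vale.Agent.P147.Z
end

section
attribute [-instance] ProperSMul.toContinuousSMul IsTopologicalTorsor.toContinuousSMul IdemSemiring.toCanonicallyOrderedAdd IdemSemiring.toMulLeftMono IdemSemiring.toMulRightMono AddQuantale.instAddLeftMono AddQuantale.instAddRightMono Quantale.instMulLeftMono Quantale.instMulRightMono FiniteDimensional.rclike_to_real IsScalarTower.complexToReal FiniteDimensional.complexToReal

/-! Quenched estimates: first visit decomposition and Doob's maximal inequality, as path sums. -/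

open MeasureTheory Filter
open scoped ENNReal

namespace Vale.Agent.P147.Z

variable {d : ℕ}

lemma sum_rowZ (p : Row d) : ∑ u, ENNReal.ofReal (p.1 u) = 1 := by
  have h := p.2
  rw [← ENNReal.ofReal_sum_of_nonneg (fun u _ => h.1 u), h.2, ENNReal.ofReal_one]

lemma sum_qwds (ω : Env d) (x : Site d) (n : ℕ) : ∑ l ∈ wds d n, qw ω x l = 1 := by
  induction n generalizing x with
  | zero => simp
  | succ n ih =>
    rw [sum_wds_succ]
    simp only [qw_cons]
    simp only [← Finset.mul_sum, ih, mul_one]
    exact sum_rowZ _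

/-- Paths from `v` whose exit sites are in `D` and that end in `B`. -/
def EB (D B : Set (Site d)) (v : Site d) : Set (List (Dir d)) :=
  {l | (∀ x ∈ exits v l, x ∈ D) ∧ v + dsp l ∈ B}

open Classical in
/-- Exit sites of a path from `v` before it leaves `D`. -/
noncomputable def exD (D : Set (Site d)) : Site d → List (Dir d) → Finset (Site d)
  | _, [] => ∅
  | v, u :: g => if v ∈ D then insert v (exD D (v + vec u) g) else ∅

@[simp] lemma exD_nil (D : Set (Site d)) (v : Site d) : exD D v [] = ∅ := rfl

open Classical in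
lemma exD_cons (D : Set (Site d)) (v : Site d) (u : Dir d) (g : List (Dir d)) :
    exD D v (u :: g) = if v ∈ D then insert v (exD D (v + vec u) g) else ∅ := rfl

lemma EB_free {D B : Set (Site d)} (hDB : Disjoint D B) (v : Site d) : Free (EB D B v) := by
  intro a ha b hb
  by_contra hne
  have h1 : v + dsp a ∈ exits v (a ++ b) := mem_exits.2 ⟨a, b, rfl, hne, rfl⟩
  exact (Set.disjoint_left.1 hDB) (hb.1 _ h1) ha.2

lemma tsum_qw_le_one {S : Set (List (Dir d))} (hS : Free S) (ω : Env d) (x : Site d) :
    ∑' l : S, qw ω x (l : List (Dir d)) ≤ 1 := by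
  simp only [← quenched_cyl]
  rw [← measure_iUnion]
  · exact prob_le_one
  · intro a b hab
    exact cyl_disjoint hS a.2 b.2 (fun h => hab (Subtype.ext h))
  · intro a
    exact measurableSet_cyl _ _

/-- Quenched probability to leave `D` through `B`. -/
noncomputable def hB (D B : Set (Site d)) (ω : Env d) (v : Site d) : ℝ≥0∞ :=
  ∑' l : EB D B v, qw ω v (l : List (Dir d))

lemma hB_le_one {D B : Set (Site d)} (hDB : Disjoint D B) (ω : Env d) (v : Site d) :
    hB D B ω v ≤ 1 := tsum_qw_le_one (EB_free hDB v) ω v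

lemma measurable_hB (D B : Set (Site d)) (v : Site d) :
    Measurable (fun ω : Env d => hB D B ω v) :=
  Measurable.tsum fun l => measurable_qw v (l : List (Dir d))

/-- The exit probability is superharmonic in `D`. -/
lemma hB_super {D B : Set (Site d)} (ω : Env d) {v : Site d} (hv : v ∈ D) :
    ∑ u : Dir d, ENNReal.ofReal ((ω v).1 u) * hB D B ω (v + vec u) ≤ hB D B ω v := by
  have hmem : ∀ p : (Σ u : Dir d, EB D B (v + vec u)), p.1 :: (p.2 : List (Dir d)) ∈ EB D B v := by
    rintro ⟨u, l, hl⟩
    refine ⟨?_, ?_⟩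
    · intro x hx
      rw [exits_cons, Finset.mem_insert] at hx
      rcases hx with rfl | hx
      · exact hv
      · exact hl.1 x hx
    · have := hl.2
      simpa [add_assoc] using this
  have hinj : Function.Injective (fun p : (Σ u : Dir d, EB D B (v + vec u)) =>
      (⟨p.1 :: (p.2 : List (Dir d)), hmem p⟩ : EB D B v)) := by
    rintro ⟨u, l, hl⟩ ⟨u', l', hl'⟩ h
    simp only [Subtype.mk.injEq, List.cons.injEq] at h
    obtain ⟨rfl, rfl⟩ := h
    rfl
  calc ∑ u : Dir d, ENNReal.ofReal ((ω v).1 u) * hB D B ω (v + vec u)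
      = ∑' u : Dir d, ∑' l : EB D B (v + vec u),
          qw ω v (u :: (l : List (Dir d))) := by
        rw [tsum_fintype]
        refine Finset.sum_congr rfl fun u _ => ?_
        simp only [qw_cons, ENNReal.tsum_mul_left, hB]
    _ = ∑' p : (Σ u : Dir d, EB D B (v + vec u)), qw ω v (p.1 :: (p.2 : List (Dir d))) :=
        (ENNReal.tsum_sigma' (fun p : (Σ u : Dir d, EB D B (v + vec u)) =>
          qw ω v (p.1 :: (p.2 : List (Dir d))))).symm
    _ ≤ hB D B ω v := ENNReal.tsum_comp_le_tsum_of_injective hinj
        (fun l : EB D B v => qw ω v (l : List (Dir d)))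

/-- First visit of a finite set of sites. -/
lemma first_visit {S : Finset (Site d)} {y : Site d} {l : List (Dir d)}
    (h : ¬ Disjoint (exits y l) S) :
    ∃ a b, l = a ++ b ∧ b ≠ [] ∧ Disjoint (exits y a) S ∧ y + dsp a ∈ S := by
  induction l generalizing y with
  | nil => simp at h
  | cons u l ih =>
    by_cases hy : y ∈ S
    · exact ⟨[], u :: l, rfl, by simp, by simp, by simpa using hy⟩
    · have h' : ¬ Disjoint (exits (y + vec u) l) S := by
        intro h'
        apply h
        rw [exits_cons, Finset.disjoint_insert_left]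
        exact ⟨hy, h'⟩
      obtain ⟨a, b, rfl, hb, h1, h2⟩ := ih h'
      refine ⟨u :: a, b, rfl, hb, ?_, ?_⟩
      · rw [exits_cons, Finset.disjoint_insert_left]
        exact ⟨hy, h1⟩
      · simpa [add_assoc] using h2

/-- Paths from `y` up to the first visit of `S`. -/
def FV (S : Finset (Site d)) (y : Site d) : Set (List (Dir d)) :=
  {l | Disjoint (exits y l) S ∧ y + dsp l ∈ S}

lemma FV_free (S : Finset (Site d)) (y : Site d) : Free (FV S y) := by
  intro a ha b hb
  by_contra hne
  have h1 : y + dsp a ∈ exits y (a ++ b) := mem_exits.2 ⟨a, b, rfl, hne, rfl⟩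
  exact (Finset.disjoint_left.1 hb.1) h1 ha.2

/-- The quenched weight of the exit paths that meet `S` is at most the largest exit probability
from a site of `S`. -/
lemma meet_le {D B : Set (Site d)} (ω : Env d) (y : Site d) (S : Finset (Site d))
    {T : Set (List (Dir d))} (hT : T ⊆ EB D B y) (P : List (Dir d) → Prop) [DecidablePred P]
    (hP : ∀ l ∈ T, P l → ¬ Disjoint (exits y l) S) :
    ∑' l : T, qw ω y (l : List (Dir d)) * (if P l then 1 else 0) ≤ S.sup (hB D B ω) := by
  classical
  have h1 : ∑' l : T, qw ω y (l : List (Dir d)) * (if P l then 1 else 0) =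
      ∑' l : {l : List (Dir d) // l ∈ T ∧ P l}, qw ω y (l : List (Dir d)) := by
    rw [tsum_subtype T (fun l => qw ω y l * (if P l then 1 else 0))]
    rw [show (∑' l : {l : List (Dir d) // l ∈ T ∧ P l}, qw ω y (l : List (Dir d))) =
      ∑' l : ({l : List (Dir d) | l ∈ T ∧ P l} : Set (List (Dir d))), qw ω y (l : List (Dir d))
      from rfl]
    rw [tsum_subtype {l : List (Dir d) | l ∈ T ∧ P l} (fun l => qw ω y l)]
    refine tsum_congr fun l => ?_
    simp only [Set.indicator_apply, Set.mem_ofPred_eq]
    by_cases h1 : l ∈ T <;> by_cases h2 : P l <;> simp [h1, h2]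
  have hdec : ∀ l : {l : List (Dir d) // l ∈ T ∧ P l}, ∃ p : (Σ a : FV S y, EB D B (y + dsp a.1)),
      (p.1 : List (Dir d)) ++ (p.2 : List (Dir d)) = l := by
    rintro ⟨l, hl, hPl⟩
    obtain ⟨a, b, rfl, hb, h1, h2⟩ := first_visit (hP l hl hPl)
    refine ⟨⟨⟨a, h1, h2⟩, ⟨b, ?_, ?_⟩⟩, rfl⟩
    · intro x hx
      exact (hT hl).1 x (by rw [exits_append]; exact Finset.mem_union_right _ hx)
    · have := (hT hl).2
      rwa [dsp_append, ← add_assoc] at this
  choose f hf using hdec
  have hinj : Function.Injective f := by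
    intro l l' h
    apply Subtype.ext
    rw [← hf l, ← hf l', h]
  rw [h1]
  calc ∑' l : {l : List (Dir d) // l ∈ T ∧ P l}, qw ω y (l : List (Dir d))
      = ∑' l : {l : List (Dir d) // l ∈ T ∧ P l},
          (fun p : (Σ a : FV S y, EB D B (y + dsp a.1)) =>
            qw ω y ((p.1 : List (Dir d)) ++ (p.2 : List (Dir d)))) (f l) := by
        refine tsum_congr fun l => ?_
        simp only [hf l]
    _ ≤ ∑' p : (Σ a : FV S y, EB D B (y + dsp a.1)),
          qw ω y ((p.1 : List (Dir d)) ++ (p.2 : List (Dir d))) :=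
        ENNReal.tsum_comp_le_tsum_of_injective hinj _
    _ = ∑' a : FV S y, ∑' b : EB D B (y + dsp a.1),
          qw ω y ((a : List (Dir d)) ++ (b : List (Dir d))) := ENNReal.tsum_sigma' _
    _ = ∑' a : FV S y, qw ω y (a : List (Dir d)) * hB D B ω (y + dsp (a : List (Dir d))) := by
        refine tsum_congr fun a => ?_
        simp only [qw_append, ENNReal.tsum_mul_left, hB]
    _ ≤ ∑' a : FV S y, qw ω y (a : List (Dir d)) * S.sup (hB D B ω) := by
        refine ENNReal.tsum_le_tsum fun a => ?_
        gcongr
        exact Finset.le_sup (f := hB D B ω) a.2.2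
    _ ≤ 1 * S.sup (hB D B ω) := by
        rw [ENNReal.tsum_mul_right]
        gcongr
        exact tsum_qw_le_one (FV_free S y) ω y
    _ = _ := one_mul _

/-- Elementary inequality behind Doob's maximal inequality. -/
lemma log_step {M h : ℝ} (hM : 0 < M) (hMh : M ≤ h) :
    h + h * Real.log (1 / h) ≤ M + h * Real.log (1 / M) := by
  have hh : 0 < h := hM.trans_le hMh
  rw [one_div, one_div, Real.log_inv, Real.log_inv]
  have h1 := Real.log_le_sub_one_of_pos (div_pos hM hh)
  rw [Real.log_div hM.ne' hh.ne'] at h1
  have h2 := mul_le_mul_of_nonneg_left h1 hh.le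
  have h3 : h * (M / h - 1) = M - h := by field_simp
  rw [h3] at h2
  linarith only [h2]

/-- **Doob's maximal inequality** for the quenched exit probability, as a path sum. -/
lemma doob {D B : Set (Site d)} (hDB : Disjoint D B) (ω : Env d) (k : ℕ) (v : Site d) {M : ℝ}
    (hM : 0 < M) (hM1 : M ≤ 1) :
    ∑ g ∈ wds d k, qw ω v g * max (ENNReal.ofReal M) ((exD D v g).sup (hB D B ω)) ≤
      ENNReal.ofReal M + hB D B ω v * ENNReal.ofReal (Real.log (1 / M)) := by
  induction k generalizing v M with
  | zero => simp
  | succ k ih =>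
    rw [sum_wds_succ]
    by_cases hv : v ∈ D
    · -- the new maximum
      have hle1 := hB_le_one hDB ω v
      set h := hB D B ω v with hh
      have hfin : h ≠ ⊤ := (hle1.trans_lt ENNReal.one_lt_top).ne
      set M' : ℝ := max M h.toReal with hM'
      have hM'0 : 0 < M' := lt_max_of_lt_left hM
      have hM'1 : M' ≤ 1 := max_le hM1 (by
        rw [← ENNReal.toReal_one]
        exact ENNReal.toReal_mono ENNReal.one_ne_top hle1)
      have hofM' : ENNReal.ofReal M' = max (ENNReal.ofReal M) h := by
        rw [hM', ENNReal.ofReal_max, ENNReal.ofReal_toReal hfin]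
      have e1 : ∀ (u : Dir d) (g : List (Dir d)),
          max (ENNReal.ofReal M) ((exD D v (u :: g)).sup (hB D B ω)) =
          max (ENNReal.ofReal M') ((exD D (v + vec u) g).sup (hB D B ω)) := by
        intro u g
        classical
        rw [exD_cons, if_pos hv, Finset.sup_insert, hofM', max_assoc]
      calc ∑ u : Dir d, ∑ g ∈ wds d k, qw ω v (u :: g) *
            max (ENNReal.ofReal M) ((exD D v (u :: g)).sup (hB D B ω))
          = ∑ u : Dir d, ENNReal.ofReal ((ω v).1 u) * ∑ g ∈ wds d k, qw ω (v + vec u) g *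
            max (ENNReal.ofReal M') ((exD D (v + vec u) g).sup (hB D B ω)) := by
            refine Finset.sum_congr rfl fun u _ => ?_
            rw [Finset.mul_sum]
            refine Finset.sum_congr rfl fun g _ => ?_
            rw [e1, qw_cons, mul_assoc]
        _ ≤ ∑ u : Dir d, ENNReal.ofReal ((ω v).1 u) * (ENNReal.ofReal M' +
            hB D B ω (v + vec u) * ENNReal.ofReal (Real.log (1 / M'))) := by
            refine Finset.sum_le_sum fun u _ => ?_
            gcongr
            exact ih (v + vec u) hM'0 hM'1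
        _ = (∑ u : Dir d, ENNReal.ofReal ((ω v).1 u)) * ENNReal.ofReal M' +
            (∑ u : Dir d, ENNReal.ofReal ((ω v).1 u) * hB D B ω (v + vec u)) *
              ENNReal.ofReal (Real.log (1 / M')) := by
            rw [Finset.sum_mul, Finset.sum_mul, ← Finset.sum_add_distrib]
            refine Finset.sum_congr rfl fun u _ => ?_
            ring
        _ ≤ 1 * ENNReal.ofReal M' + h * ENNReal.ofReal (Real.log (1 / M')) := by
            rw [sum_rowZ]
            gcongr
            exact hB_super ω hv
        _ ≤ ENNReal.ofReal M + h * ENNReal.ofReal (Real.log (1 / M)) := by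
            rw [one_mul]
            have hl' : 0 ≤ Real.log (1 / M') := Real.log_nonneg (by
              rw [le_div_iff₀ hM'0]; linarith)
            have hl : 0 ≤ Real.log (1 / M) := Real.log_nonneg (by
              rw [le_div_iff₀ hM]; linarith)
            rw [← ENNReal.ofReal_toReal hfin, ← ENNReal.ofReal_mul ENNReal.toReal_nonneg,
              ← ENNReal.ofReal_mul ENNReal.toReal_nonneg,
              ← ENNReal.ofReal_add hM'0.le (mul_nonneg ENNReal.toReal_nonneg hl'),
              ← ENNReal.ofReal_add hM.le (mul_nonneg ENNReal.toReal_nonneg hl)]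
            refine ENNReal.ofReal_le_ofReal ?_
            rcases le_total M h.toReal with hc | hc
            · rw [hM', max_eq_right hc]
              exact log_step hM hc
            · rw [hM', max_eq_left hc]
    · have e1 : ∀ (u : Dir d) (g : List (Dir d)),
          max (ENNReal.ofReal M) ((exD D v (u :: g)).sup (hB D B ω)) = ENNReal.ofReal M := by
        intro u g
        classical
        rw [exD_cons, if_neg hv]
        simp
      calc _ = ∑ u : Dir d, ∑ g ∈ wds d k, qw ω v (u :: g) * ENNReal.ofReal M := by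
            refine Finset.sum_congr rfl fun u _ => Finset.sum_congr rfl fun g _ => ?_
            rw [e1]
        _ = (∑ g ∈ wds d (k + 1), qw ω v g) * ENNReal.ofReal M := by
            rw [sum_wds_succ, Finset.sum_mul]
            refine Finset.sum_congr rfl fun u _ => ?_
            rw [Finset.sum_mul]
        _ = ENNReal.ofReal M := by rw [sum_qwds, one_mul]
        _ ≤ _ := le_self_add

end Vale.Agent.P147.Z
end

section
attribute [-instance] ProperSMul.toContinuousSMul IsTopologicalTorsor.toContinuousSMul IdemSemiring.toCanonicallyOrderedAdd IdemSemiring.toMulLeftMono IdemSemiring.toMulRightMono AddQuantale.instAddLeftMono AddQuantale.instAddRightMono Quantale.instMulLeftMono Quantale.instMulRightMono FiniteDimensional.rclike_to_real IsScalarTower.complexToReal FiniteDimensional.complexToReal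

/-! Quenched and annealed laws: Markov property, heights given by a real linear functional,
escape and asymptotic independence. -/

open MeasureTheory Filter Topology
open scoped ENNReal

namespace Vale.Agent.P147.Z

variable {d : ℕ}

/-- An event that depends on finitely many positions is measurable. -/
lemma measurableSet_local (n : ℕ) (P : (ℕ → Site d) → Prop)
    (hP : ∀ X Y : ℕ → Site d, (∀ i ≤ n, X i = Y i) → P X → P Y) : MeasurableSet {X | P X} := by
  classical
  let ext : ((i : Finset.Iic n) → Site d) → (ℕ → Site d) :=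
    fun g i => if hi : i ≤ n then g ⟨i, by simpa only [Finset.mem_Iic] using hi⟩ else 0
  have e : {X | P X} = ⋃ g : {g : (i : Finset.Iic n) → Site d // P (ext g)}, pc n (ext g.1) := by
    ext X
    simp only [Set.mem_ofPred_eq, Set.mem_iUnion, pc, Subtype.exists]
    constructor
    · intro hX
      refine ⟨fun i => X i, ?_, fun i hi => by simp only [hi, ↓reduceDIte, ext]⟩
      exact hP X _ (fun i hi => by simp only [hi, ↓reduceDIte, ext]) hX
    · rintro ⟨g, hg, h⟩
      exact hP _ X (fun i hi => (h i hi).symm) hg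
  rw [e]
  exact MeasurableSet.iUnion fun g => measurableSet_pc _ _

/-- Lists of steps of a given length. -/
def lists (d : ℕ) : ℕ → Finset (List (Dir d))
  | 0 => {[]}
  | n + 1 => (Finset.univ ×ˢ lists d n).image (fun p : Dir d × List (Dir d) => p.1 :: p.2)

lemma mem_lists {n : ℕ} {l : List (Dir d)} : l ∈ lists d n ↔ l.length = n := by
  induction n generalizing l with
  | zero => simp only [lists, Finset.mem_singleton, List.length_eq_zero_iff]
  | succ n ih =>
    simp only [lists, Finset.mem_image, Finset.mem_product, Finset.mem_univ, true_and]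
    constructor
    · rintro ⟨⟨u, l'⟩, hl', rfl⟩
      simp [ih.1 hl']
    · intro h
      cases l with
      | nil => simp at h
      | cons u l => exact ⟨(u, l), ih.2 (by simpa using h), rfl⟩

lemma sum_row (p : Row d) : ∑ u, ENNReal.ofReal (p.1 u) = 1 := by
  have h := p.2
  rw [← ENNReal.ofReal_sum_of_nonneg (fun u _ => h.1 u), h.2, ENNReal.ofReal_one]

lemma sum_qw (ω : Env d) (x : Site d) (n : ℕ) : ∑ l ∈ lists d n, qw ω x l = 1 := by
  induction n generalizing x with
  | zero => simp only [lists, Finset.sum_singleton, qw_nil]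
  | succ n ih =>
    rw [lists, Finset.sum_image]
    · rw [Finset.sum_product]
      simp only [qw_cons]
      simp only [← Finset.mul_sum, ih, mul_one]
      exact sum_row _
    · rintro ⟨u, l⟩ _ ⟨v, l'⟩ _ h
      simpa using h

/-- The walk makes unit steps from `x`. -/
def Good (x : Site d) : Set (ℕ → Site d) := {X | ∀ n, ∃ l ∈ lists d n, X ∈ cyl x l}

lemma measurableSet_good (x : Site d) : MeasurableSet (Good x) := by
  have : Good x = ⋂ n, ⋃ l ∈ lists d n, cyl x l := by
    ext X; simp only [Good, Set.mem_ofPred_eq, Set.mem_iInter, Set.mem_iUnion, exists_prop]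
  rw [this]
  exact MeasurableSet.iInter fun n => Finset.measurableSet_biUnion _ fun l _ =>
    measurableSet_cyl x l

lemma quenched_good (ω : Env d) (x : Site d) : quenched ω x (Good x)ᶜ = 0 := by
  have : (Good x)ᶜ = ⋃ n, (⋃ l ∈ lists d n, cyl x l)ᶜ := by
    ext X; simp only [Good, Set.mem_compl_iff, Set.mem_ofPred_eq, not_forall, not_exists, not_and, Set.compl_iUnion, Set.mem_iUnion, Set.mem_iInter]
  rw [this, measure_iUnion_null_iff]
  intro n
  rw [prob_compl_eq_zero_iff (Finset.measurableSet_biUnion _ fun l _ => measurableSet_cyl x l)]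
  rw [measure_biUnion_finset]
  · simp only [quenched_cyl]
    exact sum_qw ω x n
  · intro a ha b hb hab
    have hfree : Free ((lists d n : Finset (List (Dir d))) : Set (List (Dir d))) := by
      intro a ha b hb
      simp only [Finset.mem_coe, mem_lists, List.length_append] at ha hb
      have : b.length = 0 := by omega
      exact List.length_eq_zero_iff.1 this
    exact cyl_disjoint hfree ha hb hab
  · intro l _
    exact measurableSet_cyl x l

lemma annealed_inter_good (μ : Measure (Row d)) (x : Site d) (A : Set (ℕ → Site d)) :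
    annealed μ x A ≤ annealed μ x (A ∩ Good x) := by
  refine lintegral_mono fun ω => ?_
  calc quenched ω x A ≤ quenched ω x ((A ∩ Good x) ∪ (Good x)ᶜ) := by
        refine measure_mono ?_
        intro X hX
        by_cases hg : X ∈ Good x
        · exact Or.inl ⟨hX, hg⟩
        · exact Or.inr hg
    _ ≤ quenched ω x (A ∩ Good x) + quenched ω x (Good x)ᶜ := measure_union_le _ _
    _ = quenched ω x (A ∩ Good x) := by rw [quenched_good, add_zero]

/-- Structure of good paths: segments are given by lists. -/
lemma good_segment {X : ℕ → Site d} {x : Site d} (hX : X ∈ Good x) {a : List (Dir d)}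
    (ha : X ∈ cyl x a) {n : ℕ} (hn : a.length ≤ n) :
    ∃ l, (a ++ l).length = n ∧ X ∈ cyl x (a ++ l) := by
  obtain ⟨b, hb, hXb⟩ := hX n
  rw [mem_lists] at hb
  obtain ⟨c, rfl⟩ := cyl_inter ha hXb (by omega)
  exact ⟨c, hb, hXb⟩

lemma cyl_pos {X : ℕ → Site d} {x : Site d} {l : List (Dir d)} (hX : X ∈ cyl x l) {a b}
    (hab : l = a ++ b) : X a.length = x + dsp a := by
  have := hX a.length (by rw [hab]; simp only [List.length_append, le_add_iff_nonneg_right, zero_le])
  rw [this, hab]; simp

/-- Time shift of a path. -/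
def tl (n : ℕ) (X : ℕ → Site d) : ℕ → Site d := fun k => X (k + n)

/-- Space translation of a path. -/
def tr (z : Site d) (X : ℕ → Site d) : ℕ → Site d := fun k => X k + z

/-- Invariance under space translations. -/
def TInv (A : Set (ℕ → Site d)) : Prop := ∀ (z : Site d) (X : ℕ → Site d), tr z X ∈ A ↔ X ∈ A

/-- Invariance under the time shift. -/
def SInv (A : Set (ℕ → Site d)) : Prop := ∀ X : ℕ → Site d, tl 1 X ∈ A ↔ X ∈ A

/-- The annealed law. -/
noncomputable def annM (μ : Measure (Row d)) (x : Site d) : Measure (ℕ → Site d) :=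
  (envLaw μ).bind (fun ω => quenched ω x)

lemma annM_apply (μ : Measure (Row d)) (x : Site d) {A : Set (ℕ → Site d)}
    (hA : MeasurableSet A) : annM μ x A = annealed μ x A := by
  rw [annM, Measure.bind_apply hA (measurable_quenched x).aemeasurable]
  rfl

instance (μ : Measure (Row d)) [IsProbabilityMeasure μ] (x : Site d) :
    IsProbabilityMeasure (annM μ x) := by
  constructor
  rw [annM_apply μ x MeasurableSet.univ]
  simp [annealed]

lemma measurable_tl (n : ℕ) : Measurable (tl n : (ℕ → Site d) → (ℕ → Site d)) :=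
  measurable_pi_lambda _ fun k => measurable_pi_apply (k + n)

lemma measurable_tr (z : Site d) : Measurable (tr z : (ℕ → Site d) → (ℕ → Site d)) :=
  measurable_pi_lambda _ fun k =>
    (measurable_of_countable (fun y : Site d => y + z)).comp (measurable_pi_apply k)

lemma tinv_inter {A B : Set (ℕ → Site d)} (hA : TInv A) (hB : TInv B) : TInv (A ∩ B) :=
  fun z X => and_congr (hA z X) (hB z X)

lemma sinv_tl {A : Set (ℕ → Site d)} (hA : SInv A) (n : ℕ) (X : ℕ → Site d) :
    tl n X ∈ A ↔ X ∈ A := by
  induction n with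
  | zero => rfl
  | succ n ih =>
    rw [← ih, ← hA (tl n X)]
    have : tl 1 (tl n X) = tl (n + 1) X := by
      funext k; simp only [tl]; congr 1; omega
    rw [this]

lemma mk_nonneg (x : Site d) (l : List (Dir d)) : (fun n => x + dsp (l.take n)) ∈ cyl x l :=
  fun _ _ => rfl

lemma mk_pc {ν ν' : Measure (ℕ → Site d)} (x : Site d)
    (hg : ν (Good x)ᶜ = 0) (hg' : ν' (Good x)ᶜ = 0)
    (h : ∀ l : List (Dir d), ν (cyl x l) = ν' (cyl x l)) (n : ℕ) (g : ℕ → Site d) :
    ν (pc n g) = ν' (pc n g) := by
  by_cases hl : ∃ l ∈ lists d n, ∀ i ≤ n, g i = x + dsp (l.take i)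
  · obtain ⟨l, hl, hgl⟩ := hl
    rw [mem_lists] at hl
    have : pc n g = cyl x l := by
      ext X
      simp only [pc, cyl, Set.mem_ofPred_eq, hl]
      exact forall_congr' fun i => forall_congr' fun hi => by rw [hgl i hi]
    rw [this]
    exact h l
  · have hsub : pc n g ⊆ (Good x)ᶜ := by
      intro X hX hgX
      obtain ⟨l, hl', hXl⟩ := hgX n
      apply hl
      refine ⟨l, hl', fun i hi => ?_⟩
      rw [← hX i hi]
      exact hXl i (by rw [mem_lists.1 hl']; exact hi)
    rw [measure_mono_null hsub hg, measure_mono_null hsub hg']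

lemma mk_cylinder {ν ν' : Measure (ℕ → Site d)}
    (h : ∀ n g, ν (pc n g) = ν' (pc n g)) {s : Set (ℕ → Site d)}
    (hs : s ∈ measurableCylinders (fun _ : ℕ => Site d)) : ν s = ν' s := by
  rw [MeasureTheory.mem_measurableCylinders] at hs
  obtain ⟨I, T, hT, rfl⟩ := hs
  set n := I.sup id with hn
  have hsub : ∀ i ∈ I, i ∈ Finset.Iic n := fun i hi => by
    simp only [Finset.mem_Iic]
    exact Finset.le_sup (f := id) hi
  set T' : Set ((i : Finset.Iic n) → Site d) :=
    {g | (fun i : I => g ⟨i, hsub i i.2⟩) ∈ T} with hT'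
  have e : cylinder I T = Preorder.frestrictLe (π := fun _ : ℕ => Site d) n ⁻¹' T' := by
    ext X
    simp only [cylinder, Set.mem_preimage, hT', Set.mem_ofPred_eq]
    rfl
  rw [e]
  have e2 : Preorder.frestrictLe (π := fun _ : ℕ => Site d) n ⁻¹' T' =
      ⋃ g : T', Preorder.frestrictLe (π := fun _ : ℕ => Site d) n ⁻¹' {g.1} := by
    ext X; simp only [Set.mem_preimage, Set.iUnion_coe_set, Set.biUnion_preimage_singleton]
  have hm : ∀ g : (i : Finset.Iic n) → Site d,
      Preorder.frestrictLe (π := fun _ : ℕ => Site d) n ⁻¹' {g} =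
        pc n (fun i => if hi : i ≤ n then g ⟨i, by simpa only [Finset.mem_Iic] using hi⟩ else 0) := by
    intro g
    rw [← frestrictLe_preimage]
    congr 2
    funext i
    have := i.2
    simp only [Finset.mem_Iic] at this
    simp only [this, ↓reduceDIte, Subtype.coe_eta]
  have e3 : ∀ κ : Measure (ℕ → Site d),
      κ (Preorder.frestrictLe (π := fun _ : ℕ => Site d) n ⁻¹' T') =
      ∑' g : T', κ (pc n (fun i => if hi : i ≤ n then g.1 ⟨i, by simpa only [Finset.mem_Iic] using hi⟩ else 0)) := by
    intro κ
    rw [e2, measure_iUnion]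
    · simp only [hm]
    · intro g g' hgg
      refine Disjoint.preimage _ ?_
      rw [Set.disjoint_singleton]
      exact fun h => hgg (Subtype.ext h)
    · intro g
      rw [hm]
      exact measurableSet_pc _ _
  rw [e3, e3]
  exact tsum_congr fun g => h _ _

/-- Two finite measures on nearest neighbour paths that agree on cylinders are equal. -/
theorem measure_ext_cyl {ν ν' : Measure (ℕ → Site d)} [IsFiniteMeasure ν] (x : Site d)
    (hg : ν (Good x)ᶜ = 0) (hg' : ν' (Good x)ᶜ = 0)
    (h : ∀ l : List (Dir d), ν (cyl x l) = ν' (cyl x l)) : ν = ν' := by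
  refine MeasureTheory.ext_of_generate_finite (measurableCylinders (fun _ : ℕ => Site d))
    (MeasureTheory.generateFrom_measurableCylinders).symm
    MeasureTheory.isPiSystem_measurableCylinders
    (fun s hs => mk_cylinder (mk_pc x hg hg' h) hs)
    (mk_cylinder (mk_pc x hg hg' h) (MeasureTheory.univ_mem_measurableCylinders _))

lemma mk_tl {X : ℕ → Site d} (x : Site d) (l l' : List (Dir d)) :
    X ∈ cyl x (l ++ l') ↔ X ∈ cyl x l ∧ tl l.length X ∈ cyl (x + dsp l) l' := by
  constructor
  · intro hX
    refine ⟨fun n hn => ?_, fun n hn => ?_⟩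
    · rw [hX n (by rw [List.length_append]; omega), List.take_append_of_le_length hn]
    · unfold tl
      rw [hX (n + l.length) (by rw [List.length_append]; omega), add_comm n l.length,
        List.take_length_add_append, dsp_append, add_assoc]
  · rintro ⟨h1, h2⟩ n hn
    rw [List.length_append] at hn
    rcases Nat.le_total n l.length with h | h
    · rw [h1 n h, List.take_append_of_le_length h]
    · obtain ⟨m, rfl⟩ : ∃ m, n = m + l.length := ⟨n - l.length, by omega⟩
      have := h2 m (by omega)
      unfold tl at this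
      rw [this, add_comm m l.length, List.take_length_add_append, dsp_append, add_assoc]

lemma mk_good_tl {X : ℕ → Site d} {x : Site d} {l : List (Dir d)} (hX : X ∈ Good x)
    (hl : X ∈ cyl x l) : tl l.length X ∈ Good (x + dsp l) := by
  intro n
  obtain ⟨l', h1, h2⟩ := good_segment hX hl (n := l.length + n) (by omega)
  rw [List.length_append] at h1
  exact ⟨l', mem_lists.2 (by omega), ((mk_tl x l l').1 h2).2⟩

/-- The Markov property. -/
theorem quenched_markov (ω : Env d) (x : Site d) (l : List (Dir d)) {A : Set (ℕ → Site d)}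
    (hA : MeasurableSet A) :
    quenched ω x (cyl x l ∩ tl l.length ⁻¹' A) = qw ω x l * quenched ω (x + dsp l) A := by
  have happ : ∀ B : Set (ℕ → Site d), MeasurableSet B →
      (((quenched ω x).restrict (cyl x l)).map (tl l.length)) B
        = quenched ω x (cyl x l ∩ tl l.length ⁻¹' B) := by
    intro B hB
    rw [Measure.map_apply (measurable_tl _) hB,
      Measure.restrict_apply ((measurable_tl _) hB), Set.inter_comm]
  have key : ((quenched ω x).restrict (cyl x l)).map (tl l.length)
      = qw ω x l • quenched ω (x + dsp l) := by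
    refine measure_ext_cyl (x + dsp l) ?_ ?_ ?_
    · rw [happ _ (measurableSet_good _).compl]
      refine measure_mono_null ?_ (quenched_good ω x)
      rintro X ⟨h1, h2⟩ h3
      exact h2 (mk_good_tl h3 h1)
    · rw [Measure.smul_apply, quenched_good, smul_zero]
    · intro l'
      rw [happ _ (measurableSet_cyl _ _), Measure.smul_apply, quenched_cyl, smul_eq_mul,
        ← qw_append, ← quenched_cyl]
      congr 1
      ext X
      rw [mk_tl]
      rfl
  rw [← happ A hA, key, Measure.smul_apply, smul_eq_mul]

/-- Space translations. -/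
theorem quenched_shift (ω : Env d) (x z : Site d) {A : Set (ℕ → Site d)}
    (hA : MeasurableSet A) :
    quenched (shift z ω) x A = quenched ω (x + z) (tr (-z) ⁻¹' A) := by
  have hcyl : ∀ l : List (Dir d), tr (-z) ⁻¹' (cyl x l) = cyl (x + z) l := by
    intro l
    ext X
    simp only [Set.mem_preimage, cyl, Set.mem_ofPred_eq, tr]
    refine forall_congr' fun n => forall_congr' fun _ => ?_
    constructor
    · intro h
      have h' : X n = x + dsp (l.take n) + z := by rw [← h]; abel
      rw [h']; abel
    · intro h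
      rw [h]; abel
  have hgood : tr (-z) ⁻¹' (Good x) = Good (x + z) := by
    ext X
    simp only [Set.mem_preimage, Good, Set.mem_ofPred_eq]
    refine forall_congr' fun n => exists_congr fun l => and_congr_right fun _ => ?_
    rw [← hcyl l]
    rfl
  have key : quenched (shift z ω) x = (quenched ω (x + z)).map (tr (-z)) := by
    refine measure_ext_cyl x (quenched_good _ _) ?_ ?_
    · rw [Measure.map_apply (measurable_tr _) (measurableSet_good _).compl, Set.preimage_compl,
        hgood, quenched_good]
    · intro l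
      rw [Measure.map_apply (measurable_tr _) (measurableSet_cyl _ _), hcyl, quenched_cyl,
        quenched_cyl, qw_shift]
  rw [key, Measure.map_apply (measurable_tr _) hA]

open Classical in
/-- Probability of an event which depends on the first `m` steps. -/
lemma mk_fin (ω : Env d) (x : Site d) (m : ℕ) {S : Set (ℕ → Site d)}
    (hS : ∀ X Y : ℕ → Site d, (∀ i ≤ m, X i = Y i) → X ∈ S → Y ∈ S) :
    quenched ω x S = ∑ l ∈ (lists d m).filter (fun l => cyl x l ⊆ S), qw ω x l := by
  have hmem : ∀ l, l ∈ (lists d m).filter (fun l => cyl x l ⊆ S) ↔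
      l.length = m ∧ cyl x l ⊆ S := by
    intro l
    rw [Finset.mem_filter, mem_lists]
  have h1 : quenched ω x (⋃ l ∈ (lists d m).filter (fun l => cyl x l ⊆ S), cyl x l)
      = ∑ l ∈ (lists d m).filter (fun l => cyl x l ⊆ S), qw ω x l := by
    rw [measure_biUnion_finset]
    · simp only [quenched_cyl]
    · intro a ha b hb hab
      have hfree : Free ((lists d m : Finset (List (Dir d))) : Set (List (Dir d))) := by
        intro a ha b hb
        simp only [Finset.mem_coe, mem_lists, List.length_append] at ha hb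
        have : b.length = 0 := by omega
        exact List.length_eq_zero_iff.1 this
      exact cyl_disjoint hfree (Finset.mem_coe.2 (Finset.mem_filter.1 (Finset.mem_coe.1 ha)).1)
        (Finset.mem_coe.2 (Finset.mem_filter.1 (Finset.mem_coe.1 hb)).1) hab
    · intro l _
      exact measurableSet_cyl x l
  rw [← h1]
  refine le_antisymm ?_ (measure_mono ?_)
  · calc quenched ω x S ≤ quenched ω x
          ((⋃ l ∈ (lists d m).filter (fun l => cyl x l ⊆ S), cyl x l) ∪ (Good x)ᶜ) := by
          refine measure_mono fun X hX => ?_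
          by_cases hg : X ∈ Good x
          · left
            obtain ⟨l, hl, hXl⟩ := hg m
            rw [mem_lists] at hl
            refine Set.mem_iUnion₂.2 ⟨l, (hmem l).2 ⟨hl, fun Y hY => ?_⟩, hXl⟩
            refine hS X Y (fun i hi => ?_) hX
            rw [hXl i (by omega), hY i (by omega)]
          · exact Or.inr hg
      _ ≤ _ + quenched ω x (Good x)ᶜ := measure_union_le _ _
      _ = _ := by rw [quenched_good, add_zero]
  · exact Set.iUnion₂_subset fun l hl => ((hmem l).1 hl).2

section gen

variable (μ : Measure (Row d)) [IsProbabilityMeasure μ]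

/-- A translation invariant event has the same annealed probability from every point. -/
theorem annealed_tinv (x : Site d) {A : Set (ℕ → Site d)} (hA : MeasurableSet A) (hT : TInv A) :
    annealed μ x A = annealed μ 0 A := by
  have h1 : ∀ ω : Env d, quenched (shift x ω) 0 A = quenched ω x A := by
    intro ω
    rw [quenched_shift ω 0 x hA, zero_add]
    congr 1
    ext X
    exact hT (-x) X
  have h2 := (measurePreserving_shift μ x).lintegral_comp (measurable_quenched_apply 0 hA)
  simp only [h1] at h2
  exact h2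

/-- The sigma-algebra of the rows at the sites of a set. -/
abbrev freshAlg (S : Set (Site d)) : MeasurableSpace (Env d) :=
  ⨆ y ∈ S, MeasurableSpace.comap (fun ω : Env d => ω y) inferInstance

omit [IsProbabilityMeasure μ] in
lemma freshAlg_le (S : Set (Site d)) : freshAlg S ≤ (inferInstance : MeasurableSpace (Env d)) := by
  refine iSup₂_le fun y _ => ?_
  exact (measurable_pi_apply y).comap_le

lemma freshAlg_measurable [Nonempty (Row d)] {S : Set (Site d)} {F : Env d → ℝ≥0∞}
    (hF : Measurable F) (hloc : ∀ ω ω' : Env d, (∀ y ∈ S, ω y = ω' y) → F ω = F ω') :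
    Measurable[freshAlg S] F := by
  classical
  let p0 : Row d := Classical.arbitrary _
  let m : Env d → Env d := fun ω y => if y ∈ S then ω y else p0
  have hm : Measurable[freshAlg S] m := by
    refine @measurable_pi_lambda (Env d) (Site d) (fun _ => Row d) (freshAlg S) _ m fun y => ?_
    by_cases hy : y ∈ S
    · have e : (fun ω : Env d => m ω y) = fun ω : Env d => ω y := by
        funext ω; simp [m, hy]
      rw [e]
      refine measurable_iff_comap_le.2 ?_
      exact le_iSup₂ (f := fun (y : Site d) (_ : y ∈ S) =>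
        MeasurableSpace.comap (fun ω : Env d => ω y) inferInstance) y hy
    · have e : (fun ω : Env d => m ω y) = fun _ : Env d => p0 := by
        funext ω; simp [m, hy]
      rw [e]
      exact measurable_const
  have e : F = F ∘ m := by
    funext ω
    exact hloc ω (m ω) fun y hy => by simp [m, hy]
  rw [e]
  exact hF.comp hm

lemma freshAlg_indep {S T : Set (Site d)} (hST : Disjoint S T) :
    ProbabilityTheory.Indep (freshAlg S) (freshAlg T) (envLaw μ) := by
  have hind : ProbabilityTheory.iIndepFun (fun (i : Site d) (ω : Env d) => ω i) (envLaw μ) :=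
    ProbabilityTheory.iIndepFun_infinitePi (P := fun _ : Site d => μ) (X := fun _ p => p)
      (fun _ => measurable_id)
  exact ProbabilityTheory.indep_iSup_of_disjoint
    (fun y => (measurable_pi_apply y).comap_le) hind hST

end gen

lemma cylinder_local {G : Set (ℕ → Site d)}
    (hG : G ∈ measurableCylinders (fun _ : ℕ => Site d)) :
    ∃ n : ℕ, ∀ X Y : ℕ → Site d, (∀ i ≤ n, X i = Y i) → X ∈ G → Y ∈ G := by
  rw [mem_measurableCylinders] at hG
  obtain ⟨I, T, _, rfl⟩ := hG
  refine ⟨I.sup id, fun X Y hXY hX => ?_⟩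
  have : (fun i : I => Y i) = fun i : I => X i := by
    funext i
    exact (hXY i (Finset.le_sup (f := id) i.2)).symm
  simp only [cylinder, Set.mem_preimage] at hX ⊢
  convert hX using 1
  exact this

/-- The path escapes upwards. -/
def EscR (h : Site d →+ ℝ) : Set (ℕ → Site d) := {X | Tendsto (fun n => h (X n)) atTop atTop}

/-- The path stays at or above its starting height. -/
def StayR (h : Site d →+ ℝ) : Set (ℕ → Site d) := {X | ∀ n, h (X 0) ≤ h (X n)}

/-- Escape upwards without ever going below the starting height. -/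
def UpR (h : Site d →+ ℝ) : Set (ℕ → Site d) := StayR h ∩ EscR h

/-- The first passage at height `≥ k`. -/
def FPR (h : Site d →+ ℝ) (k : ℕ) : Set (List (Dir d)) :=
  {l | (∀ a b, l = a ++ b → b ≠ [] → h (dsp a) < k) ∧ (k : ℝ) ≤ h (dsp l)}

/-- The walk from `0` reaches height `k`, and the path after the first passage is in `A`. -/
def RAR (h : Site d →+ ℝ) (A : Set (ℕ → Site d)) (k : ℕ) : Set (ℕ → Site d) :=
  ⋃ l ∈ FPR h k, cyl 0 l ∩ tl l.length ⁻¹' A

lemma measurableSet_stayR (h : Site d →+ ℝ) : MeasurableSet (StayR h) := by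
  have : StayR h = ⋂ n : ℕ, {X | h (X 0) ≤ h (X n)} := by ext X; simp only [StayR, Set.mem_ofPred_eq, Set.mem_iInter]
  rw [this]
  exact MeasurableSet.iInter fun n => measurableSet_local n _ fun X Y hXY hX => by
    rw [← hXY n le_rfl, ← hXY 0 (by omega)]; exact hX

lemma measurableSet_escR (h : Site d →+ ℝ) : MeasurableSet (EscR h) := by
  have : EscR h = ⋂ K : ℕ, ⋃ M : ℕ, ⋂ n : ℕ, {X | M ≤ n → (K : ℝ) ≤ h (X n)} := by
    ext X
    simp only [EscR, Set.mem_ofPred_eq, tendsto_atTop_atTop, Set.mem_iInter, Set.mem_iUnion]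
    constructor
    · intro H K
      exact H K
    · intro H b
      obtain ⟨K, hK⟩ := exists_nat_ge b
      obtain ⟨M, hM⟩ := H K
      exact ⟨M, fun n hn => hK.trans (hM n hn)⟩
  rw [this]
  refine MeasurableSet.iInter fun K => MeasurableSet.iUnion fun M => MeasurableSet.iInter
      fun n => ?_
  refine measurableSet_local n _ fun X Y hXY hX hn => ?_
  rw [← hXY n le_rfl]; exact hX hn

lemma measurableSet_upR (h : Site d →+ ℝ) : MeasurableSet (UpR h) :=
  (measurableSet_stayR h).inter (measurableSet_escR h)

lemma tinv_stayR (h : Site d →+ ℝ) : TInv (StayR h) := by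
  intro z X
  simp only [StayR, Set.mem_ofPred_eq, tr, map_add, add_le_add_iff_right]

lemma tinv_escR (h : Site d →+ ℝ) : TInv (EscR h) := by
  intro z X
  simp only [EscR, Set.mem_ofPred_eq, tr, map_add]
  constructor
  · intro hX
    have := tendsto_atTop_add_const_right atTop (-h z) hX
    simpa only [add_neg_cancel_right] using this
  · intro hX
    exact tendsto_atTop_add_const_right atTop (h z) hX

lemma tinv_upR (h : Site d →+ ℝ) : TInv (UpR h) := tinv_inter (tinv_stayR h) (tinv_escR h)

lemma sinv_escR (h : Site d →+ ℝ) : SInv (EscR h) := by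
  intro X
  exact tendsto_add_atTop_iff_nat (f := fun n => h (X n)) 1

lemma mk_localR (h : Site d →+ ℝ) (x : Site d) {ω ω' : Env d}
    (hω : ∀ y, h x ≤ h y → ω y = ω' y) (l₀ : List (Dir d)) :
    quenched ω x (cyl x l₀ ∩ {X | ∀ n, h x ≤ h (X n)})
      = quenched ω' x (cyl x l₀ ∩ {X | ∀ n, h x ≤ h (X n)}) := by
  classical
  set S : ℕ → Set (ℕ → Site d) := fun m =>
    cyl x l₀ ∩ {X | ∀ n ≤ m + l₀.length, h x ≤ h (X n)} with hS
  have hloc : ∀ m, ∀ X Y : ℕ → Site d, (∀ i ≤ m + l₀.length, X i = Y i) → X ∈ S m → Y ∈ S m := by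
    rintro m X Y hXY ⟨h1, h2⟩
    refine ⟨fun n hn => ?_, fun n hn => ?_⟩
    · rw [← hXY n (by omega)]; exact h1 n hn
    · rw [← hXY n hn]; exact h2 n hn
  have hmeas : ∀ m, MeasurableSet (S m) := fun m =>
    measurableSet_local (m + l₀.length) (fun X => X ∈ S m) (hloc m)
  have hanti : Antitone S := by
    rintro a b hab X ⟨h1, h2⟩
    exact ⟨h1, fun n hn => h2 n (by omega)⟩
  have hint : cyl x l₀ ∩ {X | ∀ n, h x ≤ h (X n)} = ⋂ m, S m := by
    ext X
    simp only [hS, Set.mem_inter_iff, Set.mem_iInter, Set.mem_ofPred_eq]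
    constructor
    · rintro ⟨h1, h2⟩ m
      exact ⟨h1, fun n _ => h2 n⟩
    · intro H
      exact ⟨(H 0).1, fun n => (H n).2 n (by omega)⟩
  have heq : ∀ m, quenched ω x (S m) = quenched ω' x (S m) := by
    intro m
    rw [mk_fin ω x _ (hloc m), mk_fin ω' x _ (hloc m)]
    refine Finset.sum_congr rfl fun l hl => ?_
    rw [Finset.mem_filter, mem_lists] at hl
    refine qw_congr fun y hy => hω y ?_
    obtain ⟨a, b, hab, _, rfl⟩ := mem_exits.1 hy
    have h1 := hl.2 (mk_nonneg x l)
    have h2 := h1.2 a.length (by rw [← hl.1, hab, List.length_append]; omega)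
    rw [hab] at h2
    simpa only [map_add, le_add_iff_nonneg_right, ge_iff_le, List.take_left'] using h2
  have t1 := tendsto_measure_iInter_atTop (μ := quenched ω x)
    (fun m => (hmeas m).nullMeasurableSet) hanti ⟨0, measure_ne_top _ _⟩
  have t2 := tendsto_measure_iInter_atTop (μ := quenched ω' x)
    (fun m => (hmeas m).nullMeasurableSet) hanti ⟨0, measure_ne_top _ _⟩
  have e : (quenched ω x) ∘ S = (quenched ω' x) ∘ S := funext heq
  rw [e] at t1
  rw [hint]
  exact tendsto_nhds_unique t1 t2

/-- The probability of an event on which the path stays above `h x` depends only on the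
environment at heights at least `h x`. -/
theorem quenched_localR (h : Site d →+ ℝ) (x : Site d) {ω ω' : Env d}
    (hω : ∀ y, h x ≤ h y → ω y = ω' y) {A : Set (ℕ → Site d)} (hA : MeasurableSet A)
    (hsub : A ⊆ StayR h) : quenched ω x A = quenched ω' x A := by
  set K : Set (ℕ → Site d) := {X | ∀ n, h x ≤ h (X n)} with hK
  have hKm : MeasurableSet K := by
    have : K = ⋂ n : ℕ, {X : ℕ → Site d | h x ≤ h (X n)} := by ext X; simp only [hK, Set.mem_ofPred_eq, Set.mem_iInter]
    rw [this]
    exact MeasurableSet.iInter fun n => measurableSet_local n _ fun X Y hXY hX => by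
      rw [← hXY n le_rfl]; exact hX
  have key : (quenched ω x).restrict K = (quenched ω' x).restrict K := by
    refine measure_ext_cyl x ?_ ?_ ?_
    · exact le_antisymm ((Measure.restrict_apply_le _ _).trans (quenched_good ω x).le) zero_le
    · exact le_antisymm ((Measure.restrict_apply_le _ _).trans (quenched_good ω' x).le) zero_le
    · intro l
      rw [Measure.restrict_apply (measurableSet_cyl x l),
        Measure.restrict_apply (measurableSet_cyl x l)]
      exact mk_localR h x hω l
  have hAK : ∀ ω : Env d, quenched ω x A = (quenched ω x).restrict K A := by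
    intro ω
    rw [Measure.restrict_apply hA]
    refine le_antisymm ?_ (measure_mono Set.inter_subset_left)
    calc quenched ω x A ≤ quenched ω x ((A ∩ K) ∪ (Good x)ᶜ) := by
          refine measure_mono fun X hX => ?_
          by_cases hg : X ∈ Good x
          · left
            refine ⟨hX, fun n => ?_⟩
            have h0 : X 0 = x := by
              obtain ⟨l, _, hXl⟩ := hg 0
              simpa using hXl 0 (by omega)
            have := hsub hX n
            rwa [h0] at this
          · exact Or.inr hg
      _ ≤ quenched ω x (A ∩ K) + quenched ω x (Good x)ᶜ := measure_union_le _ _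
      _ = _ := by rw [quenched_good, add_zero]
  rw [hAK ω, hAK ω', key]

lemma exists_boundR (h : Site d →+ ℝ) : ∃ L : ℕ, ∀ u : Dir d, |h (vec u)| ≤ L := by
  obtain ⟨L, hL⟩ := exists_nat_ge (∑ u : Dir d, |h (vec u)|)
  exact ⟨L, fun u => (Finset.single_le_sum (f := fun u : Dir d => |h (vec u)|)
    (fun _ _ => abs_nonneg _) (Finset.mem_univ u)).trans hL⟩

lemma height_boundR {h : Site d →+ ℝ} {L : ℕ} (hL : ∀ u : Dir d, |h (vec u)| ≤ L)
    (l : List (Dir d)) : |h (dsp l)| ≤ L * l.length := by
  induction l with
  | nil => simp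
  | cons u l ih =>
    rw [dsp_cons, map_add, List.length_cons]
    push_cast
    calc |h (vec u) + h (dsp l)| ≤ |h (vec u)| + |h (dsp l)| := abs_add_le _ _
      _ ≤ L + L * l.length := add_le_add (hL u) ih
      _ = L * (l.length + 1) := by ring

variable (μ : Measure (Row d)) [IsProbabilityMeasure μ]

/-- Functions of the environment below a height and quenched probabilities of events above this
height are independent. -/
theorem lintegral_freshR (h : Site d →+ ℝ) (x : Site d) {A : Set (ℕ → Site d)}
    (hA : MeasurableSet A) (hT : TInv A) (hsub : A ⊆ StayR h) (F : Env d → ℝ≥0∞)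
    (hF : Measurable F) (hloc : ∀ ω ω' : Env d, (∀ y, h y < h x → ω y = ω' y) → F ω = F ω') :
    ∫⁻ ω, F ω * quenched ω x A ∂(envLaw μ) = (∫⁻ ω, F ω ∂(envLaw μ)) * annealed μ 0 A := by
  have : Nonempty (Row d) := nonempty_of_isProbabilityMeasure μ
  have hdisj : Disjoint {y : Site d | h y < h x} {y : Site d | h x ≤ h y} := by
    rw [Set.disjoint_left]
    intro y (h1 : h y < h x) (h2 : h x ≤ h y)
    exact absurd h1 (not_lt.2 h2)
  have h1 : Measurable[freshAlg {y : Site d | h y < h x}] F :=
    freshAlg_measurable hF fun ω ω' hω => hloc ω ω' hω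
  have h2 : Measurable[freshAlg {y : Site d | h x ≤ h y}] (fun ω : Env d => quenched ω x A) :=
    freshAlg_measurable (measurable_quenched_apply x hA) fun ω ω' hω =>
      quenched_localR h x hω hA hsub
  have h3 := ProbabilityTheory.lintegral_mul_eq_lintegral_mul_lintegral_of_independent_measurableSpace
    (freshAlg_le _) (freshAlg_le _) (freshAlg_indep μ hdisj) h1 h2
  rw [← annealed_tinv μ x hA hT]
  exact h3

/-- Decomposition of an event after a list of steps with fresh end point. -/
theorem annealed_freshR (h : Site d →+ ℝ) {l : List (Dir d)}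
    (hl : ∀ a b, l = a ++ b → b ≠ [] → h (dsp a) < h (dsp l)) {A : Set (ℕ → Site d)}
    (hA : MeasurableSet A) (hT : TInv A) (hsub : A ⊆ StayR h) :
    annealed μ 0 (cyl 0 l ∩ tl l.length ⁻¹' A) = wt μ l * annealed μ 0 A := by
  rw [wt, ← lintegral_freshR μ h (dsp l) hA hT hsub (fun ω => qw ω 0 l) (measurable_qw 0 l)]
  · rw [annealed]
    refine lintegral_congr fun ω => ?_
    rw [quenched_markov ω 0 l hA, zero_add]
  · intro ω ω' hω
    refine qw_congr fun y hy => hω y ?_
    obtain ⟨a, b, hab, hb, rfl⟩ := mem_exits.1 hy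
    rw [zero_add]
    exact hl a b hab hb

/-- If the walk escapes and `B` holds with positive probability, then this also happens without
going below the starting height. -/
theorem upR_pos (h : Site d →+ ℝ) {B : Set (ℕ → Site d)} (hB : MeasurableSet B) (hT : TInv B)
    (hS : SInv B) (hpos : annealed μ 0 (EscR h ∩ B) ≠ 0) : annealed μ 0 (UpR h ∩ B) ≠ 0 := by
  intro h0
  apply hpos
  have hUB : MeasurableSet (UpR h ∩ B) := (measurableSet_upR h).inter hB
  have hTUB : TInv (UpR h ∩ B) := tinv_inter (tinv_upR h) hT
  have hm : ∀ l : List (Dir d), MeasurableSet (cyl 0 l ∩ tl l.length ⁻¹' (UpR h ∩ B)) :=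
    fun l => (measurableSet_cyl 0 l).inter (measurable_tl l.length hUB)
  have hcover : (EscR h ∩ B) ∩ Good 0 ⊆ ⋃ l : List (Dir d),
      cyl 0 l ∩ tl l.length ⁻¹' (UpR h ∩ B) := by
    rintro X ⟨⟨hX, hXB⟩, hg⟩
    obtain ⟨t, ht⟩ : ∃ t, ∀ n, h (X t) ≤ h (X n) := by
      obtain ⟨M, hM⟩ := (tendsto_atTop_atTop.1 hX) (h (X 0))
      obtain ⟨t, _, hmin⟩ := Finset.exists_min_image (Finset.range (M + 1))
        (fun n => h (X n)) ⟨0, by simp only [Finset.mem_range, lt_add_iff_pos_left, Order.lt_add_one_iff, zero_le]⟩
      refine ⟨t, fun n => ?_⟩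
      rcases Nat.lt_or_ge n (M + 1) with hn | hn
      · exact hmin n (by simpa only [Finset.mem_range, Order.lt_add_one_iff] using hn)
      · have h1 := hmin 0 (by simp only [Finset.mem_range, lt_add_iff_pos_left, Order.lt_add_one_iff, zero_le])
        have h2 := hM n (by omega)
        linarith only [h1, h2]
    obtain ⟨l, hl, hXl⟩ := hg t
    rw [mem_lists] at hl
    refine Set.mem_iUnion.2 ⟨l, hXl, ?_⟩
    rw [Set.mem_preimage, hl]
    refine ⟨⟨fun n => ?_, (sinv_tl (sinv_escR h) t X).2 hX⟩, (sinv_tl hS t X).2 hXB⟩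
    simp only [tl, zero_add]
    exact ht _
  have hz : ∀ l : List (Dir d), annealed μ 0 (cyl 0 l ∩ tl l.length ⁻¹' (UpR h ∩ B)) = 0 := by
    intro l
    refine le_antisymm ?_ zero_le
    calc annealed μ 0 (cyl 0 l ∩ tl l.length ⁻¹' (UpR h ∩ B))
        ≤ annealed μ (dsp l) (UpR h ∩ B) := by
          refine lintegral_mono fun ω => ?_
          beta_reduce
          rw [quenched_markov ω 0 l hUB, zero_add]
          calc qw ω 0 l * quenched ω (dsp l) (UpR h ∩ B)
              ≤ 1 * quenched ω (dsp l) (UpR h ∩ B) := by gcongr; exact qw_le_one _ _ _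
            _ = _ := one_mul _
      _ = 0 := by rw [annealed_tinv μ (dsp l) hUB hTUB, h0]
  refine le_antisymm ?_ zero_le
  calc annealed μ 0 (EscR h ∩ B) ≤ annealed μ 0 ((EscR h ∩ B) ∩ Good 0) := annealed_inter_good μ 0 _
    _ ≤ annealed μ 0 (⋃ l : List (Dir d), cyl 0 l ∩ tl l.length ⁻¹' (UpR h ∩ B)) :=
        annealed_mono μ 0 hcover
    _ ≤ ∑' l : List (Dir d), annealed μ 0 (cyl 0 l ∩ tl l.length ⁻¹' (UpR h ∩ B)) :=
        annealed_iUnion_le μ 0 hm
    _ = 0 := by simp only [hz, tsum_zero]

lemma FPR_free (h : Site d →+ ℝ) (k : ℕ) : Free (FPR h k) := by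
  intro a ha b hb
  by_contra hne
  have h1 := hb.1 a b rfl hne
  have h2 := ha.2
  linarith only [h1, h2]

/-- A nearest neighbour path that reaches height `k` has a first passage list. -/
lemma mem_RAR_univ {h : Site d →+ ℝ} {k : ℕ} {X : ℕ → Site d} (hX : X ∈ Good 0)
    (hk : ∃ n, (k : ℝ) ≤ h (X n)) : X ∈ RAR h Set.univ k := by
  classical
  obtain ⟨l, hl, hXl⟩ := hX (Nat.find hk)
  rw [mem_lists] at hl
  simp only [RAR, Set.preimage_univ, Set.inter_univ, Set.mem_iUnion]
  refine ⟨l, ⟨fun a b hab hb => ?_, ?_⟩, hXl⟩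
  · have h1 := cyl_pos hXl hab
    rw [zero_add] at h1
    rw [← h1]
    have h2 : a.length < Nat.find hk := by
      rw [← hl, hab, List.length_append]
      have := List.length_pos_iff.2 hb
      omega
    have := Nat.find_min hk h2
    exact not_le.1 this
  · have h1 := cyl_pos hXl (a := l) (b := []) (by simp)
    rw [zero_add, hl] at h1
    rw [← h1]
    exact Nat.find_spec hk

lemma measurableSet_RAR (h : Site d →+ ℝ) {A : Set (ℕ → Site d)} (hA : MeasurableSet A) (k : ℕ) :
    MeasurableSet (RAR h A k) :=
  MeasurableSet.iUnion fun l => MeasurableSet.iUnion fun _ =>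
    (measurableSet_cyl 0 l).inter (measurable_tl l.length hA)

omit [IsProbabilityMeasure μ] in
lemma annM_RAR_inter (h : Site d →+ ℝ) {A : Set (ℕ → Site d)} (hA : MeasurableSet A) (k : ℕ)
    {G : Set (ℕ → Site d)} (hG : MeasurableSet G) :
    annM μ 0 (RAR h A k ∩ G) = ∑' l : FPR h k,
      annM μ 0 ((cyl 0 (l : List (Dir d)) ∩ tl (l : List (Dir d)).length ⁻¹' A) ∩ G) := by
  have e : RAR h A k ∩ G = ⋃ l : FPR h k,
      ((cyl 0 (l : List (Dir d)) ∩ tl (l : List (Dir d)).length ⁻¹' A) ∩ G) := by
    ext X
    simp only [RAR, Set.mem_inter_iff, Set.mem_iUnion, Subtype.exists, exists_prop]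
    constructor
    · rintro ⟨⟨l, hl, h1⟩, h2⟩
      exact ⟨l, hl, h1, h2⟩
    · rintro ⟨l, hl, h1, h2⟩
      exact ⟨⟨l, hl, h1⟩, h2⟩
  rw [e, measure_iUnion]
  · intro a b hab
    have := cyl_disjoint (FPR_free h k) (x := 0) a.2 b.2 (fun h => hab (Subtype.ext h))
    exact this.mono (fun X hX => hX.1.1) (fun X hX => hX.1.1)
  · intro l
    exact ((measurableSet_cyl 0 _).inter (measurable_tl _ hA)).inter hG

lemma fp_localR (h : Site d →+ ℝ) {A : Set (ℕ → Site d)}
    (hA : MeasurableSet A) (hT : TInv A) (hsub : A ⊆ StayR h) {G : Set (ℕ → Site d)}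
    (hG : MeasurableSet G) {n : ℕ}
    (hloc : ∀ X Y : ℕ → Site d, (∀ i ≤ n, X i = Y i) → X ∈ G → Y ∈ G) :
    ∀ᶠ k : ℕ in atTop, annM μ 0 (RAR h A k ∩ G) =
      annM μ 0 (RAR h Set.univ k ∩ G) * annealed μ 0 A := by
  obtain ⟨L, hL⟩ := exists_boundR h
  filter_upwards [eventually_gt_atTop (L * n)] with k hk
  rw [annM_RAR_inter μ h hA k hG, annM_RAR_inter μ h MeasurableSet.univ k hG,
    ← ENNReal.tsum_mul_right]
  refine tsum_congr fun l => ?_
  have hlen : n ≤ (l : List (Dir d)).length := by
    by_contra hlt
    have h1 := height_boundR hL (l : List (Dir d))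
    have h2 := l.2.2
    have h3 : ((L : ℝ) * (l : List (Dir d)).length) ≤ L * n := by
      have h31 : (l : List (Dir d)).length ≤ n := by omega
      have h32 : ((l : List (Dir d)).length : ℝ) ≤ n := by exact_mod_cast h31
      exact mul_le_mul_of_nonneg_left h32 (by (clear * -; positivity))
    have h4 := le_abs_self (h (dsp (l : List (Dir d))))
    have h5 : ((L * n : ℕ) : ℝ) < k := by exact_mod_cast hk
    push_cast at h5
    (clear * - h1 h2 h3 h4 h5; (clear * - h1 h2 h3 h4 h5; linarith))
  by_cases hc : ∃ X ∈ cyl 0 (l : List (Dir d)), X ∈ G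
  · obtain ⟨X, hX, hXG⟩ := hc
    have hsubG : cyl 0 (l : List (Dir d)) ⊆ G := by
      intro Y hY
      refine hloc X Y (fun i hi => ?_) hXG
      rw [hX i (hi.trans hlen), hY i (hi.trans hlen)]
    rw [Set.inter_eq_left.2 (Set.inter_subset_left.trans hsubG),
      Set.inter_eq_left.2 (Set.inter_subset_left.trans hsubG)]
    simp only [Set.preimage_univ, Set.inter_univ]
    rw [annM_apply μ 0 ((measurableSet_cyl 0 _).inter (measurable_tl _ hA)),
      annM_apply μ 0 (measurableSet_cyl 0 _), annealed_cyl', annealed_freshR μ h ?_ hA hT hsub]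
    intro a b hab hb
    exact lt_of_lt_of_le (l.2.1 a b hab hb) l.2.2
  · have e : ∀ A : Set (ℕ → Site d),
        (cyl 0 (l : List (Dir d)) ∩ tl (l : List (Dir d)).length ⁻¹' A) ∩ G = ∅ := by
      intro A
      ext X
      simp only [Set.mem_inter_iff, Set.mem_empty_iff_false, iff_false]
      rintro ⟨⟨h1, _⟩, h2⟩
      exact hc ⟨X, h1, h2⟩
    rw [e, e]
    simp

/-- Asymptotic independence of the path after the first passage at a high level. -/
theorem fp_limitR (h : Site d →+ ℝ) {A : Set (ℕ → Site d)}
    (hA : MeasurableSet A) (hT : TInv A) (hsub : A ⊆ StayR h) {G : Set (ℕ → Site d)}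
    (hG : MeasurableSet G) :
    Tendsto (fun k => (annM μ 0 (RAR h A k ∩ G)).toReal -
      (annealed μ 0 A).toReal * (annM μ 0 (RAR h Set.univ k ∩ G)).toReal) atTop (𝓝 0) := by
  have hp0 : 0 ≤ (annealed μ 0 A).toReal := ENNReal.toReal_nonneg
  have hp1 : (annealed μ 0 A).toReal ≤ 1 := by
    rw [← annM_apply μ 0 hA]
    exact ENNReal.toReal_le_of_le_ofReal zero_le_one (by simpa only [ENNReal.ofReal_one] using prob_le_one)
  have hbase : ∀ G : Set (ℕ → Site d), MeasurableSet G →
      (∃ n : ℕ, ∀ X Y : ℕ → Site d, (∀ i ≤ n, X i = Y i) → X ∈ G → Y ∈ G) →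
      Tendsto (fun k => (annM μ 0 (RAR h A k ∩ G)).toReal -
      (annealed μ 0 A).toReal * (annM μ 0 (RAR h Set.univ k ∩ G)).toReal) atTop (𝓝 0) := by
    rintro G hG ⟨n, hloc⟩
    refine tendsto_const_nhds.congr' ?_
    filter_upwards [fp_localR μ h hA hT hsub hG hloc] with k hk
    rw [hk, ENNReal.toReal_mul]
    ring
  have huniv := hbase Set.univ MeasurableSet.univ ⟨0, fun _ _ _ _ => Set.mem_univ _⟩
  refine MeasurableSpace.induction_on_inter
    (C := fun G _ => Tendsto (fun k => (annM μ 0 (RAR h A k ∩ G)).toReal -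
      (annealed μ 0 A).toReal * (annM μ 0 (RAR h Set.univ k ∩ G)).toReal) atTop (𝓝 0))
    (generateFrom_measurableCylinders (α := fun _ : ℕ => Site d)).symm
    isPiSystem_measurableCylinders ?_ ?_ ?_ ?_ G hG
  · simp only [Set.inter_empty, measure_empty, ENNReal.toReal_zero, mul_zero, sub_self, tendsto_const_nhds_iff]
  · intro t ht
    exact hbase t (MeasurableSet.of_mem_measurableCylinders ht) (cylinder_local ht)
  · intro t ht ih
    have hdiff : ∀ (B : Set (ℕ → Site d)), MeasurableSet B →
        (annM μ 0 (B ∩ tᶜ)).toReal = (annM μ 0 (B ∩ Set.univ)).toReal -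
          (annM μ 0 (B ∩ t)).toReal := by
      intro B hB
      rw [Set.inter_univ, ← measure_inter_add_sdiff B ht (μ := annM μ 0),
        ENNReal.toReal_add (measure_ne_top _ _) (measure_ne_top _ _), Set.sdiff_eq]
      ring
    have := huniv.sub ih
    rw [sub_zero] at this
    refine this.congr fun k => ?_
    rw [hdiff _ (measurableSet_RAR h hA k), hdiff _ (measurableSet_RAR h MeasurableSet.univ k)]
    ring
  · intro f hdisj hf ih
    have hsum : Summable fun i => (annM μ 0 (f i)).toReal := by
      refine ENNReal.summable_toReal ?_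
      rw [← measure_iUnion hdisj hf]
      exact measure_ne_top _ _
    have hU : ∀ (B : Set (ℕ → Site d)), MeasurableSet B →
        Summable (fun i => (annM μ 0 (B ∩ f i)).toReal) ∧
        (annM μ 0 (B ∩ ⋃ i, f i)).toReal = ∑' i, (annM μ 0 (B ∩ f i)).toReal := by
      intro B hB
      have e : annM μ 0 (B ∩ ⋃ i, f i) = ∑' i, annM μ 0 (B ∩ f i) := by
        rw [Set.inter_iUnion, measure_iUnion]
        · intro i j hij
          exact (hdisj hij).mono Set.inter_subset_right Set.inter_subset_right
        · exact fun i => hB.inter (hf i)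
      refine ⟨ENNReal.summable_toReal ?_, ?_⟩
      · rw [← e]; exact measure_ne_top _ _
      · rw [e, ENNReal.tsum_toReal_eq fun i => measure_ne_top _ _]
    have key : Tendsto (fun k => ∑' i, ((annM μ 0 (RAR h A k ∩ f i)).toReal -
      (annealed μ 0 A).toReal * (annM μ 0 (RAR h Set.univ k ∩ f i)).toReal)) atTop
        (𝓝 (∑' _ : ℕ, (0 : ℝ))) := by
      refine tendsto_tsum_of_dominated_convergence (hsum.mul_left 2) ih ?_
      refine Eventually.of_forall fun k i => ?_
      have h1 : ∀ B : Set (ℕ → Site d), (annM μ 0 (B ∩ f i)).toReal ≤ (annM μ 0 (f i)).toReal :=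
        fun B => ENNReal.toReal_mono (measure_ne_top _ _) (measure_mono Set.inter_subset_right)
      have h2 := h1 (RAR h A k)
      have h3 := h1 (RAR h Set.univ k)
      have h4 : 0 ≤ (annM μ 0 (RAR h A k ∩ f i)).toReal := ENNReal.toReal_nonneg
      have h5 : 0 ≤ (annM μ 0 (RAR h Set.univ k ∩ f i)).toReal := ENNReal.toReal_nonneg
      have h6 : (annealed μ 0 A).toReal * (annM μ 0 (RAR h Set.univ k ∩ f i)).toReal ≤
          1 * (annM μ 0 (f i)).toReal := mul_le_mul hp1 h3 h5 zero_le_one
      have h7 := mul_nonneg hp0 h5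
      rw [Real.norm_eq_abs, abs_le]
      constructor <;> linarith only [h2, h6, h7, h4]
    rw [tsum_zero] at key
    refine key.congr fun k => ?_
    obtain ⟨s1, e1⟩ := hU _ (measurableSet_RAR h hA k)
    obtain ⟨s2, e2⟩ := hU _ (measurableSet_RAR h MeasurableSet.univ k)
    rw [e1, e2, ← tsum_mul_left, ← Summable.tsum_sub s1 (s2.mul_left _)]

/-- If the weights of `T_k` inside `G` tend to zero, and `G` is contained in every `T_k` up to
the null set of bad paths, then `G` is null. -/
lemma null_of_tendstoR (h : Site d →+ ℝ) {G : Set (ℕ → Site d)} (hG : MeasurableSet G)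
    (hsub : ∀ X ∈ G, ∀ k : ℕ, ∃ n, (k : ℝ) ≤ h (X n)) {c : ℝ} (hc : c ≠ 0)
    (hlim : Tendsto (fun k => c * (annM μ 0 (RAR h Set.univ k ∩ G)).toReal) atTop (𝓝 0)) :
    annealed μ 0 G = 0 := by
  have h1 : ∀ k : ℕ, (annealed μ 0 G).toReal ≤ (annM μ 0 (RAR h Set.univ k ∩ G)).toReal := by
    intro k
    refine ENNReal.toReal_mono (measure_ne_top _ _) ?_
    refine (annealed_inter_good μ 0 G).trans ?_
    rw [annM_apply μ 0 ((measurableSet_RAR h MeasurableSet.univ k).inter hG)]
    refine annealed_mono μ 0 ?_
    rintro X ⟨hX, hXg⟩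
    exact ⟨mem_RAR_univ hXg (hsub X hX k), hX⟩
  have h2 : Tendsto (fun k => (annM μ 0 (RAR h Set.univ k ∩ G)).toReal) atTop (𝓝 0) := by
    have := hlim.const_mul c⁻¹
    rw [mul_zero] at this
    refine this.congr fun k => ?_
    rw [← mul_assoc, inv_mul_cancel₀ hc, one_mul]
  have h3 : (annealed μ 0 G).toReal ≤ 0 := ge_of_tendsto' h2 h1
  have h4 : (annealed μ 0 G).toReal = 0 := le_antisymm h3 ENNReal.toReal_nonneg
  rcases (ENNReal.toReal_eq_zero_iff _).1 h4 with h5 | h5
  · exact h5
  · rw [← annM_apply μ 0 hG] at h5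
    exact absurd h5 (measure_ne_top _ _)

/-- If escape upwards has positive probability, then unbounded heights imply escape. -/
theorem esc_of_unboundedR (h : Site d →+ ℝ) (hpos : annealed μ 0 (EscR h) ≠ 0) :
    annealed μ 0 ({X | ∀ k : ℕ, ∃ n, (k : ℝ) ≤ h (X n)} \ EscR h) = 0 := by
  have hp : annealed μ 0 (UpR h) ≠ 0 := by
    have := upR_pos μ h MeasurableSet.univ (B := Set.univ) (fun _ _ => by simp)
      (fun _ => by simp) (by simpa using hpos)
    simpa only [ne_eq, Set.inter_univ] using this
  have hGm : MeasurableSet ({X : ℕ → Site d | ∀ k : ℕ, ∃ n, (k : ℝ) ≤ h (X n)} \ EscR h) := by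
    refine MeasurableSet.diff ?_ (measurableSet_escR h)
    have : {X : ℕ → Site d | ∀ k : ℕ, ∃ n, (k : ℝ) ≤ h (X n)} =
        ⋂ k : ℕ, ⋃ n : ℕ, {X | (k : ℝ) ≤ h (X n)} := by
      ext X; simp only [Set.mem_ofPred_eq, Set.mem_iInter, Set.mem_iUnion]
    rw [this]
    refine MeasurableSet.iInter fun k => MeasurableSet.iUnion fun n => ?_
    exact measurableSet_local n _ fun X Y hXY hX => by rw [← hXY n le_rfl]; exact hX
  have hp' : (annealed μ 0 (UpR h)).toReal ≠ 0 := by
    rw [← annM_apply μ 0 (measurableSet_upR h)] at hp ⊢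
    exact (ENNReal.toReal_ne_zero).2 ⟨hp, measure_ne_top _ _⟩
  refine null_of_tendstoR μ h hGm (fun X hX k => hX.1 k) hp' ?_
  have h1 := (fp_limitR μ h (measurableSet_upR h) (tinv_upR h) (fun X hX => hX.1) hGm).neg
  rw [neg_zero] at h1
  refine h1.congr fun k => ?_
  have e : RAR h (UpR h) k ∩ ({X | ∀ k : ℕ, ∃ n, (k : ℝ) ≤ h (X n)} \ EscR h) = ∅ := by
    ext X
    simp only [Set.mem_inter_iff, Set.mem_empty_iff_false, iff_false]
    rintro ⟨hX, hX2⟩
    simp only [RAR, Set.mem_iUnion] at hX
    obtain ⟨l, _, _, hX3⟩ := hX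
    exact hX2.2 ((sinv_tl (sinv_escR h) l.length X).1 hX3.2)
  rw [e]
  simp only [measure_empty, ENNReal.toReal_zero, zero_sub, neg_neg]

end Vale.Agent.P147.Z
end

theorem P147.eqforce_Vale_Agent_P147_Z_En : True := by first | exact (fun _ => trivial) @Vale.Agent.P147.Z.En.eq_1 | exact (fun _ => trivial) @Vale.Agent.P147.Z.En.eq_1.{0} | exact (fun _ => trivial) @Vale.Agent.P147.Z.En.eq_1.{0,0} | exact (fun _ => trivial) @Vale.Agent.P147.Z.En.eq_1.{0,0,0}
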