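import Vale.Agent.P147.Bd3.B1

set_option linter.all false

section

/-!
# Directional zero-one law: tools

Elementary facts on the path sets of `Base`: prefix-free sets, sums over continuations, first
passage segments, the box, and killing weights.
-/

open MeasureTheory
open scoped ENNReal

namespace Vale.Agent.P147.Z

variable {d : ℕ}

/-! ### Departure sites -/

lemma mem_exits_take {x y : Site d} {l : List (Dir d)} :
    y ∈ exits x l ↔ ∃ i < l.length, y = x + dsp (l.take i) := by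
  rw [mem_exits]
  constructor
  · rintro ⟨a, b, rfl, hb, rfl⟩
    refine ⟨a.length, ?_, by simp⟩
    have : 0 < b.length := List.length_pos_iff.2 hb
    simp only [List.length_append]
    omega
  · rintro ⟨i, hi, rfl⟩
    refine ⟨l.take i, l.drop i, (List.take_append_drop i l).symm, ?_, rfl⟩
    intro h
    have := congrArg List.length h
    simp only [List.length_drop, List.length_nil] at this
    omega

lemma exits_subset_append_left (x : Site d) (a b : List (Dir d)) :
    exits x a ⊆ exits x (a ++ b) := by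
  rw [exits_append]
  exact Finset.subset_union_left

lemma exits_take_subset (x : Site d) (l : List (Dir d)) (i : ℕ) :
    exits x (l.take i) ⊆ exits x l := by
  conv_rhs => rw [← List.take_append_drop i l]
  exact exits_subset_append_left _ _ _

lemma start_mem_exits (x : Site d) {l : List (Dir d)} (hl : l ≠ []) : x ∈ exits x l := by
  cases l with
  | nil => exact absurd rfl hl
  | cons u l => simp

lemma end_mem_exits (x : Site d) (a : List (Dir d)) {b : List (Dir d)} (hb : b ≠ []) :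
    x + dsp a ∈ exits x (a ++ b) :=
  mem_exits.2 ⟨a, b, rfl, hb, rfl⟩

lemma mem_exits_shift {x y : Site d} {l : List (Dir d)} :
    y ∈ exits x l ↔ y - x ∈ exits 0 l := by
  have h := exits_add (0 : Site d) x l
  rw [zero_add] at h
  rw [h, Finset.mem_image]
  constructor
  · rintro ⟨a, ha, rfl⟩
    rwa [add_sub_cancel_right]
  · intro h
    exact ⟨y - x, h, by simp⟩

/-! ### Prefix-free sets -/

/-- In a prefix-free set, two prefixes of the same list are equal. -/
lemma free_unique {S : Set (List (Dir d))} (hS : Free S) {a b c e : List (Dir d)} (ha : a ∈ S)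
    (hb : b ∈ S) (h : a ++ c = b ++ e) : a = b ∧ c = e := by
  have key : a = b := by
    rcases List.append_eq_append_iff.1 h with ⟨r, rfl, rfl⟩ | ⟨r, rfl, rfl⟩
    · rw [hS a ha r hb, List.append_nil]
    · rw [hS b hb r ha, List.append_nil]
  subst key
  exact ⟨rfl, List.append_cancel_left h⟩

lemma Fp_free (L : Site d →+ ℝ) (r : ℝ) : Free (Fp L r) := by
  intro a ha b hab
  by_contra hb
  have h1 := (hab.1 _ (end_mem_exits 0 a hb)).2
  rw [zero_add] at h1
  exact absurd ha.2 (not_le.2 h1)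

lemma Td_free (L : Site d →+ ℝ) (l1 : ℝ) (z : Site d) : Free (Td L l1 z) := by
  rintro _ ⟨β₁, h1, β₂, h2, rfl⟩ c ⟨γ₁, g1, γ₂, g2, he⟩
  rw [List.append_assoc] at he
  obtain ⟨rfl, he'⟩ := free_unique (Fp_free (-L) (L z - l1)) h1 g1 he
  rw [← he'] at g2
  exact Fp_free _ _ _ h2 _ g2

lemma Rch_free (L : Site d →+ ℝ) (n : ℝ) (R : ℕ) : Free (Rch L n R) := by
  intro a ha b hab
  by_contra hb
  have h1 := (hab.1 _ (end_mem_exits 0 a hb)).2
  rw [zero_add] at h1
  exact ha.2.2 h1

/-! ### Sums over the continuations of a prefix -/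

section law

variable (μ : Measure (Row d)) [IsProbabilityMeasure μ]

lemma tl_tsum_qw_le_one {S : Set (List (Dir d))} (hS : Free S) (ω : Env d) (x : Site d) :
    ∑' l : S, qw ω x (l : List (Dir d)) ≤ 1 := by
  simp only [← quenched_cyl]
  rw [← measure_iUnion]
  · exact prob_le_one
  · intro a b hab
    exact cyl_disjoint hS a.2 b.2 (fun h => hab (Subtype.ext h))
  · intro a
    exact measurableSet_cyl _ _

lemma free_continuations {S : Set (List (Dir d))} (hS : Free S) (a : List (Dir d)) :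
    Free {c : List (Dir d) | a ++ c ∈ S} := by
  intro b hb c hc
  have hc' : (a ++ b) ++ c ∈ S := by rw [List.append_assoc]; exact hc
  exact hS _ hb c hc'

omit [IsProbabilityMeasure μ] in
lemma tsum_append_le_of_free {S : Set (List (Dir d))} (hS : Free S) (a : List (Dir d)) :
    ∑' c : S, wt μ (a ++ c.1) ≤ wt μ a := by
  simp only [wt, qw_append]
  rw [← lintegral_tsum (f := fun (c : S) (ω : Env d) =>
    qw ω 0 a * qw ω (0 + dsp a) (c : List (Dir d)))
    fun c => ((measurable_qw 0 a).mul (measurable_qw (0 + dsp a) (c : List (Dir d)))).aemeasurable]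
  refine lintegral_mono fun ω => ?_
  rw [ENNReal.tsum_mul_left]
  calc qw ω 0 a * ∑' c : S, qw ω (0 + dsp a) (c : List (Dir d)) ≤ qw ω 0 a * 1 := by
        gcongr
        exact tl_tsum_qw_le_one hS ω _
    _ = qw ω 0 a := mul_one _

omit [IsProbabilityMeasure μ] in
lemma tsum_append_le {S : Set (List (Dir d))} (hS : Free S) (a : List (Dir d)) :
    ∑' c : {c : List (Dir d) | a ++ c ∈ S}, wt μ (a ++ c.1) ≤ wt μ a :=
  tsum_append_le_of_free μ (free_continuations hS a) a

end law

/-! ### Level functions -/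

lemma vec_not (u : Dir d) : vec (u.1, !u.2) = -vec u := by
  obtain ⟨i, s⟩ := u
  cases s <;> simp [vec, Pi.single_neg]

lemma Lvl.neg {L : Site d →+ ℝ} (hL : Lvl L) : Lvl (-L) := by
  refine ⟨fun u => ?_, ?_⟩
  · rw [AddMonoidHom.neg_apply, abs_neg]
    exact hL.step u
  · obtain ⟨u, hu⟩ := hL.top
    refine ⟨(u.1, !u.2), ?_⟩
    rw [vec_not, AddMonoidHom.neg_apply, map_neg, neg_neg, hu]

lemma Lvl.le_one {L : Site d →+ ℝ} (hL : Lvl L) (u : Dir d) : L (vec u) ≤ 1 :=
  (abs_le.1 (hL.step u)).2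

/-- The end of a first passage path overshoots by less than `1`. -/
lemma Fp_dsp_lt {L : Site d →+ ℝ} (hL : Lvl L) {h : ℝ} (h0 : -1 < h) {γ : List (Dir d)}
    (hγ : γ ∈ Fp L h) : L (dsp γ) < h + 1 := by
  rcases List.eq_nil_or_concat γ with rfl | ⟨a, u, rfl⟩
  · rw [dsp_nil, map_zero]
    linarith only [h0]
  · rw [List.concat_eq_append] at hγ ⊢
    have h1 := (hγ.1 _ (end_mem_exits 0 a (List.cons_ne_nil u []))).2
    rw [zero_add] at h1
    have h2 := hL.le_one u
    rw [dsp_append, dsp_cons, dsp_nil, add_zero, map_add]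
    linarith

/-! ### Downward paths with a cut point -/

lemma Td_sub {L : Site d →+ ℝ} {l1 t : ℝ} {y : Site d} (h0 : 0 ≤ l1) (hy : L y < t) :
    Td L l1 y ⊆ Ds L t y := by
  rintro _ ⟨β₁, h1, β₂, h2, rfl⟩
  have hmid : L (y + dsp β₁) ≤ L y := by
    rcases eq_or_ne β₁ [] with rfl | hne
    · simp
    · have ha := (h1.1 _ (start_mem_exits 0 hne)).2
      rw [map_zero] at ha
      have hb := h1.2
      rw [AddMonoidHom.neg_apply] at hb
      rw [map_add]
      linarith
  refine ⟨fun x hx => ?_, ?_⟩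
  · rw [exits_append, Finset.mem_union] at hx
    rcases hx with hx | hx
    · rw [mem_exits_shift] at hx
      obtain ⟨ha, hb⟩ := h1.1 _ hx
      rw [AddMonoidHom.neg_apply, map_sub] at ha hb
      exact ⟨by linarith only [h0, hb], by linarith⟩
    · rw [mem_exits_shift] at hx
      obtain ⟨ha, hb⟩ := h2.1 _ hx
      rw [AddMonoidHom.neg_apply, map_sub] at ha hb
      exact ⟨by linarith, by linarith only [hy, hmid, ha]⟩
  · have hb := h2.2
    rw [AddMonoidHom.neg_apply] at hb
    rw [dsp_append, ← add_assoc, map_add]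
    linarith

lemma Td_disjoint {L : Site d →+ ℝ} {l1 a : ℝ} {y : Site d} {β₁ β₂ : List (Dir d)}
    (h1 : β₁ ∈ Fp (-L) (L y - l1)) (h2 : β₂ ∈ Fp (-L) a) :
    Disjoint (exits 0 β₁) (exits (dsp β₁) β₂) := by
  rw [Finset.disjoint_left]
  intro x hx hx'
  rw [mem_exits_shift] at hx'
  have ha := (h1.1 _ hx).2
  have hb := (h2.1 _ hx').1
  have hc := h1.2
  rw [AddMonoidHom.neg_apply] at ha hb hc
  rw [map_sub] at hb
  linarith

section law

variable (μ : Measure (Row d)) [IsProbabilityMeasure μ]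

lemma Td_weight {L : Site d →+ ℝ} {p : ℝ≥0∞} (hp : ∀ a, p ≤ fu μ (-L) a) (l1 : ℝ) (y : Site d) :
    p * p ≤ ∑' ρ : Td L l1 y, wt μ ρ.1 := by
  let f : (Σ β₁ : Fp (-L) (L y - l1), Fp (-L) (L (y + dsp β₁.1) + 1)) → Td L l1 y :=
    fun β => ⟨β.1.1 ++ β.2.1, β.1.1, β.1.2, β.2.1, β.2.2, rfl⟩
  have hf : Function.Injective f := by
    rintro ⟨⟨b, hb⟩, ⟨c, hc⟩⟩ ⟨⟨b', hb'⟩, ⟨c', hc'⟩⟩ h
    have h' : b ++ c = b' ++ c' := congrArg Subtype.val h
    obtain ⟨rfl, rfl⟩ := free_unique (Fp_free (-L) (L y - l1)) hb hb' h'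
    rfl
  calc p * p ≤ fu μ (-L) (L y - l1) * p := by gcongr; exact hp _
    _ = ∑' β₁ : Fp (-L) (L y - l1), wt μ β₁.1 * p := by rw [fu, ENNReal.tsum_mul_right]
    _ ≤ ∑' β₁ : Fp (-L) (L y - l1), ∑' β₂ : Fp (-L) (L (y + dsp β₁.1) + 1),
          wt μ β₁.1 * wt μ β₂.1 := by
        refine ENNReal.tsum_le_tsum fun β₁ => ?_
        rw [ENNReal.tsum_mul_left]
        gcongr
        exact hp _
    _ = ∑' β₁ : Fp (-L) (L y - l1), ∑' β₂ : Fp (-L) (L (y + dsp β₁.1) + 1),
          wt μ (β₁.1 ++ β₂.1) := by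
        refine tsum_congr fun β₁ => tsum_congr fun β₂ => ?_
        rw [wt_append μ (Td_disjoint β₁.2 β₂.2)]
    _ = ∑' β, wt μ (f β).1 := by rw [ENNReal.tsum_sigma']
    _ ≤ ∑' ρ : Td L l1 y, wt μ ρ.1 :=
        ENNReal.tsum_comp_le_tsum_of_injective hf (fun ρ : Td L l1 y => wt μ ρ.1)

end law

/-! ### The box -/

lemma tl_mem_bx {R : ℕ} {x : Site d} : x ∈ bx d R ↔ ∀ i, -(R : ℤ) ≤ x i ∧ x i ≤ R := by
  simp only [bx, Fintype.mem_piFinset, Finset.mem_Icc]

/-! ### Starting segments up to a first passage -/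

lemma fpre_append_drop (L : Site d →+ ℝ) (h : ℝ) (l : List (Dir d)) :
    fpre L h l ++ l.drop (fpre L h l).length = l := by
  rw [fpre, List.length_take]
  rcases le_total (sInf {i | h ≤ L (dsp (l.take i))}) l.length with hle | hle
  · rw [min_eq_left hle, List.take_append_drop]
  · rw [min_eq_right hle, List.drop_length, List.append_nil, List.take_of_length_le hle]

lemma exists_fpre (L : Site d →+ ℝ) (h : ℝ) (l : List (Dir d)) :
    ∃ r, l = fpre L h l ++ r :=
  ⟨_, (fpre_append_drop L h l).symm⟩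

lemma exits_fpre_subset (L : Site d →+ ℝ) (h : ℝ) (x : Site d) (l : List (Dir d)) :
    exits x (fpre L h l) ⊆ exits x l :=
  exits_take_subset _ _ _

/-- The starting segment is the one prefix that is a first passage path. -/
lemma fpre_append {L : Site d →+ ℝ} {h : ℝ} {a : List (Dir d)} (ha : a ∈ Fp L h)
    (b : List (Dir d)) : fpre L h (a ++ b) = a := by
  have hm : a.length ∈ {i | h ≤ L (dsp ((a ++ b).take i))} := by
    simp only [Set.mem_ofPred_eq, List.take_left']
    exact ha.2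
  have hk : sInf {i | h ≤ L (dsp ((a ++ b).take i))} = a.length := by
    refine le_antisymm (Nat.sInf_le hm) ?_
    refine le_csInf ⟨_, hm⟩ fun i hi => ?_
    by_contra hlt
    push Not at hlt
    simp only [Set.mem_ofPred_eq] at hi
    have hmem : dsp ((a ++ b).take i) ∈ exits 0 a := by
      rw [mem_exits_take]
      refine ⟨i, hlt, ?_⟩
      rw [zero_add, List.take_append_of_le_length hlt.le]
    exact absurd hi (not_le.2 (ha.1 _ hmem).2)
  rw [fpre, hk]
  exact List.take_left' rfl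

lemma fpre_mem {L : Site d →+ ℝ} {h N : ℝ} (hN : h ≤ N) {π : List (Dir d)} (hπ : π ∈ Fp L N) :
    fpre L h π ∈ Fp L h := by
  have hne : π.length ∈ {i | h ≤ L (dsp (π.take i))} := by
    simp only [Set.mem_ofPred_eq, List.take_length]
    exact hN.trans hπ.2
  refine ⟨fun x hx => ⟨(hπ.1 _ (exits_fpre_subset L h 0 π hx)).1, ?_⟩, ?_⟩
  · rw [mem_exits_take] at hx
    obtain ⟨i, hi, rfl⟩ := hx
    rw [fpre, List.length_take] at hi
    rw [zero_add, fpre, List.take_take, min_eq_left (by omega)]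
    have := Nat.notMem_of_lt_sInf (lt_of_lt_of_le hi (min_le_left _ _))
    simpa using this
  · exact Nat.sInf_mem ⟨_, hne⟩

/-! ### Killing weights -/

section law

variable (μ : Measure (Row d))

open Classical in
lemma kill_mono_right (T : Set (List (Dir d))) (z : Site d) {S S' : Finset (Site d)}
    (h : S ⊆ S') : kill μ T z S ≤ kill μ T z S' := by
  refine ENNReal.tsum_le_tsum fun ρ => ?_
  by_cases h1 : Disjoint (exits z ρ.1) S
  · rw [if_pos h1]
    exact zero_le
  · rw [if_neg h1, if_neg fun h2 => h1 (Finset.disjoint_of_subset_right h h2)]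

open Classical in
lemma kill_le_tsum (T : Set (List (Dir d))) (z : Site d) (S : Finset (Site d)) :
    kill μ T z S ≤ ∑' ρ : T, wt μ ρ.1 := by
  refine ENNReal.tsum_le_tsum fun ρ => ?_
  split_ifs
  · exact zero_le
  · exact le_rfl

lemma kill_le_one [IsProbabilityMeasure μ] {T : Set (List (Dir d))} (hT : Free T) (z : Site d)
    (S : Finset (Site d)) : kill μ T z S ≤ 1 :=
  (kill_le_tsum μ T z S).trans (tsum_wt_le_one μ hT)

end law

end Vale.Agent.P147.Z
end

section

/-!
# Unique factorisation of bridges into irreducible bridges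
-/

open MeasureTheory
open scoped ENNReal

namespace Vale.Agent.P147.Z

variable {d : ℕ} {L : Site d →+ ℝ}

lemma mem_Br_nil : ([] : List (Dir d)) ∈ Br L := by
  intro x hx
  simp at hx

lemma zero_mem_exits {l : List (Dir d)} (hl : l ≠ []) : (0 : Site d) ∈ exits 0 l := by
  cases l with
  | nil => exact absurd rfl hl
  | cons u l => simp

lemma Br_pos {l : List (Dir d)} (hl : l ∈ Br L) (h0 : l ≠ []) : 0 < L (dsp l) := by
  have h := (hl 0 (zero_mem_exits h0)).2
  rwa [map_zero] at h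

lemma Br_nonneg {l : List (Dir d)} (hl : l ∈ Br L) : 0 ≤ L (dsp l) := by
  by_cases h0 : l = []
  · subst h0; simp
  · exact (Br_pos hl h0).le

lemma mem_exits_dsp {a l : List (Dir d)} {y : Site d} :
    y ∈ exits (dsp a) l ↔ ∃ x ∈ exits 0 l, y = x + dsp a := by
  have h := exits_add 0 (dsp a) l
  rw [zero_add] at h
  rw [h, Finset.mem_image]
  constructor
  · rintro ⟨x, hx, rfl⟩; exact ⟨x, hx, rfl⟩
  · rintro ⟨x, hx, rfl⟩; exact ⟨x, hx, rfl⟩

lemma mem_exits_append {a b : List (Dir d)} {y : Site d} :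
    y ∈ exits 0 (a ++ b) ↔ y ∈ exits 0 a ∨ ∃ x ∈ exits 0 b, y = x + dsp a := by
  rw [exits_append, Finset.mem_union, zero_add, mem_exits_dsp]

lemma Br_append {a b : List (Dir d)} (ha : a ∈ Br L) (hb : b ∈ Br L) : a ++ b ∈ Br L := by
  intro y hy
  rw [dsp_append, map_add]
  rcases mem_exits_append.1 hy with h | ⟨x, hx, rfl⟩
  · have h1 := ha y h
    have h2 := Br_nonneg hb
    exact ⟨h1.1, by linarith [h1.2]⟩
  · have h1 := hb x hx
    have h2 := Br_nonneg ha
    rw [map_add]
    exact ⟨by linarith [h1.1], by linarith [h1.2]⟩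

/-- The exits of a bridge are disjoint from the exits of a following path at nonnegative
levels. -/
lemma exits_disjoint_Br {a b : List (Dir d)} (ha : a ∈ Br L) (hb : ∀ x ∈ exits 0 b, 0 ≤ L x) :
    Disjoint (exits 0 a) (exits (dsp a) b) := by
  rw [Finset.disjoint_left]
  intro y h1 h2
  obtain ⟨x, hx, rfl⟩ := mem_exits_dsp.1 h2
  have h3 := (ha _ h1).2
  rw [map_add] at h3
  linarith [hb x hx]

lemma wt_append_Br (μ : Measure (Row d)) [IsProbabilityMeasure μ] {a b : List (Dir d)}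
    (ha : a ∈ Br L) (hb : ∀ x ∈ exits 0 b, 0 ≤ L x) : wt μ (a ++ b) = wt μ a * wt μ b :=
  wt_append μ (exits_disjoint_Br ha hb)

lemma Br_up {l : List (Dir d)} (hl : l ∈ Br L) : ∀ x ∈ exits 0 l, 0 ≤ L x :=
  fun x hx => (hl x hx).1

lemma Fp_up {a : ℝ} {l : List (Dir d)} (hl : l ∈ Fp L a) : ∀ x ∈ exits 0 l, 0 ≤ L x :=
  fun x hx => (hl.1 x hx).1

lemma Fp_subset_Br {a : ℝ} {l : List (Dir d)} (hl : l ∈ Fp L a) : l ∈ Br L :=
  fun x hx => ⟨(hl.1 x hx).1, (hl.1 x hx).2.trans_le hl.2⟩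

/-- Nesting: two bridges that start the same path at nonnegative levels. -/
lemma nest {a b a' b' : List (Dir d)} (hb : ∀ x ∈ exits 0 b, 0 ≤ L x)
    (ha' : a' ∈ Br L) (h : a ++ b = a' ++ b') (hlen : a.length ≤ a'.length) :
    ∃ c, a' = a ++ c ∧ b = c ++ b' ∧ c ∈ Br L := by
  have hcase : ∃ c, a' = a ++ c ∧ b = c ++ b' := by
    rcases List.append_eq_append_iff.1 h with ⟨c, h1, h2⟩ | ⟨c, h1, h2⟩
    · exact ⟨c, h1, h2⟩
    · have hc : c = [] := by
        have := congrArg List.length h1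
        rw [List.length_append] at this
        exact List.length_eq_zero_iff.1 (by omega)
      subst hc
      simp only [List.append_nil] at h1
      simp only [List.nil_append] at h2
      exact ⟨[], by simp [h1], by simp [h2]⟩
  obtain ⟨c, rfl, rfl⟩ := hcase
  refine ⟨c, rfl, rfl, fun x hx => ⟨?_, ?_⟩⟩
  · exact hb x (mem_exits_append.2 (Or.inl hx))
  · have h1 := (ha' (x + dsp a) (mem_exits_append.2 (Or.inr ⟨x, hx, rfl⟩))).2
    rw [map_add, dsp_append, map_add] at h1
    linarith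

/-- The first irreducible block is unique. -/
lemma Ir_append_inj {b r b' r' : List (Dir d)} (hb : b ∈ Ir L) (hr : ∀ x ∈ exits 0 r, 0 ≤ L x)
    (hb' : b' ∈ Ir L) (hr' : ∀ x ∈ exits 0 r', 0 ≤ L x) (h : b ++ r = b' ++ r') :
    b = b' ∧ r = r' := by
  have key : ∀ {b r b' r' : List (Dir d)}, b ∈ Ir L → (∀ x ∈ exits 0 r, 0 ≤ L x) → b' ∈ Ir L →
      b ++ r = b' ++ r' → b.length ≤ b'.length → b = b' ∧ r = r' := by
    intro b r b' r' hb hr hb' h hlen
    obtain ⟨c, rfl, rfl, hc⟩ := nest hr hb'.1 h hlen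
    have hc0 : c = [] := by
      rcases hb'.2.2 b c rfl hb.1 hc with h1 | h1
      · exact absurd h1 hb.2.1
      · exact h1
    subst hc0
    simp
  rcases le_total b.length b'.length with hlen | hlen
  · exact key hb hr hb' h hlen
  · obtain ⟨h1, h2⟩ := key hb' hr' hb h.symm hlen
    exact ⟨h1.symm, h2.symm⟩

/-- Existence of the first irreducible block. -/
lemma exists_Ir {l : List (Dir d)} (hl : l ∈ Br L) (h0 : l ≠ []) :
    ∃ b ∈ Ir L, ∃ r ∈ Br L, l = b ++ r := by
  classical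
  have hex : ∃ n, ∃ a b, a.length = n ∧ a ≠ [] ∧ a ∈ Br L ∧ b ∈ Br L ∧ l = a ++ b :=
    ⟨l.length, l, [], rfl, h0, hl, mem_Br_nil, by simp⟩
  obtain ⟨a, b, h1, h2, h3, h4, h5⟩ := Nat.find_spec hex
  have hmin := fun i hi => Nat.find_min hex (m := i) hi
  refine ⟨a, ⟨h3, h2, fun c e hce hc he => ?_⟩, b, h4, h5⟩
  by_contra hcon
  push Not at hcon
  have hlen : c.length < Nat.find hex := by
    rw [← h1, hce, List.length_append]
    have := List.length_pos_iff.2 hcon.2
    omega
  refine hmin _ hlen ⟨c, e ++ b, rfl, hcon.1, hc, Br_append he h4, ?_⟩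
  rw [h5, hce, List.append_assoc]

/-- Products of `n` irreducible bridges. -/
def Wn (L : Site d →+ ℝ) : ℕ → Set (List (Dir d))
  | 0 => {[]}
  | n + 1 => {l | ∃ b ∈ Ir L, ∃ r ∈ Wn L n, l = b ++ r}

lemma mem_Wn_zero {l : List (Dir d)} : l ∈ Wn L 0 ↔ l = [] := by
  simp [Wn]

lemma mem_Wn_succ {n : ℕ} {l : List (Dir d)} :
    l ∈ Wn L (n + 1) ↔ ∃ b ∈ Ir L, ∃ r ∈ Wn L n, l = b ++ r := Iff.rfl

lemma Wn_subset_Br {n : ℕ} {l : List (Dir d)} (hl : l ∈ Wn L n) : l ∈ Br L := by
  induction n generalizing l with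
  | zero => rw [mem_Wn_zero.1 hl]; exact mem_Br_nil
  | succ n ih =>
    obtain ⟨b, hb, r, hr, rfl⟩ := mem_Wn_succ.1 hl
    exact Br_append hb.1 (ih hr)

lemma Wn_append {m n : ℕ} {a b : List (Dir d)} (ha : a ∈ Wn L m) (hb : b ∈ Wn L n) :
    a ++ b ∈ Wn L (m + n) := by
  induction m generalizing a with
  | zero => rw [mem_Wn_zero.1 ha, List.nil_append, Nat.zero_add]; exact hb
  | succ m ih =>
    obtain ⟨c, hc, r, hr, rfl⟩ := mem_Wn_succ.1 ha
    rw [Nat.add_right_comm]
    exact ⟨c, hc, r ++ b, ih hr, by rw [List.append_assoc]⟩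

lemma Wn_unique {m n : ℕ} {l : List (Dir d)} (h1 : l ∈ Wn L m) (h2 : l ∈ Wn L n) : m = n := by
  induction m generalizing n l with
  | zero =>
    rw [mem_Wn_zero] at h1
    subst h1
    cases n with
    | zero => rfl
    | succ n =>
      obtain ⟨b, hb, r, hr, h⟩ := mem_Wn_succ.1 h2
      exact absurd (List.append_eq_nil_iff.1 h.symm).1 hb.2.1
  | succ m ih =>
    obtain ⟨b, hb, r, hr, rfl⟩ := mem_Wn_succ.1 h1
    cases n with
    | zero => exact absurd (List.append_eq_nil_iff.1 (mem_Wn_zero.1 h2)).1 hb.2.1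
    | succ n =>
      obtain ⟨b', hb', r', hr', h⟩ := mem_Wn_succ.1 h2
      obtain ⟨rfl, rfl⟩ := Ir_append_inj hb (Br_up (Wn_subset_Br hr)) hb'
        (Br_up (Wn_subset_Br hr')) h
      rw [ih hr hr']

lemma exists_Wn {l : List (Dir d)} (hl : l ∈ Br L) : ∃ n, l ∈ Wn L n := by
  induction hk : l.length using Nat.strong_induction_on generalizing l with
  | _ k ih =>
    by_cases h0 : l = []
    · exact ⟨0, mem_Wn_zero.2 h0⟩
    · obtain ⟨b, hb, r, hr, rfl⟩ := exists_Ir hl h0
      have hlt : r.length < k := by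
        rw [← hk, List.length_append]
        have := List.length_pos_iff.2 hb.2.1
        omega
      obtain ⟨n, hn⟩ := ih _ hlt hr rfl
      exact ⟨n + 1, b, hb, r, hn, rfl⟩

/-- A path has a unique initial segment in `Wn L m` that is followed by a bridge. -/
lemma Wn_append_inj {m : ℕ} {a r a' r' : List (Dir d)} (ha : a ∈ Wn L m)
    (hr : ∀ x ∈ exits 0 r, 0 ≤ L x) (ha' : a' ∈ Wn L m) (hr' : ∀ x ∈ exits 0 r', 0 ≤ L x)
    (h : a ++ r = a' ++ r') : a = a' ∧ r = r' := by
  have key : ∀ {a r a' r' : List (Dir d)}, a ∈ Wn L m → (∀ x ∈ exits 0 r, 0 ≤ L x) →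
      a' ∈ Wn L m → a ++ r = a' ++ r' → a.length ≤ a'.length → a = a' ∧ r = r' := by
    intro a r a' r' ha hr ha' h hlen
    obtain ⟨c, rfl, rfl, hc⟩ := nest hr (Wn_subset_Br ha') h hlen
    obtain ⟨k, hk⟩ := exists_Wn hc
    have h1 := Wn_unique ha' (Wn_append ha hk)
    have hk0 : k = 0 := by omega
    subst hk0
    rw [mem_Wn_zero] at hk
    subst hk
    simp
  rcases le_total a.length a'.length with hlen | hlen
  · exact key ha hr ha' h hlen
  · obtain ⟨h1, h2⟩ := key ha' hr' ha h.symm hlen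
    exact ⟨h1.symm, h2.symm⟩

/-- Sum over the nonempty bridges, or over the words with `n + 1` blocks. -/
lemma tsum_Wn_succ (n : ℕ) (F : List (Dir d) → ℝ≥0∞) :
    ∑' l : Wn L (n + 1), F l = ∑' b : Ir L, ∑' r : Wn L n, F (b.1 ++ r.1) := by
  let f : (Σ _ : Ir L, Wn L n) → Wn L (n + 1) := fun p =>
    ⟨p.1.1 ++ p.2.1, ⟨p.1.1, p.1.2, p.2.1, p.2.2, rfl⟩⟩
  have hf : Function.Bijective f := by
    constructor
    · rintro ⟨⟨b, hb⟩, ⟨r, hr⟩⟩ ⟨⟨b', hb'⟩, ⟨r', hr'⟩⟩ h
      obtain ⟨rfl, rfl⟩ := Ir_append_inj hb (Br_up (Wn_subset_Br hr)) hb'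
        (Br_up (Wn_subset_Br hr')) (congrArg Subtype.val h)
      rfl
    · rintro ⟨l, b, hb, r, hr, rfl⟩
      exact ⟨⟨⟨b, hb⟩, ⟨r, hr⟩⟩, rfl⟩
  rw [← (Equiv.ofBijective f hf).tsum_eq (fun l : Wn L (n + 1) => F l), ENNReal.tsum_sigma']
  rfl

/-- Sum over the words with `n` blocks. -/
lemma tsum_Wn (μ : Measure (Row d)) [IsProbabilityMeasure μ] (n : ℕ)
    (Φ : List (Dir d) → ℝ≥0∞) :
    ∑' l : Wn L n, wt μ l.1 * Φ l.1 = En μ L n Φ := by
  induction n generalizing Φ with
  | zero =>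
    have h := tsum_singleton ([] : List (Dir d)) (fun l => wt μ l * Φ l)
    rw [wt_nil, one_mul] at h
    exact h
  | succ n ih =>
    rw [tsum_Wn_succ n (fun l => wt μ l * Φ l), En]
    refine tsum_congr fun b => ?_
    rw [← ih, ← ENNReal.tsum_mul_left]
    refine tsum_congr fun r => ?_
    rw [wt_append_Br μ b.2.1 (Br_up (Wn_subset_Br r.2)), mul_assoc]

lemma iUnion_Wn : ⋃ n, Wn L n = Br L := by
  ext l
  rw [Set.mem_iUnion]
  exact ⟨fun ⟨_, hn⟩ => Wn_subset_Br hn, exists_Wn⟩

/-- Sum over all bridges, by the number of blocks. -/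
lemma tsum_Br (F : List (Dir d) → ℝ≥0∞) :
    ∑' l : Br L, F l = ∑' n : ℕ, ∑' l : Wn L n, F l := by
  rw [← iUnion_Wn]
  have hd : Pairwise (Function.onFun Disjoint (Wn L)) := by
    intro m n hmn
    rw [Function.onFun, Set.disjoint_left]
    exact fun l h1 h2 => hmn (Wn_unique h1 h2)
  rw [← (Set.unionEqSigmaOfDisjoint hd).symm.tsum_eq (fun l : (⋃ n, Wn L n : Set _) => F l),
    ENNReal.tsum_sigma']
  rfl

/-- Sum over all bridges, as a sum over the number of blocks. -/
lemma tsum_Br_words (μ : Measure (Row d)) [IsProbabilityMeasure μ] (Φ : List (Dir d) → ℝ≥0∞) :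
    ∑' l : Br L, wt μ l.1 * Φ l.1 = ∑' n : ℕ, En μ L n Φ := by
  rw [tsum_Br (fun l => wt μ l * Φ l)]
  exact tsum_congr fun n => tsum_Wn μ n Φ

end Vale.Agent.P147.Z
end

section

/-!
# Irreducible bridges: total weight one, exponential moment less than one, finite mean height
-/

open MeasureTheory
open scoped ENNReal

namespace Vale.Agent.P147.Z.IrA

variable {d : ℕ}

/-! ### Combinatorics of bridges -/

lemma mem_Br {L : Site d →+ ℝ} {l : List (Dir d)} :
    l ∈ Br L ↔ ∀ a b, l = a ++ b → b ≠ [] → 0 ≤ L (dsp a) ∧ L (dsp a) < L (dsp l) := by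
  constructor
  · intro h a b hab hb
    exact h (dsp a) (mem_exits.2 ⟨a, b, hab, hb, by simp⟩)
  · intro h x hx
    obtain ⟨a, b, hab, hb, rfl⟩ := mem_exits.1 hx
    rw [zero_add]
    exact h a b hab hb

lemma nil_mem_Br (L : Site d →+ ℝ) : ([] : List (Dir d)) ∈ Br L := by
  intro x hx
  simp at hx

lemma Br_dsp_nonneg {L : Site d →+ ℝ} {l : List (Dir d)} (h : l ∈ Br L) : 0 ≤ L (dsp l) := by
  by_cases hl : l = []
  · subst hl; simp
  · have := mem_Br.1 h [] l rfl hl
    simp only [dsp_nil, map_zero, le_refl, true_and] at this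
    exact this.le

lemma Br_append {L : Site d →+ ℝ} {a b : List (Dir d)} (ha : a ∈ Br L) (hb : b ∈ Br L) :
    a ++ b ∈ Br L := by
  rw [mem_Br]
  intro x y hxy hy
  rw [dsp_append, map_add]
  have hb0 := Br_dsp_nonneg hb
  rcases List.append_eq_append_iff.1 hxy with ⟨c, rfl, hc⟩ | ⟨c, hc, rfl⟩
  · rw [dsp_append, map_add]
    have h1 := mem_Br.1 hb c y hc hy
    have h2 := Br_dsp_nonneg ha
    constructor <;> linarith only [h1, h2]
  · by_cases hc0 : c = []
    · subst hc0
      rw [List.append_nil] at hc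
      subst hc
      have h1 := mem_Br.1 hb [] b rfl (by simpa using hy)
      simp only [dsp_nil, map_zero, le_refl, true_and] at h1
      have h2 := Br_dsp_nonneg ha
      constructor <;> linarith
    · have h1 := mem_Br.1 ha x c hc hc0
      constructor <;> linarith

/-- The middle piece between two bridges is a bridge. -/
lemma Br_mid {L : Site d →+ ℝ} {b c l : List (Dir d)} (hbc : b ++ c ∈ Br L)
    (hcl : c ++ l ∈ Br L) : c ∈ Br L := by
  rw [mem_Br]
  intro x y hxy hy
  subst hxy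
  have h1 := mem_Br.1 hcl x (y ++ l) (by simp) (by simp [hy])
  have h2 := mem_Br.1 hbc (b ++ x) y (by simp) hy
  refine ⟨h1.1, ?_⟩
  rw [dsp_append, dsp_append, map_add, map_add] at h2
  linarith only [h2]

lemma Ir_dsp_pos {L : Site d →+ ℝ} {b : List (Dir d)} (hb : b ∈ Ir L) : 0 < L (dsp b) := by
  have := mem_Br.1 hb.1 [] b rfl hb.2.1
  simpa only [gt_iff_lt, dsp_nil, map_zero] using this.2

lemma ir_exists {L : Site d →+ ℝ} {l : List (Dir d)} (hl : l ∈ Br L) (h0 : l ≠ []) :
    ∃ b ∈ Ir L, ∃ c ∈ Br L, l = b ++ c := by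
  classical
  have hex : ∃ n, ∃ b c : List (Dir d), b.length = n ∧ b ∈ Br L ∧ b ≠ [] ∧ c ∈ Br L ∧
      l = b ++ c := ⟨l.length, l, [], rfl, hl, h0, nil_mem_Br L, by simp⟩
  obtain ⟨b, c, hbn, hb, hb0, hc, rfl⟩ := Nat.find_spec hex
  refine ⟨b, ⟨hb, hb0, ?_⟩, c, hc, rfl⟩
  intro x y hxy hx hy
  by_contra hcon
  push Not at hcon
  have hlt : x.length < Nat.find hex := by
    rw [← hbn, hxy, List.length_append]
    have := List.length_pos_iff.2 hcon.2
    omega
  exact Nat.find_min hex hlt ⟨x, y ++ c, rfl, hx, hcon.1, Br_append hy hc, by rw [hxy]; simp⟩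

lemma ir_unique {L : Site d →+ ℝ} {b b' c c' : List (Dir d)} (hb : b ∈ Ir L) (hb' : b' ∈ Ir L)
    (hc : c ∈ Br L) (hc' : c' ∈ Br L) (h : b ++ c = b' ++ c') : b = b' ∧ c = c' := by
  rcases List.append_eq_append_iff.1 h with ⟨e, he, hce⟩ | ⟨e, he, hce⟩
  · -- b' = b ++ e, c = e ++ c'
    have he' : e ∈ Br L := Br_mid (b := b) (l := c') (he ▸ hb'.1) (hce ▸ hc)
    rcases hb'.2.2 b e he hb.1 he' with h1 | h1
    · exact absurd h1 hb.2.1
    · subst h1
      exact ⟨by simpa using he.symm, by simpa using hce⟩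
  · have he' : e ∈ Br L := Br_mid (b := b') (l := c) (he ▸ hb.1) (hce ▸ hc')
    rcases hb.2.2 b' e he hb'.1 he' with h1 | h1
    · exact absurd h1 hb'.2.1
    · subst h1
      exact ⟨by simpa using he, by simpa using hce.symm⟩

/-- Unique factorisation: a sum over the bridges, by the first irreducible factor. -/
lemma tsum_Br {L : Site d →+ ℝ} (F : List (Dir d) → ℝ≥0∞) :
    ∑' l : Br L, F l.1 = F [] + ∑' b : Ir L, ∑' l : Br L, F (b.1 ++ l.1) := by
  classical
  let φ : Unit ⊕ (Ir L × Br L) → Br L := fun o => match o with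
    | Sum.inl _ => ⟨[], nil_mem_Br L⟩
    | Sum.inr p => ⟨p.1.1 ++ p.2.1, Br_append p.1.2.1 p.2.2⟩
  have hφ : Function.Bijective φ := by
    constructor
    · rintro (_ | ⟨b, c⟩) (_ | ⟨b', c'⟩) h
      · rfl
      · have h1 : ([] : List (Dir d)) = b'.1 ++ c'.1 := congrArg Subtype.val h
        exact absurd (List.append_eq_nil_iff.1 h1.symm).1 b'.2.2.1
      · have h1 : b.1 ++ c.1 = ([] : List (Dir d)) := congrArg Subtype.val h
        exact absurd (List.append_eq_nil_iff.1 h1).1 b.2.2.1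
      · have h1 : b.1 ++ c.1 = b'.1 ++ c'.1 := congrArg Subtype.val h
        obtain ⟨h2, h3⟩ := ir_unique b.2 b'.2 c.2 c'.2 h1
        rw [Subtype.ext h2, Subtype.ext h3]
    · rintro ⟨l, hl⟩
      by_cases h0 : l = []
      · subst h0
        exact ⟨Sum.inl (), rfl⟩
      · obtain ⟨b, hb, c, hc, rfl⟩ := ir_exists hl h0
        exact ⟨Sum.inr (⟨b, hb⟩, ⟨c, hc⟩), rfl⟩
  have h1 : ∑' l : Br L, F l.1 = ∑' o : Unit ⊕ (Ir L × Br L), F (φ o).1 :=
    ((Equiv.ofBijective φ hφ).tsum_eq (fun l : Br L => F l.1)).symm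
  rw [h1, Summable.tsum_sum ENNReal.summable ENNReal.summable]
  congr 1
  · simp [φ]
  · rw [ENNReal.tsum_prod']

/-! ### Weights -/

section weights

variable (μ : Measure (Row d)) [IsProbabilityMeasure μ]

lemma Br_disjoint {L : Site d →+ ℝ} {a b : List (Dir d)} (ha : a ∈ Br L)
    (hb : ∀ x ∈ exits 0 b, 0 ≤ L x) : Disjoint (exits 0 a) (exits (dsp a) b) := by
  rw [Finset.disjoint_left]
  intro x hx hy
  have h1 := (ha x hx).2
  have h2 : exits (dsp a) b = (exits 0 b).image (· + dsp a) := by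
    rw [← exits_add, zero_add]
  rw [h2, Finset.mem_image] at hy
  obtain ⟨y, hy, rfl⟩ := hy
  have := hb y hy
  rw [map_add] at h1
  linarith

lemma wt_Br_append {L : Site d →+ ℝ} {a b : List (Dir d)} (ha : a ∈ Br L)
    (hb : ∀ x ∈ exits 0 b, 0 ≤ L x) : wt μ (a ++ b) = wt μ a * wt μ b :=
  wt_append μ (Br_disjoint ha hb)

/-- The exponential factor. -/
noncomputable def ee (s x : ℝ) : ℝ≥0∞ := ENNReal.ofReal (Real.exp (-(s * x)))

lemma ee_add (s x y : ℝ) : ee s (x + y) = ee s x * ee s y := by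
  rw [ee, ee, ee, ← ENNReal.ofReal_mul (Real.exp_pos _).le, ← Real.exp_add]
  congr 2
  ring

lemma ee_zero (s : ℝ) : ee s 0 = 1 := by simp [ee]

lemma ee_le_one {s x : ℝ} (hs : 0 ≤ s) (hx : 0 ≤ x) : ee s x ≤ 1 := by
  rw [ee]
  exact ENNReal.ofReal_le_one.2 (Real.exp_le_one_iff.2 (by linarith only [mul_nonneg (sub_nonneg.2 hs) (sub_nonneg.2 hx)]))

lemma ee_anti {s x y : ℝ} (hs : 0 ≤ s) (hxy : x ≤ y) : ee s y ≤ ee s x := by
  rw [ee, ee]
  refine ENNReal.ofReal_le_ofReal (Real.exp_le_exp.2 ?_)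
  have := mul_le_mul_of_nonneg_left hxy hs
  linarith

/-- Laplace transform of the bridges. -/
noncomputable def BB (L : Site d →+ ℝ) (s : ℝ) : ℝ≥0∞ :=
  ∑' l : Br L, wt μ l.1 * ee s (L (dsp l.1))

/-- Laplace transform of the irreducible bridges. -/
noncomputable def II (L : Site d →+ ℝ) (s : ℝ) : ℝ≥0∞ :=
  ∑' b : Ir L, wt μ b.1 * ee s (L (dsp b.1))

lemma BB_eq (L : Site d →+ ℝ) (s : ℝ) : BB μ L s = 1 + II μ L s * BB μ L s := by
  have h := tsum_Br (L := L) (fun l => wt μ l * ee s (L (dsp l)))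
  have h2 : ∑' b : Ir L, ∑' l : Br L, wt μ (b.1 ++ l.1) * ee s (L (dsp (b.1 ++ l.1))) =
      II μ L s * BB μ L s := by
    rw [II, BB, ← ENNReal.tsum_mul_right]
    refine tsum_congr fun b => ?_
    rw [← ENNReal.tsum_mul_left]
    refine tsum_congr fun l => ?_
    rw [wt_Br_append μ b.2.1 (fun x hx => (l.2 x hx).1), dsp_append, map_add, ee_add]
    ring
  rw [← h2]
  refine h.trans ?_
  simp only [wt_nil, dsp_nil, map_zero, ee_zero, mul_one, dsp_append, map_add]

lemma ir_Fp_free (L : Site d →+ ℝ) (a : ℝ) : Free (Fp L a) := by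
  intro x hx y hxy
  by_contra hy
  have h1 := (hxy.1 (dsp x) (mem_exits.2 ⟨x, y, rfl, hy, by simp⟩)).2
  exact absurd hx.2 (not_le.2 h1)

lemma ir_Fp_Br {L : Site d →+ ℝ} (hL : Lvl L) {a : ℝ} (ha : 0 ≤ a) {l : List (Dir d)}
    (hl : l ∈ Fp L a) : l ∈ Br L ∧ L (dsp l) < a + 1 := by
  refine ⟨fun x hx => ⟨(hl.1 x hx).1, (hl.1 x hx).2.trans_le hl.2⟩, ?_⟩
  rcases List.eq_nil_or_concat l with rfl | ⟨c, u, rfl⟩
  · simp only [dsp_nil, map_zero]; linarith only [ha]
  · rw [List.concat_eq_append] at hl ⊢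
    have h1 := (hl.1 (dsp c) (mem_exits.2 ⟨c, [u], by simp, by simp, by simp⟩)).2
    rw [dsp_append, map_add]
    have h2 := hL.step u
    have h3 : L (dsp [u]) ≤ 1 := by
      simp only [dsp_cons, dsp_nil, add_zero]
      exact (abs_le.1 h2).2
    linarith only [h1, h3]

lemma exists_up_step {L : Site d →+ ℝ} {l : List (Dir d)} (h : 0 < L (dsp l))
    (hw : wt μ l ≠ 0) : ∃ u : Dir d, 0 < L (vec u) ∧ wt μ [u] ≠ 0 := by
  induction l with
  | nil => simp at h
  | cons u l ih =>
    by_cases hu : 0 < L (vec u)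
    · refine ⟨u, hu, fun h0 => hw ?_⟩
      have := wt_append_le_left μ [u] l
      rw [h0] at this
      simpa only [List.cons_append, List.nil_append, nonpos_iff_eq_zero] using this
    · rw [dsp_cons, map_add] at h
      refine ih (by linarith) fun h0 => hw ?_
      have := wt_append_le_right μ [u] l
      rw [h0] at this
      simpa only [List.cons_append, List.nil_append, nonpos_iff_eq_zero] using this

open Classical in
lemma Br_window {L : Site d →+ ℝ} {u : Dir d} (hu : 0 < L (vec u)) (a : ℝ) :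
    (∑' l : Br L, if a ≤ L (dsp l.1) ∧ L (dsp l.1) < a + L (vec u) then wt μ l.1 else 0) *
      wt μ [u] ≤ 1 := by
  rw [← ENNReal.tsum_mul_right]
  have h1 : ∑' l : Br L, (if a ≤ L (dsp l.1) ∧ L (dsp l.1) < a + L (vec u) then wt μ l.1 else 0) *
      wt μ [u] = ∑' l : {l : Br L | a ≤ L (dsp l.1) ∧ L (dsp l.1) < a + L (vec u)},
        wt μ (l.1.1 ++ [u]) := by
    rw [tsum_subtype {l : Br L | a ≤ L (dsp l.1) ∧ L (dsp l.1) < a + L (vec u)}
      (fun l : Br L => wt μ (l.1 ++ [u]))]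
    refine tsum_congr fun l => ?_
    rw [Set.indicator_apply]
    simp only [Set.mem_ofPred_eq]
    split_ifs with h
    · rw [wt_Br_append μ l.2]
      intro x hx
      simp only [exits_cons, exits_nil, insert_empty_eq, Finset.mem_singleton] at hx
      subst hx
      simp
    · simp
  rw [h1]
  let φ : {l : Br L | a ≤ L (dsp l.1) ∧ L (dsp l.1) < a + L (vec u)} → Fp L (a + L (vec u)) :=
    fun l => ⟨l.1.1 ++ [u], by
      refine ⟨fun x hx => ?_, ?_⟩
      · rw [exits_append, Finset.mem_union] at hx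
        rcases hx with hx | hx
        · have := l.1.2 x hx
          exact ⟨this.1, this.2.trans l.2.2⟩
        · simp only [zero_add, exits_cons, exits_nil, insert_empty_eq,
            Finset.mem_singleton] at hx
          subst hx
          exact ⟨Br_dsp_nonneg l.1.2, l.2.2⟩
      · rw [dsp_append, map_add]
        simp only [dsp_cons, dsp_nil, add_zero]
        linarith [l.2.1]⟩
  have hφ : Function.Injective φ := by
    intro l l' h
    have h1 : l.1.1 ++ [u] = l'.1.1 ++ [u] := congrArg Subtype.val h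
    exact Subtype.ext (Subtype.ext (List.append_cancel_right h1))
  calc ∑' l : {l : Br L | a ≤ L (dsp l.1) ∧ L (dsp l.1) < a + L (vec u)}, wt μ (l.1.1 ++ [u])
      = ∑' l, wt μ (φ l).1 := rfl
    _ ≤ ∑' p : Fp L (a + L (vec u)), wt μ p.1 :=
        ENNReal.tsum_comp_le_tsum_of_injective hφ (fun p : Fp L (a + L (vec u)) => wt μ p.1)
    _ ≤ 1 := tsum_wt_le_one μ (ir_Fp_free L _)

open Classical in
lemma BB_ne_top_of {L : Site d →+ ℝ} {u : Dir d} (hu : 0 < L (vec u)) (hw : wt μ [u] ≠ 0)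
    {s : ℝ} (hs : 0 < s) : BB μ L s ≠ ⊤ := by
  set δ := L (vec u) with hδ
  have hwt : wt μ [u] ≠ ⊤ := ne_top_of_le_ne_top ENNReal.one_ne_top (wt_le_one μ _)
  have h1 : BB μ L s ≤ ∑' k : ℕ, (ee s δ) ^ k * (wt μ [u])⁻¹ := by
    calc BB μ L s ≤ ∑' l : Br L, ∑' k : ℕ,
          (if (k : ℝ) * δ ≤ L (dsp l.1) ∧ L (dsp l.1) < (k : ℝ) * δ + δ then wt μ l.1 else 0) *
            (ee s δ) ^ k := by
          refine ENNReal.tsum_le_tsum fun l => ?_
          have hx := Br_dsp_nonneg l.2
          set x := L (dsp l.1) with hxd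
          have hk1 : ((⌊x / δ⌋₊ : ℕ) : ℝ) ≤ x / δ := Nat.floor_le (by positivity)
          have hk2 : x / δ < (⌊x / δ⌋₊ : ℕ) + 1 := Nat.lt_floor_add_one _
          rw [le_div_iff₀ hu] at hk1
          rw [div_lt_iff₀ hu] at hk2
          refine le_trans ?_ (ENNReal.le_tsum ⌊x / δ⌋₊)
          rw [if_pos ⟨hk1, by linarith only [hk2]⟩]
          gcongr
          have h2 : (ee s δ) ^ ⌊x / δ⌋₊ = ee s ((⌊x / δ⌋₊ : ℝ) * δ) := by
            rw [ee, ee, ← ENNReal.ofReal_pow (Real.exp_pos _).le, ← Real.exp_nat_mul]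
            congr 2
            ring
          rw [h2]
          exact ee_anti hs.le hk1
      _ = ∑' k : ℕ, ∑' l : Br L,
          (if (k : ℝ) * δ ≤ L (dsp l.1) ∧ L (dsp l.1) < (k : ℝ) * δ + δ then wt μ l.1 else 0) *
            (ee s δ) ^ k := ENNReal.tsum_comm
      _ ≤ _ := by
          refine ENNReal.tsum_le_tsum fun k => ?_
          rw [ENNReal.tsum_mul_right, mul_comm]
          gcongr
          rw [ENNReal.le_inv_iff_mul_le]
          exact Br_window μ hu _
  refine ne_top_of_le_ne_top ?_ h1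
  rw [ENNReal.tsum_mul_right, ENNReal.tsum_geometric]
  have he : ee s δ < 1 := by
    rw [ee, ENNReal.ofReal_lt_one]
    exact Real.exp_lt_one_iff.2 (by linarith only [mul_pos (sub_pos.2 hs) (sub_pos.2 hu)])
  exact ENNReal.mul_ne_top (ENNReal.inv_ne_top.2 (tsub_pos_of_lt he).ne')
    (ENNReal.inv_ne_top.2 hw)

lemma BB_ne_top {L : Site d →+ ℝ} {q : ℝ≥0∞} (hq0 : q ≠ 0) (hq : ∀ a, q ≤ fu μ L a)
    {s : ℝ} (hs : 0 < s) : BB μ L s ≠ ⊤ := by
  have h1 : fu μ L 1 ≠ 0 := fun h => hq0 (by simpa [h] using hq 1)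
  obtain ⟨l, hl⟩ : ∃ l : Fp L 1, wt μ l.1 ≠ 0 := by
    by_contra hcon
    push Not at hcon
    exact h1 (by rw [fu]; exact ENNReal.tsum_eq_zero.2 hcon)
  obtain ⟨u, hu, hw⟩ := exists_up_step μ (L := L) (l := l.1)
    (lt_of_lt_of_le one_pos l.2.2) hl
  exact BB_ne_top_of μ hu hw hs

open Classical in
lemma BB_lower {L : Site d →+ ℝ} (hL : Lvl L) {q : ℝ≥0∞} (hq : ∀ a, q ≤ fu μ L a)
    {m : ℕ} (hm : 0 < m) : (m : ℝ≥0∞) * (q * ee 1 1) ≤ BB μ L (1 / m) := by
  have hmr : (0 : ℝ) < m := by exact_mod_cast hm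
  calc (m : ℝ≥0∞) * (q * ee 1 1) = ∑ k ∈ Finset.range m, q * ee 1 1 := by simp
    _ ≤ ∑ k ∈ Finset.range m, ∑' l : Br L,
        (if (k : ℝ) ≤ L (dsp l.1) ∧ L (dsp l.1) < (k : ℝ) + 1 then wt μ l.1 else 0) *
          ee 1 1 := by
        refine Finset.sum_le_sum fun k _ => ?_
        rw [ENNReal.tsum_mul_right]
        gcongr
        refine (hq k).trans ?_
        let φ : Fp L (k : ℝ) → Br L := fun l => ⟨l.1, (ir_Fp_Br hL (Nat.cast_nonneg k) l.2).1⟩
        have hφ : Function.Injective φ := by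
          intro l l' h
          have h0 : (φ l).1 = (φ l').1 := congrArg Subtype.val h
          exact Subtype.ext h0
        have h1 : fu μ L (k : ℝ) = ∑' l : Fp L (k : ℝ),
            (if (k : ℝ) ≤ L (dsp (φ l).1) ∧ L (dsp (φ l).1) < (k : ℝ) + 1 then wt μ (φ l).1
              else 0) := by
          rw [fu]
          refine tsum_congr fun l => ?_
          rw [if_pos ⟨l.2.2, (ir_Fp_Br hL (Nat.cast_nonneg k) l.2).2⟩]
        rw [h1]
        exact ENNReal.tsum_comp_le_tsum_of_injective hφ (fun l : Br L =>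
          if (k : ℝ) ≤ L (dsp l.1) ∧ L (dsp l.1) < (k : ℝ) + 1 then wt μ l.1 else 0)
    _ = ∑' l : Br L, ∑ k ∈ Finset.range m,
        (if (k : ℝ) ≤ L (dsp l.1) ∧ L (dsp l.1) < (k : ℝ) + 1 then wt μ l.1 else 0) *
          ee 1 1 := by
        rw [Summable.tsum_finsetSum fun _ _ => ENNReal.summable]
    _ ≤ BB μ L (1 / m) := by
        refine ENNReal.tsum_le_tsum fun l => ?_
        set x := L (dsp l.1) with hx
        by_cases hex : ∃ k ∈ Finset.range m, (k : ℝ) ≤ x ∧ x < (k : ℝ) + 1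
        · obtain ⟨k, hk, hk1, hk2⟩ := hex
          rw [Finset.sum_eq_single_of_mem k hk]
          · rw [if_pos ⟨hk1, hk2⟩]
            gcongr
            have h2 : ee 1 1 = ee (1 / m) m := by
              rw [ee, ee]
              congr 3
              field_simp
            rw [h2]
            refine ee_anti (by positivity) ?_
            rw [Finset.mem_range] at hk
            have : (k : ℝ) + 1 ≤ m := by exact_mod_cast hk
            linarith only [hk2, this]
          · intro j _ hj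
            rw [if_neg, zero_mul]
            rintro ⟨h1, h2⟩
            apply hj
            have e1 : (j : ℝ) < (k : ℝ) + 1 := by linarith only [hk2, h1]
            have e2 : (k : ℝ) < (j : ℝ) + 1 := by linarith only [hk1, h2]
            have e3 : j < k + 1 := by exact_mod_cast e1
            have e4 : k < j + 1 := by exact_mod_cast e2
            omega
        · push Not at hex
          rw [Finset.sum_eq_zero]
          · exact zero_le
          · intro k hk
            rw [if_neg, zero_mul]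
            rintro ⟨h1, h2⟩
            exact absurd h2 (not_lt.2 (hex k hk h1))

lemma II_lt_one {L : Site d →+ ℝ} {q : ℝ≥0∞} (hq0 : q ≠ 0) (hq : ∀ a, q ≤ fu μ L a)
    {s : ℝ} (hs : 0 < s) : II μ L s < 1 := by
  by_contra hcon
  rw [not_lt] at hcon
  have h1 := BB_ne_top μ hq0 hq hs
  have h2 := BB_eq μ L s
  have h3 : 1 + BB μ L s ≤ BB μ L s := by
    conv_rhs => rw [h2]
    gcongr
    exact le_mul_of_one_le_left zero_le hcon
  have h4 : BB μ L s < 1 + BB μ L s := by
    rw [add_comm]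
    exact ENNReal.lt_add_right h1 one_ne_zero
  exact absurd h3 (not_le.2 h4)

theorem rho_lt_aux {L : Site d →+ ℝ} (hL : Lvl L) {q : ℝ≥0∞} (hq0 : q ≠ 0)
    (hq : ∀ a, q ≤ fu μ L a) :
    ∑' b : Ir L, wt μ b.1 * ENNReal.ofReal (Real.exp (-L (dsp b.1))) < 1 := by
  have := II_lt_one μ hq0 hq one_pos
  simpa only [gt_iff_lt, II, ee, one_mul] using this

lemma ir_sum_le_one {L : Site d →+ ℝ} {q : ℝ≥0∞} (hq0 : q ≠ 0)
    (hq : ∀ a, q ≤ fu μ L a) : ∑' b : Ir L, wt μ b.1 ≤ 1 := by
  rw [ENNReal.tsum_eq_iSup_sum]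
  refine iSup_le fun S => ?_
  have h1 : Filter.Tendsto (fun m : ℕ => ∑ b ∈ S, wt μ b.1 *
      ee (1 / ((m : ℝ) + 1)) (L (dsp b.1))) Filter.atTop (nhds (∑ b ∈ S, wt μ b.1 * 1)) := by
    refine tendsto_finsetSum _ fun b _ => ?_
    refine ENNReal.Tendsto.const_mul ?_ (Or.inl one_ne_zero)
    have h2 : Filter.Tendsto (fun m : ℕ => Real.exp (-(1 / ((m : ℝ) + 1) * L (dsp b.1))))
        Filter.atTop (nhds (Real.exp (-(0 * L (dsp b.1))))) := by
      refine (Real.continuous_exp.tendsto _).comp ?_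
      exact (tendsto_one_div_add_atTop_nhds_zero_nat.mul_const _).neg
    have h3 := ENNReal.tendsto_ofReal h2
    simpa only [ee, one_div, zero_mul, neg_zero, Real.exp_zero, ENNReal.ofReal_one] using h3
  have h4 : ∀ m : ℕ, ∑ b ∈ S, wt μ b.1 * ee (1 / ((m : ℝ) + 1)) (L (dsp b.1)) ≤ 1 := by
    intro m
    refine le_trans (ENNReal.sum_le_tsum S) ?_
    exact (II_lt_one μ hq0 hq (s := 1 / ((m : ℝ) + 1)) (by positivity)).le
  have := le_of_tendsto' h1 h4
  simpa only [ge_iff_le, mul_one] using this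

lemma ir_defect {L : Site d →+ ℝ} {q : ℝ≥0∞} (hq0 : q ≠ 0)
    (hq : ∀ a, q ≤ fu μ L a) {F δ : ℝ≥0∞} {s : ℝ} (hs : 0 < s) (hF : II μ L s ≤ F)
    (hFδ : F + δ = 1) : δ * BB μ L s ≤ 1 := by
  have hB := BB_ne_top μ hq0 hq hs
  have hF1 : F ≤ 1 := by rw [← hFδ]; exact le_self_add
  have hFB : F * BB μ L s ≠ ⊤ :=
    ENNReal.mul_ne_top (ne_top_of_le_ne_top ENNReal.one_ne_top hF1) hB
  have h1 : F * BB μ L s + δ * BB μ L s ≤ F * BB μ L s + 1 := by
    rw [← add_mul, hFδ, one_mul]
    conv_lhs => rw [BB_eq μ L s]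
    rw [add_comm]
    (clear * - hF; gcongr)
  exact (ENNReal.add_le_add_iff_left hFB).1 h1

lemma ir_big {q : ℝ≥0∞} (hq0 : q ≠ 0) {δ : ℝ≥0∞} (hδ : δ ≠ 0) :
    ∃ m : ℕ, 0 < m ∧ 1 < δ * ((m : ℝ≥0∞) * (q * ee 1 1)) := by
  have he : ee 1 1 ≠ 0 := by
    rw [ee]
    exact (ENNReal.ofReal_pos.2 (Real.exp_pos _)).ne'
  obtain ⟨m, hm⟩ := ENNReal.exists_nat_mul_gt (a := δ * (q * ee 1 1)) (b := 1)
    (mul_ne_zero hδ (mul_ne_zero hq0 he)) (by simp)
  refine ⟨m, ?_, ?_⟩
  · rcases Nat.eq_zero_or_pos m with rfl | h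
    · simp at hm
    · exact h
  · calc (1 : ℝ≥0∞) < m * (δ * (q * ee 1 1)) := hm
      _ = _ := by ring

theorem tsum_Ir_aux {L : Site d →+ ℝ} (hL : Lvl L) {q : ℝ≥0∞} (hq0 : q ≠ 0)
    (hq : ∀ a, q ≤ fu μ L a) : ∑' b : Ir L, wt μ b.1 = 1 := by
  refine le_antisymm (ir_sum_le_one μ hq0 hq) ?_
  by_contra hcon
  rw [not_le] at hcon
  have hδ : 1 - ∑' b : Ir L, wt μ b.1 ≠ 0 := (tsub_pos_of_lt hcon).ne'
  obtain ⟨m, hm, hm1⟩ := ir_big hq0 hδ
  have hmr : (0 : ℝ) < 1 / m := by positivity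
  have h1 := ir_defect μ hq0 hq (F := ∑' b : Ir L, wt μ b.1) hmr ?_
    (add_tsub_cancel_of_le hcon.le)
  · have h2 := BB_lower μ hL hq hm
    exact absurd (hm1.trans_le ((mul_le_mul' le_rfl h2).trans h1)) (lt_irrefl _)
  · refine ENNReal.tsum_le_tsum fun b => ?_
    calc wt μ b.1 * ee (1 / m) (L (dsp b.1)) ≤ wt μ b.1 * 1 := by
          gcongr
          exact ee_le_one hmr.le (Ir_dsp_pos b.2).le
      _ = _ := mul_one _

lemma ir_exp_bound {x : ℝ} (h0 : 0 ≤ x) (h1 : x ≤ 1) : x / 2 + Real.exp (-x) ≤ 1 := by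
  have h2 : x + 1 ≤ Real.exp x := Real.add_one_le_exp x
  have h3 : Real.exp (-x) ≤ 1 / (x + 1) := by
    rw [Real.exp_neg, inv_eq_one_div]
    exact one_div_le_one_div_of_le (by linarith) h2
  have h4 : 1 / (x + 1) ≤ 1 - x / 2 := by
    rw [div_le_iff₀ (by linarith only [h0])]
    linarith only [mul_nonneg (sub_nonneg.2 h0) (sub_nonneg.2 h1)]
  linarith

theorem mean_height_aux {L : Site d →+ ℝ} (hL : Lvl L) {q : ℝ≥0∞} (hq0 : q ≠ 0)
    (hq : ∀ a, q ≤ fu μ L a) :
    ∑' b : Ir L, wt μ b.1 * ENNReal.ofReal (L (dsp b.1)) ≠ ⊤ := by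
  have hF := tsum_Ir_aux μ hL hq0 hq
  have he : ee 1 1 ≠ 0 := by
    rw [ee]
    exact (ENNReal.ofReal_pos.2 (Real.exp_pos _)).ne'
  have main : ∀ S : Finset (Ir L), (∑ b ∈ S, wt μ b.1 * ENNReal.ofReal (L (dsp b.1))) *
      (q * ee 1 1) ≤ 2 := by
    intro S
    obtain ⟨m, hm, hmS⟩ : ∃ m : ℕ, 0 < m ∧ ∀ b ∈ S, L (dsp b.1) ≤ m := by
      refine ⟨1 + S.sup (fun b => ⌈L (dsp b.1)⌉₊), by omega, fun b hb => ?_⟩
      have h1 : ⌈L (dsp b.1)⌉₊ ≤ S.sup (fun b : Ir L => ⌈L (dsp b.1)⌉₊) :=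
        Finset.le_sup (f := fun b : Ir L => ⌈L (dsp b.1)⌉₊) hb
      have h2 : L (dsp b.1) ≤ (⌈L (dsp b.1)⌉₊ : ℝ) := Nat.le_ceil _
      have h3 : ((⌈L (dsp b.1)⌉₊ : ℕ) : ℝ) ≤
          ((1 + S.sup (fun b : Ir L => ⌈L (dsp b.1)⌉₊) : ℕ) : ℝ) := by
        exact_mod_cast (by omega)
      exact h2.trans h3
    have hmr : (0 : ℝ) < m := by exact_mod_cast hm
    have hs : (0 : ℝ) < 1 / m := by positivity
    set Δ : ℝ≥0∞ := ∑' b : Ir L, wt μ b.1 * (1 - ee (1 / m) (L (dsp b.1))) with hΔ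
    have hsplit : II μ L (1 / m) + Δ = 1 := by
      rw [← hF, II, hΔ, ← ENNReal.tsum_add]
      refine tsum_congr fun b => ?_
      rw [← mul_add, add_tsub_cancel_of_le (ee_le_one hs.le (Ir_dsp_pos b.2).le), mul_one]
    have h1 : Δ * BB μ L (1 / m) ≤ 1 := ir_defect μ hq0 hq hs le_rfl hsplit
    have h2 := BB_lower μ hL hq hm
    have h3 : (∑ b ∈ S, wt μ b.1 * ENNReal.ofReal (L (dsp b.1))) ≤ 2 * m * Δ := by
      calc ∑ b ∈ S, wt μ b.1 * ENNReal.ofReal (L (dsp b.1))
          ≤ ∑ b ∈ S, (2 * m) * (wt μ b.1 * (1 - ee (1 / m) (L (dsp b.1)))) := by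
            refine Finset.sum_le_sum fun b hb => ?_
            have hx0 := (Ir_dsp_pos b.2).le
            have hx1 := hmS b hb
            set x := L (dsp b.1) with hx
            have hb1 : 0 ≤ 1 / (m : ℝ) * x := by (clear * - hm hx0; (clear * - hm hx0; positivity))
            have hb2 : 1 / (m : ℝ) * x ≤ 1 := by
              rw [one_div, inv_mul_le_iff₀ hmr]
              linarith only [hx1]
            have h5 := ir_exp_bound hb1 hb2
            have h6 : ENNReal.ofReal x ≤ 2 * m * (1 - ee (1 / m) x) := by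
              rw [ee, ← ENNReal.ofReal_one, ← ENNReal.ofReal_sub _ (Real.exp_pos _).le]
              have h7 : (2 * (m : ℝ≥0∞)) = ENNReal.ofReal (2 * m) := by
                rw [ENNReal.ofReal_mul (by norm_num)]
                simp
              rw [h7, ← ENNReal.ofReal_mul (by positivity)]
              refine ENNReal.ofReal_le_ofReal ?_
              have h8 : x = 2 * m * (1 / (m : ℝ) * x / 2) := by (clear * - hm; field_simp)
              calc x = 2 * m * (1 / (m : ℝ) * x / 2) := h8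
                _ ≤ 2 * m * (1 - Real.exp (-(1 / (m : ℝ) * x))) := by
                    gcongr
                    linarith only [h5]
            calc wt μ b.1 * ENNReal.ofReal x ≤ wt μ b.1 * (2 * m * (1 - ee (1 / m) x)) := by
                  (clear * - h6; gcongr)
              _ = _ := by ring
        _ = 2 * m * ∑ b ∈ S, wt μ b.1 * (1 - ee (1 / m) (L (dsp b.1))) := by
            rw [Finset.mul_sum]
        _ ≤ 2 * m * Δ := by
            gcongr
            exact ENNReal.sum_le_tsum S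
    calc (∑ b ∈ S, wt μ b.1 * ENNReal.ofReal (L (dsp b.1))) * (q * ee 1 1)
        ≤ 2 * m * Δ * (q * ee 1 1) := by (clear * - h3; gcongr)
      _ = 2 * (Δ * (m * (q * ee 1 1))) := by ring
      _ ≤ 2 * (Δ * BB μ L (1 / m)) := by (clear * - h2; gcongr)
      _ ≤ 2 * 1 := by (clear * - h1; gcongr)
      _ = 2 := mul_one _
  intro htop
  have h1 : (∑' b : Ir L, wt μ b.1 * ENNReal.ofReal (L (dsp b.1))) * (q * ee 1 1) ≤ 2 := by
    rw [← ENNReal.tsum_mul_right, ENNReal.tsum_eq_iSup_sum]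
    refine iSup_le fun S => ?_
    rw [← Finset.sum_mul]
    exact main S
  rw [htop, ENNReal.top_mul (mul_ne_zero hq0 he)] at h1
  exact absurd h1 (by simp)

end weights

end Vale.Agent.P147.Z.IrA

namespace Vale.Agent.P147.Z

variable {d : ℕ} (μ : Measure (Row d)) [IsProbabilityMeasure μ]

theorem tsum_Ir {L : Site d →+ ℝ} (hL : Lvl L) {q : ℝ≥0∞} (hq0 : q ≠ 0)
    (hq : ∀ a, q ≤ fu μ L a) : ∑' b : Ir L, wt μ b.1 = 1 := IrA.tsum_Ir_aux μ hL hq0 hq

theorem rho_lt {L : Site d →+ ℝ} (hL : Lvl L) {q : ℝ≥0∞} (hq0 : q ≠ 0)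
    (hq : ∀ a, q ≤ fu μ L a) :
    ∑' b : Ir L, wt μ b.1 * ENNReal.ofReal (Real.exp (-L (dsp b.1))) < 1 :=
  IrA.rho_lt_aux μ hL hq0 hq

theorem mean_height {L : Site d →+ ℝ} (hL : Lvl L) {q : ℝ≥0∞} (hq0 : q ≠ 0)
    (hq : ∀ a, q ≤ fu μ L a) :
    ∑' b : Ir L, wt μ b.1 * ENNReal.ofReal (L (dsp b.1)) ≠ ⊤ :=
  IrA.mean_height_aux μ hL hq0 hq

end Vale.Agent.P147.Z
end

section
attribute [-instance] ProperSMul.toContinuousSMul IsTopologicalTorsor.toContinuousSMul IdemSemiring.toCanonicallyOrderedAdd IdemSemiring.toMulLeftMono IdemSemiring.toMulRightMono AddQuantale.instAddLeftMono AddQuantale.instAddRightMono Quantale.instMulLeftMono Quantale.instMulRightMono FiniteDimensional.rclike_to_real IsScalarTower.complexToReal FiniteDimensional.complexToReal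

/-!
# Directional zero-one law: the lateral estimate

If the first passage paths which stay in a cone have total weight at least `g`, then the walk
leaves a slab of height `2 n` before it has gone far in a lateral direction: at every new record of
a suitable functional, two climbs inside fresh territory leave the slab.
-/

open MeasureTheory
open scoped ENNReal

namespace Vale.Agent.P147.Z

variable {d : ℕ}

namespace Lat

section tools

variable (μ : Measure (Row d)) [IsProbabilityMeasure μ]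

/-- Prefix-free continuations of `l` have total weight at most the weight of `l`. -/
lemma tsum_cont_le {S : Set (List (Dir d))} (hS : Free S) (l : List (Dir d)) :
    ∑' c : S, wt μ (l ++ c.1) ≤ wt μ l := by
  have h1 : ∀ ω : Env d, ∀ x : Site d, ∑' c : S, qw ω x (c : List (Dir d)) ≤ 1 := by
    intro ω x
    simp only [← quenched_cyl]
    rw [← measure_iUnion]
    · exact prob_le_one
    · intro a b hab
      exact cyl_disjoint hS a.2 b.2 (fun h => hab (Subtype.ext h))
    · intro a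
      exact measurableSet_cyl _ _
  simp only [wt]
  rw [← lintegral_tsum (f := fun (c : S) (ω : Env d) => qw ω 0 (l ++ c.1))
    fun c => (measurable_qw 0 _).aemeasurable]
  refine lintegral_mono fun ω => ?_
  simp only [qw_append]
  rw [ENNReal.tsum_mul_left]
  calc _ ≤ qw ω 0 l * 1 := by gcongr; exact h1 ω _
    _ = _ := mul_one _

omit [IsProbabilityMeasure μ] in
/-- Sum over lists that have a prefix in `T`, grouped by this prefix. -/
lemma tsum_le_cont {S T : Set (List (Dir d))}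
    (h : ∀ l ∈ S, ∃ a ∈ T, ∃ c, l = a ++ c) :
    ∑' l : S, wt μ l.1 ≤
      ∑' a : T, ∑' c : {c : List (Dir d) | a.1 ++ c ∈ S}, wt μ (a.1 ++ c.1) := by
  classical
  choose! a ha c hc using h
  let f : S → Σ a : T, {c : List (Dir d) | a.1 ++ c ∈ S} := fun l =>
    ⟨⟨a l.1, ha l.1 l.2⟩, ⟨c l.1, by
      change _ ++ _ ∈ S
      rw [← hc l.1 l.2]; exact l.2⟩⟩
  have hf : Function.Injective f := by
    intro l l' hl
    have h1 : (f l).1.1 ++ (f l).2.1 = (f l').1.1 ++ (f l').2.1 := by rw [hl]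
    have h2 : (f l).1.1 ++ (f l).2.1 = l.1 := (hc l.1 l.2).symm
    have h3 : (f l').1.1 ++ (f l').2.1 = l'.1 := (hc l'.1 l'.2).symm
    rw [h2, h3] at h1
    exact Subtype.ext h1
  calc ∑' l : S, wt μ l.1
      = ∑' l : S, (fun p : Σ a : T, {c : List (Dir d) | a.1 ++ c ∈ S} =>
          wt μ (p.1.1 ++ p.2.1)) (f l) := by
        refine tsum_congr fun l => ?_
        change wt μ l.1 = wt μ (a l.1 ++ c l.1)
        rw [← hc l.1 l.2]
    _ ≤ ∑' p : Σ a : T, {c : List (Dir d) | a.1 ++ c ∈ S}, wt μ (p.1.1 ++ p.2.1) :=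
        ENNReal.tsum_comp_le_tsum_of_injective hf _
    _ = _ := ENNReal.tsum_sigma' _

/-- Domination of a prefix-free family by a family of prefixes. -/
lemma tsum_le_of_prefix {S T : Set (List (Dir d))} (hS : Free S)
    (h : ∀ l ∈ S, ∃ a ∈ T, ∃ c, l = a ++ c) :
    ∑' l : S, wt μ l.1 ≤ ∑' a : T, wt μ a.1 := by
  refine (tsum_le_cont μ h).trans (ENNReal.tsum_le_tsum fun a => ?_)
  refine tsum_cont_le μ (S := {c : List (Dir d) | a.1 ++ c ∈ S}) ?_ a.1
  intro c hc b hb
  exact hS (a.1 ++ c) hc b (by simpa only [List.append_assoc, Set.mem_ofPred_eq] using hb)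

/-- Products of paths with disjoint departure sites. -/
lemma tsum_mul_le {S T U : Set (List (Dir d))} (hS : Free S)
    (hU : ∀ a ∈ S, ∀ b ∈ T, a ++ b ∈ U)
    (hd : ∀ a ∈ S, ∀ b ∈ T, Disjoint (exits 0 a) (exits (dsp a) b)) :
    (∑' a : S, wt μ a.1) * (∑' b : T, wt μ b.1) ≤ ∑' c : U, wt μ c.1 := by
  let f : S × T → U := fun p => ⟨p.1.1 ++ p.2.1, hU _ p.1.2 _ p.2.2⟩
  have hf : Function.Injective f := by
    rintro ⟨⟨a, ha⟩, ⟨b, hb⟩⟩ ⟨⟨a', ha'⟩, ⟨b', hb'⟩⟩ h
    have h' : a ++ b = a' ++ b' := congrArg Subtype.val h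
    have : a = a' := by
      rcases List.append_eq_append_iff.1 h' with ⟨c, h1, -⟩ | ⟨c, h1, -⟩
      · have := hS a ha c (h1 ▸ ha')
        rw [h1, this, List.append_nil]
      · have := hS a' ha' c (h1 ▸ ha)
        rw [h1, this, List.append_nil]
    subst this
    have := List.append_cancel_left h'
    subst this
    rfl
  calc (∑' a : S, wt μ a.1) * (∑' b : T, wt μ b.1)
      = ∑' p : S × T, wt μ p.1.1 * wt μ p.2.1 := by
        rw [← ENNReal.tsum_mul_right, ENNReal.tsum_prod']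
        refine tsum_congr fun a => ?_
        exact ENNReal.tsum_mul_left.symm
    _ = ∑' p : S × T, (fun c : U => wt μ c.1) (f p) := by
        refine tsum_congr fun p => ?_
        exact (wt_append μ (hd _ p.1.2 _ p.2.2)).symm
    _ ≤ _ := ENNReal.tsum_comp_le_tsum_of_injective hf _

/-- The first prefix with a given property. -/
lemma exists_first (Q : List (Dir d) → Prop) (l : List (Dir d)) (h : Q l) :
    ∃ a b, l = a ++ b ∧ Q a ∧ ∀ a' b', a = a' ++ b' → b' ≠ [] → ¬ Q a' := by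
  classical
  have hex : ∃ n, Q (l.take n) := ⟨l.length, by simpa using h⟩
  refine ⟨l.take (Nat.find hex), l.drop (Nat.find hex), (List.take_append_drop _ _).symm,
    Nat.find_spec hex, fun a' b' hab hb hQ => ?_⟩
  have h1 : a'.length < Nat.find hex := by
    have h2 : (l.take (Nat.find hex)).length = a'.length + b'.length := by
      rw [hab, List.length_append]
    have h3 : 0 < b'.length := List.length_pos_iff.2 hb
    have h4 : (l.take (Nat.find hex)).length ≤ Nat.find hex := by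
      rw [List.length_take]; exact min_le_left _ _
    omega
  refine Nat.find_min hex h1 ?_
  have h5 : l.take a'.length = a' := by
    have h6 : l = a' ++ (b' ++ l.drop (Nat.find hex)) := by
      rw [← List.append_assoc, ← hab, List.take_append_drop]
    rw [h6, List.take_left']
    rfl
  rwa [h5]

end tools

section trial

/-- First passage of the functional `φ` at level `r`, inside the slab. -/
def Fst (L φ : Site d →+ ℝ) (t r : ℝ) : Set (List (Dir d)) :=
  {l | (∀ x ∈ exits 0 l, x ∈ Db L t ∧ φ x < r) ∧ dsp l ∈ Db L t ∧ r ≤ φ (dsp l)}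

lemma mem_exits_prefix {l a b : List (Dir d)} (h : l = a ++ b) (hb : b ≠ []) :
    dsp a ∈ exits 0 l := mem_exits.2 ⟨a, b, h, hb, by simp⟩

lemma Fst_free (L φ : Site d →+ ℝ) (t r : ℝ) : Free (Fst L φ t r) := by
  intro a ha b hb
  by_contra hne
  have h1 := (hb.1 (dsp a) (mem_exits_prefix rfl hne)).2
  exact absurd h1 (not_lt.2 ha.2.2)

/-- The set of climbs: a step `u` followed by a path of `Tb`. -/
def Cl (u : Dir d) (Tb : Set (List (Dir d))) : Set (List (Dir d)) := {c | ∃ s ∈ Tb, c = u :: s}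

/-- Two climbs. -/
def C2 (u : Dir d) (Tb : Set (List (Dir d))) : Set (List (Dir d)) :=
  {e | ∃ c₁ ∈ Cl u Tb, ∃ c₂ ∈ Cl u Tb, e = c₁ ++ c₂}

lemma Fp_free' (L : Site d →+ ℝ) (a : ℝ) : Free (Fp L a) := by
  intro l hl b hb
  by_contra hne
  have h1 := (hb.1 (dsp l) (mem_exits_prefix rfl hne)).2
  exact absurd h1 (not_lt.2 hl.2)

lemma Cl_free {u : Dir d} {Tb : Set (List (Dir d))} (h : Free Tb) : Free (Cl u Tb) := by
  rintro _ ⟨s, hs, rfl⟩ b ⟨s', hs', hb⟩
  have : s ++ b = s' := by simpa using hb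
  exact h s hs b (this ▸ hs')

lemma C2_free {u : Dir d} {Tb : Set (List (Dir d))} (h : Free Tb) : Free (C2 u Tb) := by
  rintro _ ⟨c₁, h1, c₂, h2, rfl⟩ b ⟨c₁', h1', c₂', h2', hb⟩
  have hC := Cl_free (u := u) h
  rw [List.append_assoc] at hb
  have : c₁ = c₁' := by
    rcases List.append_eq_append_iff.1 hb with ⟨c, h3, -⟩ | ⟨c, h3, -⟩
    · have := hC c₁ h1 c (h3 ▸ h1')
      rw [h3, this, List.append_nil]
    · have := hC c₁' h1' c (h3 ▸ h1)
      rw [h3, this, List.append_nil]
  subst this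
  have h4 : c₂ ++ b = c₂' := List.append_cancel_left hb
  exact hC c₂ h2 b (h4 ▸ h2')

variable {L φ : Site d →+ ℝ} {u : Dir d} {Tb : Set (List (Dir d))} {n t Δ ω : ℝ}

lemma level_end (hu : L (vec u) = 1) (hTb : Tb ⊆ Fp L n) {c : List (Dir d)} (hc : c ∈ Cl u Tb) :
    1 + n ≤ L (dsp c) := by
  obtain ⟨s, hs, rfl⟩ := hc
  rw [dsp_cons, map_add, hu]
  linarith only [(hTb hs).2]

lemma Cl_prefix (hΔ : 0 ≤ Δ)
    (hφ : ∀ s ∈ Tb, ∀ a b, s = a ++ b → 0 ≤ φ (vec u + dsp a) ∧ φ (vec u + dsp a) ≤ Δ)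
    {c : List (Dir d)} (hc : c ∈ Cl u Tb) {a b : List (Dir d)} (hab : c = a ++ b) :
    0 ≤ φ (dsp a) ∧ φ (dsp a) ≤ Δ := by
  obtain ⟨s, hs, rfl⟩ := hc
  cases a with
  | nil => simp only [dsp_nil, map_zero, Std.le_refl, hΔ, and_self]
  | cons v a =>
    simp only [List.cons_append, List.cons.injEq] at hab
    obtain ⟨rfl, hab⟩ := hab
    rw [dsp_cons]
    exact hφ s hs a b hab

lemma C2_prefix (hΔ : 0 ≤ Δ)
    (hφ : ∀ s ∈ Tb, ∀ a b, s = a ++ b → 0 ≤ φ (vec u + dsp a) ∧ φ (vec u + dsp a) ≤ Δ)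
    {e : List (Dir d)} (he : e ∈ C2 u Tb) {a b : List (Dir d)} (hab : e = a ++ b) :
    0 ≤ φ (dsp a) ∧ φ (dsp a) ≤ 2 * Δ := by
  obtain ⟨c₁, h1, c₂, h2, rfl⟩ := he
  rcases List.append_eq_append_iff.1 hab with ⟨a', rfl, h3⟩ | ⟨c, h3, -⟩
  · have h4 := Cl_prefix hΔ hφ h1 (a := c₁) (b := []) (by simp)
    have h5 := Cl_prefix hΔ hφ h2 h3
    rw [dsp_append, map_add]
    constructor <;> linarith [h4.1, h4.2, h5.1, h5.2]
  · have h4 := Cl_prefix hΔ hφ h1 h3
    constructor <;> linarith [h4.1, h4.2]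

variable (μ : Measure (Row d)) [IsProbabilityMeasure μ]

lemma Cl_sum (hu : L (vec u) = 1) (hTb : Tb ⊆ Fp L n) :
    wt μ [u] * ∑' s : Tb, wt μ s.1 ≤ ∑' c : Cl u Tb, wt μ c.1 := by
  have h1 : ∑' a : ({[u]} : Set (List (Dir d))), wt μ a.1 = wt μ [u] :=
    tsum_singleton [u] (wt μ)
  rw [← h1]
  refine tsum_mul_le μ (S := {[u]}) (T := Tb) ?_ ?_ ?_
  · intro a ha b hb
    rw [Set.mem_singleton_iff] at ha hb
    rw [ha] at hb
    simpa using hb
  · intro a ha b hb
    rw [Set.mem_singleton_iff] at ha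
    subst ha
    exact ⟨b, hb, rfl⟩
  · intro a ha b hb
    rw [Set.mem_singleton_iff] at ha
    subst ha
    rw [Finset.disjoint_left]
    intro y h2 h3
    have h4 : y = 0 := by simpa using h2
    subst h4
    rw [mem_exits] at h3
    obtain ⟨a', b', rfl, hb', h5⟩ := h3
    have h6 := ((hTb hb).1 (dsp a') (mem_exits_prefix rfl hb')).1
    have h7 : L (dsp [u] + dsp a') = 0 := by rw [← h5]; simp only [map_zero]
    rw [map_add] at h7
    simp only [dsp_cons, dsp_nil, add_zero, hu] at h7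
    linarith only [h6, h7]

lemma C2_sum (hu : L (vec u) = 1) (hn : 0 ≤ n) (hTb : Tb ⊆ Fp L n) :
    (wt μ [u] * ∑' s : Tb, wt μ s.1) ^ 2 ≤ ∑' e : C2 u Tb, wt μ e.1 := by
  have hTF : Free Tb := fun a ha b hb => Fp_free' L n a (hTb ha) b (hTb hb)
  calc (wt μ [u] * ∑' s : Tb, wt μ s.1) ^ 2
      ≤ (∑' c : Cl u Tb, wt μ c.1) * (∑' c : Cl u Tb, wt μ c.1) := by
        rw [sq]
        exact mul_le_mul' (Cl_sum μ hu hTb) (Cl_sum μ hu hTb)
    _ ≤ _ := by
        refine tsum_mul_le μ (Cl_free hTF) (fun a ha b hb => ⟨a, ha, b, hb, rfl⟩) ?_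
        intro a ha b hb
        rw [Finset.disjoint_left]
        intro y h1 h2
        have h3 := level_end hu hTb ha
        have h4 : L y < 1 + n := by
          obtain ⟨s, hs, rfl⟩ := ha
          rw [exits_cons, Finset.mem_insert] at h1
          rcases h1 with rfl | h1
          · simp only [map_zero]; linarith
          · rw [mem_exits] at h1
            obtain ⟨a', b', rfl, hb', rfl⟩ := h1
            have := ((hTb hs).1 (dsp a') (mem_exits_prefix rfl hb')).2
            rw [zero_add, map_add, hu]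
            linarith only [this]
        have h5 : L (dsp a) ≤ L y := by
          rw [mem_exits] at h2
          obtain ⟨a', b', rfl, hb', rfl⟩ := h2
          rw [map_add]
          have : 0 ≤ L (dsp a') := by
            obtain ⟨s, hs, h6⟩ := hb
            cases a' with
            | nil => simp
            | cons v a' =>
              simp only [List.cons_append, List.cons.injEq] at h6
              obtain ⟨rfl, rfl⟩ := h6
              have := ((hTb hs).1 (dsp a') (mem_exits_prefix rfl hb')).1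
              rw [dsp_cons, map_add, hu]
              linarith only [this]
          linarith only [this]
        linarith only [h3, h4, h5]

/-- One trial: between the records `r` and `r + R` of `φ` the walk leaves the slab with
conditional probability at least `(wt [u] * g)^2`. -/
lemma contraction (hu : L (vec u) = 1) (hn : 0 ≤ n) (hTb : Tb ⊆ Fp L n) (ht : t ≤ 2 * n + 1)
    (hΔ : 0 ≤ Δ)
    (hφ : ∀ s ∈ Tb, ∀ a b, s = a ++ b → 0 ≤ φ (vec u + dsp a) ∧ φ (vec u + dsp a) ≤ Δ)
    (hω : 0 < ω) (hφω : ∀ v : Dir d, φ (vec v) ≤ ω) {r R : ℝ} (hr : 0 ≤ r)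
    (hR : 2 * Δ + ω ≤ R) :
    ∑' l : Fst L φ t (r + R), wt μ l.1 ≤
      (1 - (wt μ [u] * ∑' s : Tb, wt μ s.1) ^ 2) * ∑' l : Fst L φ t r, wt μ l.1 := by
  have hTF : Free Tb := fun a ha b hb => Fp_free' L n a (hTb ha) b (hTb hb)
  have hR0 : 0 ≤ R := by linarith
  have h1 : ∀ l ∈ Fst L φ t (r + R), ∃ a ∈ Fst L φ t r, ∃ c, l = a ++ c := by
    intro l hl
    obtain ⟨a, b, rfl, hQ, hmin⟩ := exists_first (fun a => r ≤ φ (dsp a)) l
      (by have := hl.2.2; change r ≤ φ (dsp l); linarith only [hΔ, hω, hR, this])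
    refine ⟨a, ⟨?_, ?_, hQ⟩, b, rfl⟩
    · intro x hx
      obtain ⟨a', b', rfl, hb', rfl⟩ := mem_exits.1 hx
      rw [zero_add]
      refine ⟨?_, not_le.1 (hmin a' b' rfl hb')⟩
      exact (hl.1 (dsp a') (mem_exits_prefix (b := b' ++ b) (by simp) (by simp [hb']))).1
    · by_cases hb : b = []
      · subst hb
        simpa using hl.2.1
      · exact (hl.1 (dsp a) (mem_exits_prefix rfl hb)).1
  refine (tsum_le_cont μ h1).trans ?_
  rw [← ENNReal.tsum_mul_left]
  refine ENNReal.tsum_le_tsum fun l => ?_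
  obtain ⟨l, hl⟩ := l
  -- the record is not much above `r`
  have hlφ : φ (dsp l) < r + ω := by
    rcases List.eq_nil_or_concat l with rfl | ⟨l', v, rfl⟩
    · simp only [dsp_nil, map_zero]; linarith only [hω, hr]
    · have h2 := (hl.1 (dsp l') (mem_exits_prefix (b := [v]) (by simp) (by simp))).2
      have h3 := hφω v
      simp only [List.concat_eq_append, dsp_append, dsp_cons, dsp_nil, add_zero, map_add]
      linarith only [h2, h3]
  set C : Set (List (Dir d)) := {c | l ++ c ∈ Fst L φ t (r + R)} with hC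
  have hCE : Disjoint C (C2 u Tb) := by
    rw [Set.disjoint_left]
    intro c hc he
    have h2 := C2_prefix hΔ hφ he (a := c) (b := []) (by simp)
    have h3 : r + R ≤ φ (dsp (l ++ c)) := hc.2.2
    rw [dsp_append, map_add] at h3
    linarith only [hR, hlφ, h2, h3]
  have hfree : Free (C ∪ C2 u Tb) := by
    rintro a (ha | ha) b (hb | hb)
    · exact Fst_free L φ t (r + R) (l ++ a) ha b (by rw [List.append_assoc]; exact hb)
    · exfalso
      have h2 := C2_prefix hΔ hφ hb (a := a) (b := b) rfl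
      have h3 : r + R ≤ φ (dsp (l ++ a)) := ha.2.2
      rw [dsp_append, map_add] at h3
      linarith only [hR, hlφ, h2, h3]
    · exfalso
      have h2 : dsp (l ++ a) ∈ Db L t := by
        have hb' : l ++ (a ++ b) ∈ Fst L φ t (r + R) := hb
        by_cases hb0 : b = []
        · subst hb0
          simpa using hb'.2.1
        · exact (hb'.1 (dsp (l ++ a)) (mem_exits_prefix (b := b) (by simp) hb0)).1
      obtain ⟨c₁, h3, c₂, h4, rfl⟩ := ha
      have h5 := level_end hu hTb h3
      have h6 := level_end hu hTb h4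
      have h7 := h2.2
      have h8 := hl.2.1.1
      rw [dsp_append, dsp_append, map_add, map_add] at h7
      linarith only [ht, h5, h6, h7, h8]
    · exact C2_free hTF a ha b hb
  have hsum := tsum_cont_le μ hfree l
  rw [ENNReal.summable.tsum_union_disjoint (f := fun c => wt μ (l ++ c)) hCE ENNReal.summable]
    at hsum
  have hE : (wt μ [u] * ∑' s : Tb, wt μ s.1) ^ 2 * wt μ l ≤ ∑' e : C2 u Tb, wt μ (l ++ e.1) := by
    calc _ ≤ (∑' e : C2 u Tb, wt μ e.1) * wt μ l := by
          gcongr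
          exact C2_sum μ hu hn hTb
      _ = ∑' e : C2 u Tb, wt μ (l ++ e.1) := by
          rw [← ENNReal.tsum_mul_right]
          refine tsum_congr fun e => ?_
          rw [wt_append μ, mul_comm]
          rw [Finset.disjoint_left]
          intro y h2 h3
          have h4 := (hl.1 y h2).2
          obtain ⟨a', b', h5, hb', rfl⟩ := mem_exits.1 h3
          have h6 := (C2_prefix hΔ hφ e.2 h5).1
          rw [map_add] at h4
          linarith only [h4, h6, hl.2.2]
  have hfin : (wt μ [u] * ∑' s : Tb, wt μ s.1) ^ 2 * wt μ l ≠ ⊤ := by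
    refine ne_top_of_le_ne_top ?_ (hE.trans (le_trans le_add_self hsum))
    exact ne_top_of_le_ne_top ENNReal.one_ne_top (wt_le_one μ l)
  have hwl : wt μ l ≠ ⊤ := ne_top_of_le_ne_top ENNReal.one_ne_top (wt_le_one μ l)
  rw [ENNReal.sub_mul (fun _ _ => hwl), one_mul]
  refine ENNReal.le_sub_of_add_le_right hfin ?_
  exact (add_le_add_right hE _).trans hsum

/-- Iterated trials. -/
lemma iterate (hu : L (vec u) = 1) (hn : 0 ≤ n) (hTb : Tb ⊆ Fp L n) (ht : t ≤ 2 * n + 1)
    (hΔ : 0 ≤ Δ)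
    (hφ : ∀ s ∈ Tb, ∀ a b, s = a ++ b → 0 ≤ φ (vec u + dsp a) ∧ φ (vec u + dsp a) ≤ Δ)
    (hω : 0 < ω) (hφω : ∀ v : Dir d, φ (vec v) ≤ ω) {R : ℝ}
    (hR : 2 * Δ + ω ≤ R) (k : ℕ) :
    ∑' l : Fst L φ t (k * R), wt μ l.1 ≤ (1 - (wt μ [u] * ∑' s : Tb, wt μ s.1) ^ 2) ^ k := by
  induction k with
  | zero => simpa only [pow_zero] using tsum_wt_le_one μ (Fst_free L φ t _)
  | succ k ih =>
    have h1 : ((k + 1 : ℕ) : ℝ) * R = k * R + R := by push_cast; ring
    rw [h1]
    refine (contraction μ hu hn hTb ht hΔ hφ hω hφω (mul_nonneg (Nat.cast_nonneg k) (by linarith only [hΔ, hω, hR])) hR).trans ?_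
    refine (mul_le_mul_right ih _).trans ?_
    rw [pow_succ' (1 - (wt μ [u] * ∑' s : Tb, wt μ s.1) ^ 2)]

end trial

section final

lemma vec_abs_le (u : Dir d) (i : Fin d) : |((vec u i : ℤ) : ℝ)| ≤ 1 := by
  unfold vec
  by_cases h : i = u.1
  · subst h
    rw [Pi.single_eq_same]
    split_ifs <;> simp
  · rw [Pi.single_eq_of_ne h]
    simp

/-- The functional `ε x_i + 2 s L(x)`. -/
noncomputable def fn (L : Site d →+ ℝ) (s : ℝ) (i : Fin d) (ε : Bool) : Site d →+ ℝ where
  toFun x := (if ε then 1 else -1) * ((x i : ℤ) : ℝ) + 2 * s * L x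
  map_zero' := by simp
  map_add' x y := by
    simp only [Pi.add_apply, Int.cast_add, map_add]
    ring

lemma fn_apply (L : Site d →+ ℝ) (s : ℝ) (i : Fin d) (ε : Bool) (x : Site d) :
    fn L s i ε x = (if ε then 1 else -1) * ((x i : ℤ) : ℝ) + 2 * s * L x := rfl

lemma sgn_abs (ε : Bool) (z : ℝ) : |(if ε then (1 : ℝ) else -1) * z| = |z| := by
  cases ε <;> simp

lemma Tube_level {L : Site d →+ ℝ} (hL : Lvl L) {n : ℝ} (hn : 0 < n) {l : List (Dir d)}
    (hl : l ∈ Fp L n) {a b : List (Dir d)} (hab : l = a ++ b) :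
    0 ≤ L (dsp a) ∧ L (dsp a) ≤ n + 1 := by
  by_cases hb : b = []
  · subst hb
    rw [List.append_nil] at hab
    subst hab
    refine ⟨hn.le.trans hl.2, ?_⟩
    rcases List.eq_nil_or_concat l with rfl | ⟨l', v, rfl⟩
    · simp only [dsp_nil, map_zero]; linarith only [hn]
    · have h2 := (hl.1 (dsp l') (mem_exits_prefix (b := [v]) (by simp) (by simp))).2
      have h3 := (abs_le.1 (hL.step v)).2
      simp only [List.concat_eq_append, dsp_append, dsp_cons, dsp_nil, add_zero, map_add]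
      linarith only [h2, h3]
  · have h2 := hl.1 (dsp a) (mem_exits_prefix hab hb)
    exact ⟨h2.1, by linarith [h2.2]⟩

end final

end Lat

/-- The first passage paths of height `n` that stay in the cone of slope `s`. -/
def Tube (L : Site d →+ ℝ) (n s : ℕ) : Set (List (Dir d)) :=
  {l | l ∈ Fp L n ∧ ∀ a b, l = a ++ b → ∀ i, |((dsp a i : ℤ) : ℝ)| ≤ s * (1 + L (dsp a))}

section lateral

open Vale.Agent.P147.Z.Lat

variable (μ : Measure (Row d)) [IsProbabilityMeasure μ]

/-- The lateral estimate, for the full weight of the tube. -/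
lemma lateral_aux {L : Site d →+ ℝ} (hL : Lvl L) {u : Dir d} (hu : L (vec u) = 1) {n s : ℕ}
    {t : ℝ} (hn' : 1 ≤ n) (hs' : 1 ≤ s) (ht : t ≤ 2 * n + 1) (k R : ℕ)
    (hR' : 24 * s * n * (k + 1) ≤ R) :
    ∑' π : Rch L t R, wt μ π.1 ≤
      2 * d * (1 - (wt μ [u] * ∑' l : Tube L n s, wt μ l.1) ^ 2) ^ k := by
  classical
  have hn : (1 : ℝ) ≤ n := by exact_mod_cast hn'
  have hs : (1 : ℝ) ≤ s := by exact_mod_cast hs'
  have hR : 24 * (s : ℝ) * n * (k + 1) ≤ R := by exact_mod_cast hR'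
  have hsn : (s : ℝ) ≤ s * n := by nlinarith only [hn]
  have hsn1 : (1 : ℝ) ≤ s * n := hs.trans hsn
  have key : ∀ (i : Fin d) (ε : Bool),
      ∑' l : Fst L (fn L s i ε) t (k * (23 * s * n)), wt μ l.1 ≤
        (1 - (wt μ [u] * ∑' l : Tube L n s, wt μ l.1) ^ 2) ^ k := by
    intro i ε
    refine iterate μ (n := n) (Δ := 10 * s * n) (ω := 3 * s * n) hu (by linarith only [])
      (fun l hl => hl.1) ht (by nlinarith only []) ?_ (by linarith only [hsn, hs]) ?_ (by nlinarith only []) k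
    · intro l hl a b hab
      have h1 := Tube_level hL (by linarith only [hn]) hl.1 hab
      have h2 := hl.2 a b hab i
      have h3 := vec_abs_le u i
      rw [map_add, fn_apply, fn_apply, hu]
      have h4 := sgn_abs ε ((dsp a i : ℤ) : ℝ)
      have h5 := sgn_abs ε ((vec u i : ℤ) : ℝ)
      have h6 := abs_le.1 (h4.le.trans h2)
      have h7 := abs_le.1 (h5.le.trans h3)
      constructor
      · nlinarith only [hs, h6, h7, h1]
      · have h8 : s * L (dsp a) ≤ s * (n + 1) := by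
          apply mul_le_mul_of_nonneg_left h1.2; linarith only []
        linarith
    · intro v
      rw [fn_apply]
      have h3 := vec_abs_le v i
      have h5 := sgn_abs ε ((vec v i : ℤ) : ℝ)
      have h7 := abs_le.1 (h5.le.trans h3)
      have h8 := (abs_le.1 (hL.step v)).2
      nlinarith only [hs, hsn, h7, h8]
  have hcover : Rch L t R ⊆ ⋃ p : Fin d × Bool,
      {π | π ∈ Rch L t R ∧ ∃ a ∈ Fst L (fn L s p.1 p.2) t (k * (23 * s * n)), ∃ c, π = a ++ c} := by
    intro π hπ
    have h1 : ∃ i, (R : ℤ) < |dsp π i| := by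
      by_contra hcon
      push Not at hcon
      apply hπ.2.2
      simp only [bx, Fintype.mem_piFinset, Finset.mem_Icc]
      exact fun i => abs_le.1 (hcon i)
    obtain ⟨i, hi⟩ := h1
    have h2 : (R : ℝ) < |((dsp π i : ℤ) : ℝ)| := by
      rw [← Int.cast_abs]
      exact_mod_cast hi
    have h3 : ∃ ε : Bool, (if ε then (1 : ℝ) else -1) * ((dsp π i : ℤ) : ℝ)
        = |((dsp π i : ℤ) : ℝ)| := by
      rcases le_total 0 ((dsp π i : ℤ) : ℝ) with h | h
      · exact ⟨true, by simp [abs_of_nonneg h]⟩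
      · exact ⟨false, by simp [abs_of_nonpos h]⟩
    obtain ⟨ε, hε⟩ := h3
    rw [Set.mem_iUnion]
    refine ⟨(i, ε), hπ, ?_⟩
    have h4 : k * (23 * s * n) ≤ fn L s i ε (dsp π) := by
      rw [fn_apply, hε]
      have h5 := hπ.2.1.1
      have h6 : 0 ≤ (k : ℝ) := Nat.cast_nonneg k
      nlinarith only [hR, hsn, h2, h5]
    obtain ⟨a, b, rfl, hQ, hmin⟩ :=
      exists_first (fun a => k * (23 * s * n) ≤ fn L s i ε (dsp a)) π h4
    refine ⟨a, ⟨?_, ?_, hQ⟩, b, rfl⟩
    · intro x hx
      obtain ⟨a', b', rfl, hb', rfl⟩ := mem_exits.1 hx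
      rw [zero_add]
      refine ⟨?_, not_le.1 (hmin a' b' rfl hb')⟩
      exact (hπ.1 (dsp a') (mem_exits_prefix (b := b' ++ b) (by simp) (by simp [hb']))).1
    · by_cases hb : b = []
      · subst hb
        simpa using hπ.2.1
      · exact (hπ.1 (dsp a) (mem_exits_prefix rfl hb)).1
  calc ∑' π : Rch L t R, wt μ π.1
      ≤ ∑' π : (⋃ p : Fin d × Bool, {π | π ∈ Rch L t R ∧
          ∃ a ∈ Fst L (fn L s p.1 p.2) t (k * (23 * s * n)), ∃ c, π = a ++ c} :
            Set (List (Dir d))), wt μ π.1 := ENNReal.tsum_mono_subtype (wt μ) hcover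
    _ ≤ ∑ p : Fin d × Bool, ∑' π : {π | π ∈ Rch L t R ∧
          ∃ a ∈ Fst L (fn L s p.1 p.2) t (k * (23 * s * n)), ∃ c, π = a ++ c}, wt μ π.1 :=
        ENNReal.tsum_iUnion_le _ _
    _ ≤ ∑ p : Fin d × Bool, (1 - (wt μ [u] * ∑' l : Tube L n s, wt μ l.1) ^ 2) ^ k := by
        refine Finset.sum_le_sum fun p _ => ?_
        refine le_trans ?_ (key p.1 p.2)
        refine tsum_le_of_prefix μ ?_ fun l hl => hl.2
        intro a ha b hb
        exact Rch_free L t R a ha.1 b hb.1
    _ = _ := by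
        rw [Finset.sum_const, Finset.card_univ, Fintype.card_prod, Fintype.card_fin,
          Fintype.card_bool, nsmul_eq_mul]
        push_cast
        ring

/-- **The lateral estimate.** If the tube of height `n` and slope `s` has weight at least `g`,
then the paths that go to distance `R` inside the slab of levels `(-1, t)`, `t ≤ 2 n + 1`, have
exponentially small weight in `R / (s n)`. -/
theorem lateral {L : Site d →+ ℝ} (hL : Lvl L) {u0 : Dir d} (hu0 : L (vec u0) = 1)
    {n s k R : ℕ} {g : ℝ≥0∞} {t : ℝ} (hn : 1 ≤ n) (hs : 1 ≤ s)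
    (hg : g ≤ ∑' l : Tube L n s, wt μ l.1) (ht : t ≤ 2 * n + 1)
    (hR : 24 * s * n * (k + 1) ≤ R) :
    ∑' π : Rch L t R, wt μ π.1 ≤ 2 * d * (1 - (wt μ [u0] * g) ^ 2) ^ k := by
  refine (lateral_aux μ hL hu0 hn hs ht k R hR).trans ?_
  (clear * - hg; gcongr)

end lateral

end Vale.Agent.P147.Z
end

section

/-!
# Backtracks of first passage paths

A path of `Fp L N` that comes back from level at least `2 ^ (i + 1)` to a level less than `2 ^ i`
has an irreducible block that starts below `2 ^ i` and has height more than `2 ^ i`.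
-/

open MeasureTheory
open scoped ENNReal

namespace Vale.Agent.P147.Z

variable {d : ℕ} {L : Site d →+ ℝ}

/-- Paths of `Fp L N` that come back from level at least `2 ^ (i + 1)` to a level less
than `2 ^ i`. -/
def Strad (L : Site d →+ ℝ) (N : ℝ) (i : ℕ) : Set (List (Dir d)) :=
  {π | π ∈ Fp L N ∧ ∃ a b c, π = a ++ b ++ c ∧ (2 : ℝ) ^ (i + 1) ≤ L (dsp a) ∧
    L (dsp (a ++ b)) < 2 ^ i}

namespace Strd

/-- Bridges with end level in a unit window. -/
def BrW (L : Site d →+ ℝ) (k : ℕ) : Set (List (Dir d)) :=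
  {w | w ∈ Br L ∧ (k : ℝ) ≤ L (dsp w) ∧ L (dsp w) < k + 1}

lemma pre_of_len {x y x' y' : List (Dir d)} (h : x ++ y = x' ++ y')
    (hlen : x.length ≤ x'.length) : ∃ c, x' = x ++ c ∧ y = c ++ y' := by
  rcases List.append_eq_append_iff.1 h with ⟨c, h1, h2⟩ | ⟨c, h1, h2⟩
  · exact ⟨c, h1, h2⟩
  · have hc : c = [] := by
      have := congrArg List.length h1
      rw [List.length_append] at this
      exact List.length_eq_zero_iff.1 (by omega)
    subst hc
    simp only [List.append_nil] at h1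
    simp only [List.nil_append] at h2
    exact ⟨[], by simp [h1], by simp [h2]⟩

lemma dsp_mem_exits {a b : List (Dir d)} (hb : b ≠ []) : dsp a ∈ exits 0 (a ++ b) :=
  mem_exits.2 ⟨a, b, rfl, hb, by rw [zero_add]⟩

lemma brW_free {u : Dir d} (hu : L (vec u) = 1) (k : ℕ) :
    Free ((fun w => w ++ [u]) '' BrW L k) := by
  rintro _ ⟨w, hw, rfl⟩ b ⟨w', hw', h⟩
  by_contra hb
  have h' : w' ++ [u] = (w ++ [u]) ++ b := h
  have hlen := congrArg List.length h'
  rw [List.length_append, List.length_append, List.length_append] at hlen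
  have hb1 := List.length_pos_iff.2 hb
  simp only [List.length_cons, List.length_nil] at hlen
  obtain ⟨c, hc, _⟩ := pre_of_len h'.symm (by
    rw [List.length_append]
    simp only [List.length_cons, List.length_nil]
    omega)
  have h1 : L (dsp (w ++ [u])) = L (dsp w) + 1 := by
    rw [dsp_append, map_add, dsp_cons, dsp_nil, add_zero, hu]
  by_cases hc0 : c = []
  · subst hc0
    rw [List.append_nil] at hc
    have := hw'.2.2
    rw [hc, h1] at this
    (clear * - this hw; linarith [hw.2.1])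
  · have h2 := (hw'.1 (dsp (w ++ [u])) (by rw [hc]; exact dsp_mem_exits hc0)).2
    rw [h1] at h2
    linarith only [h2, hw.2.1, hw'.2.2]

lemma brW_le (μ : Measure (Row d)) [IsProbabilityMeasure μ] {u : Dir d} (hu : L (vec u) = 1)
    (k : ℕ) : (∑' w : BrW L k, wt μ w.1) * wt μ [u] ≤ 1 := by
  have hinj : Set.InjOn (fun w : List (Dir d) => w ++ [u]) (BrW L k) := by
    intro a _ b _ h
    exact List.append_cancel_right h
  have h1 := tsum_wt_le_one μ (brW_free (L := L) hu k)
  rw [tsum_image (fun l => wt μ l) hinj] at h1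
  rw [← ENNReal.tsum_mul_right]
  refine le_trans (le_of_eq (tsum_congr fun w => ?_)) h1
  rw [wt_append_Br μ w.2.1 (by
    intro x hx
    simp only [exits_cons, exits_nil, Finset.mem_insert, Finset.notMem_empty, or_false] at hx
    subst hx
    rw [map_zero])]

/-- Bridges with end level less than `n`. -/
def BrL (L : Site d →+ ℝ) (n : ℕ) : Set (List (Dir d)) := {w | w ∈ Br L ∧ L (dsp w) < n}

lemma brL_le (μ : Measure (Row d)) [IsProbabilityMeasure μ] {u : Dir d}
    (hu : L (vec u) = 1) (n : ℕ) :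
    ∑' w : BrL L n, wt μ w.1 ≤ n * (wt μ [u])⁻¹ := by
  have hsub : BrL L n ⊆ ⋃ k ∈ Finset.range n, BrW L k := by
    rintro w ⟨h1, h2⟩
    have h0 := Br_nonneg h1
    refine Set.mem_biUnion (x := ⌊L (dsp w)⌋₊) ?_ ⟨h1, Nat.floor_le h0, Nat.lt_floor_add_one _⟩
    exact Finset.mem_coe.2 (Finset.mem_range.2 ((Nat.floor_lt h0).2 h2))
  calc ∑' w : BrL L n, wt μ w.1
      ≤ ∑' w : (⋃ k ∈ Finset.range n, BrW L k : Set _), wt μ w.1 :=
        ENNReal.tsum_mono_subtype (fun l => wt μ l) hsub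
    _ ≤ ∑ k ∈ Finset.range n, ∑' w : BrW L k, wt μ w.1 :=
        ENNReal.tsum_biUnion_le (fun l => wt μ l) _ _
    _ ≤ ∑ k ∈ Finset.range n, (wt μ [u])⁻¹ := by
        refine Finset.sum_le_sum fun k _ => ?_
        exact ENNReal.le_inv_iff_mul_le.2 (brW_le μ hu k)
    _ = n * (wt μ [u])⁻¹ := by rw [Finset.sum_const, Finset.card_range, nsmul_eq_mul]

/-- The block that contains a given time. -/
lemma exists_block {l : List (Dir d)} (hl : l ∈ Br L) {m : ℕ} (hm : m < l.length) :
    ∃ w ∈ Br L, ∃ β ∈ Ir L, ∃ r ∈ Br L, l = w ++ β ++ r ∧ w.length ≤ m ∧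
      m < w.length + β.length := by
  induction hk : l.length using Nat.strong_induction_on generalizing l m with
  | _ k ih =>
    have h0 : l ≠ [] := by
      rintro rfl
      simp at hm
    obtain ⟨b, hb, r, hr, rfl⟩ := exists_Ir hl h0
    by_cases hmb : m < b.length
    · exact ⟨[], mem_Br_nil, b, hb, r, hr, by simp, by simp only [List.length_nil, zero_le], by simpa using hmb⟩
    · have hlen : (b ++ r).length = b.length + r.length := List.length_append
      have hb0 := List.length_pos_iff.2 hb.2.1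
      obtain ⟨w, hw, β, hβ, r', hr', h1, h2, h3⟩ := ih r.length (by omega) hr
        (show m - b.length < r.length by omega) rfl
      refine ⟨b ++ w, Br_append hb.1 hw, β, hβ, r', hr', ?_, ?_, ?_⟩
      · rw [h1]; simp
      · rw [List.length_append]; omega
      · rw [List.length_append]; omega

lemma strad_block {N : ℝ} {i : ℕ} {π : List (Dir d)} (hπ : π ∈ Strad L N i) :
    ∃ w ∈ BrL L (2 ^ i), ∃ β ∈ Ir L, ∃ r ∈ Fp L (N - L (dsp (w ++ β))),
      (2 : ℝ) ^ i < L (dsp β) ∧ π = w ++ (β ++ r) := by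
  obtain ⟨hF, a, b, c, rfl, h1, h2⟩ := hπ
  have hpow : (2 : ℝ) ^ (i + 1) = 2 * 2 ^ i := by rw [pow_succ, mul_comm]
  have hpos : (0 : ℝ) < 2 ^ i := by positivity
  have hc : c ≠ [] := by
    rintro rfl
    rw [List.append_nil] at hF
    have hN := hF.2
    by_cases hb : b = []
    · subst hb
      rw [List.append_nil] at h2
      linarith only [h1, hpow, hpos, h2]
    · have h3 := (hF.1 (dsp a) (dsp_mem_exits hb)).2
      linarith only [h1, h2, hpow, hpos, hN, h3]
  have hlc := List.length_pos_iff.2 hc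
  obtain ⟨w, hw, β, hβ, r, hr, h3, h4, h5⟩ := exists_block (Fp_subset_Br hF)
    (m := (a ++ b).length) (by simp only [List.length_append]; omega)
  obtain ⟨e, he, he'⟩ := pre_of_len (x := w) (y := β ++ r) (x' := a ++ b) (y' := c)
    (by rw [← List.append_assoc, ← h3]) h4
  obtain ⟨f, hf, hf'⟩ := pre_of_len (x := e) (y := c) (x' := β) (y' := r) he'.symm (by
    have := congrArg List.length he
    have h6 : (w ++ e).length = w.length + e.length := List.length_append
    omega)
  have hf0 : f ≠ [] := by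
    rintro rfl
    have h6 := congrArg List.length he
    have h7 := congrArg List.length hf
    simp only [List.length_append, List.length_nil, add_zero] at h6 h7 h5
    omega
  have hE : 0 ≤ L (dsp e) := (hβ.1 (dsp e) (by rw [hf]; exact dsp_mem_exits hf0)).1
  have hwl : L (dsp w) < 2 ^ i := by
    rw [he, dsp_append, map_add] at h2
    linarith only [h2, hE]
  have hwa : w.length ≤ a.length := by
    by_contra hcon
    push Not at hcon
    have h6 : a ++ b = w ++ e := he
    obtain ⟨g, hg, _⟩ := pre_of_len h6 hcon.le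
    have hg0 : g ≠ [] := by
      rintro rfl
      rw [List.append_nil] at hg
      rw [hg] at hcon
      omega
    have h7 := (hw (dsp a) (by rw [hg]; exact dsp_mem_exits hg0)).2
    linarith only [h1, hpow, hpos, hwl, h7]
  obtain ⟨g, hg, hg'⟩ := pre_of_len (x := w) (y := e) (x' := a) (y' := b) he.symm hwa
  have hβl : (2 : ℝ) ^ i < L (dsp β) := by
    have h6 : β = g ++ (b ++ f) := by rw [hf, hg', List.append_assoc]
    have h7 := (hβ.1 (dsp g) (by
      rw [h6]
      refine dsp_mem_exits fun h => hf0 (List.append_eq_nil_iff.1 h).2)).2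
    rw [hg, dsp_append, map_add] at h1
    linarith only [hpow, hwl, h1, h7]
  refine ⟨w, ⟨hw, by push_cast; exact hwl⟩, β, hβ, r, ⟨?_, ?_⟩, hβl, by
    rw [← List.append_assoc, ← h3]⟩
  · intro x hx
    refine ⟨(hr x hx).1, ?_⟩
    have h6 := (hF.1 (x + dsp (w ++ β)) (by
      rw [h3]
      exact mem_exits_append.2 (Or.inr ⟨x, hx, rfl⟩))).2
    rw [map_add] at h6
    linarith only [h6]
  · have h6 := hF.2
    rw [h3, dsp_append, map_add] at h6
    linarith only [h6]

lemma pow_sum_le {x : ℝ} (hx : 0 ≤ x) (n : ℕ) :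
    ∑ i ∈ Finset.range n, (if (2 : ℝ) ^ i < x then (2 : ℝ) ^ i else 0) ≤ 2 * x := by
  have h1 : ∀ n : ℕ, ∑ i ∈ Finset.range n, (if (2 : ℝ) ^ i < x then (2 : ℝ) ^ i else 0) ≤
      2 ^ n := by
    intro n
    induction n with
    | zero => simp only [Finset.range_zero, Finset.sum_empty, pow_zero, zero_le_one]
    | succ n ih =>
      rw [Finset.sum_range_succ, pow_succ]
      have : (if (2 : ℝ) ^ n < x then (2 : ℝ) ^ n else 0) ≤ 2 ^ n := by
        split_ifs
        · exact le_refl _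
        · positivity
      linarith
  induction n with
  | zero => simpa only [Finset.range_zero, Finset.sum_empty, Nat.ofNat_pos, mul_nonneg_iff_of_pos_left, ge_iff_le] using     hx
  | succ n ih =>
    by_cases h : (2 : ℝ) ^ n < x
    · have := h1 (n + 1)
      rw [pow_succ] at this
      linarith only [h, this]
    · rw [Finset.sum_range_succ, if_neg h, add_zero]
      exact ih

lemma tsum_pow_le (x : ℝ) :
    ∑' i : ℕ, (if (2 : ℝ) ^ i < x then (2 : ℝ≥0∞) ^ i else 0) ≤ 2 * ENNReal.ofReal x := by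
  rcases lt_or_ge x 0 with hx | hx
  · have : ∀ i : ℕ, ¬ (2 : ℝ) ^ i < x := fun i h => by
      have : (0 : ℝ) < 2 ^ i := by positivity
      linarith
    simp only [this, ↓reduceIte, tsum_zero, zero_le]
  · refine ENNReal.tsum_le_of_sum_range_le fun n => ?_
    have h := ENNReal.ofReal_le_ofReal (pow_sum_le hx n)
    rw [ENNReal.ofReal_sum_of_nonneg (fun i _ => by split_ifs <;> positivity),
      ENNReal.ofReal_mul (by norm_num)] at h
    simp only [ENNReal.ofReal_ofNat] at h
    refine le_trans (Finset.sum_le_sum fun i _ => ?_) h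
    split_ifs
    · rw [ENNReal.ofReal_pow (by norm_num), ENNReal.ofReal_ofNat]
    · exact bot_le

end Strd

open Strd

open Classical in
/-- The backtracks are summable over the scales, uniformly in the height. -/
theorem strad_sum_of (μ : Measure (Row d)) [IsProbabilityMeasure μ] (hL : Lvl L)
    (hμ : Elliptic μ)
    (hm : ∑' b : Ir L, wt μ b.1 * ENNReal.ofReal (L (dsp b.1)) ≠ ⊤) :
    ∃ ε : ℕ → ℝ≥0∞, ∑' i, ε i ≠ ⊤ ∧ ∀ (i : ℕ) (N : ℝ), ∑' π : Strad L N i, wt μ π.1 ≤ ε i := by
  obtain ⟨u, hu⟩ := hL.top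
  have hκ := wt_ne_zero μ hμ [u]
  refine ⟨fun i => (2 ^ i * (wt μ [u])⁻¹) *
    ∑' β : Ir L, (if (2 : ℝ) ^ i < L (dsp β.1) then wt μ β.1 else 0), ?_, fun i N => ?_⟩
  · have h1 : ∑' i : ℕ, ((2 : ℝ≥0∞) ^ i * (wt μ [u])⁻¹) *
        ∑' β : Ir L, (if (2 : ℝ) ^ i < L (dsp β.1) then wt μ β.1 else 0) ≤
        (wt μ [u])⁻¹ * (2 * ∑' b : Ir L, wt μ b.1 * ENNReal.ofReal (L (dsp b.1))) := by
      calc ∑' i : ℕ, ((2 : ℝ≥0∞) ^ i * (wt μ [u])⁻¹) *
          ∑' β : Ir L, (if (2 : ℝ) ^ i < L (dsp β.1) then wt μ β.1 else 0)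
          = (wt μ [u])⁻¹ * ∑' i : ℕ, ∑' β : Ir L,
            wt μ β.1 * (if (2 : ℝ) ^ i < L (dsp β.1) then (2 : ℝ≥0∞) ^ i else 0) := by
            rw [← ENNReal.tsum_mul_left]
            refine tsum_congr fun i => ?_
            rw [mul_comm ((2 : ℝ≥0∞) ^ i), mul_assoc, ← ENNReal.tsum_mul_left]
            congr 1
            refine tsum_congr fun β => ?_
            split_ifs
            · rw [mul_comm]
            · simp only [mul_zero]
        _ = (wt μ [u])⁻¹ * ∑' β : Ir L, wt μ β.1 *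
            ∑' i : ℕ, (if (2 : ℝ) ^ i < L (dsp β.1) then (2 : ℝ≥0∞) ^ i else 0) := by
            rw [ENNReal.tsum_comm]
            congr 1
            refine tsum_congr fun β => ?_
            rw [ENNReal.tsum_mul_left]
        _ ≤ (wt μ [u])⁻¹ * ∑' β : Ir L, wt μ β.1 * (2 * ENNReal.ofReal (L (dsp β.1))) := by
            gcongr
            exact tsum_pow_le _
        _ = _ := by
            congr 1
            rw [← ENNReal.tsum_mul_left]
            refine tsum_congr fun β => ?_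
            ring
    refine ne_top_of_le_ne_top ?_ h1
    exact ENNReal.mul_ne_top (ENNReal.inv_ne_top.2 hκ) (ENNReal.mul_ne_top (by norm_num) hm)
  · have hch : ∀ π : Strad L N i, ∃ t : Σ w : BrL L (2 ^ i), Σ β : Ir L,
        Fp L (N - L (dsp (w.1 ++ β.1))), (2 : ℝ) ^ i < L (dsp t.2.1.1) ∧
          π.1 = t.1.1 ++ (t.2.1.1 ++ t.2.2.1) := by
      intro π
      obtain ⟨w, hw, β, hβ, r, hr, h1, h2⟩ := strad_block π.2
      exact ⟨⟨⟨w, hw⟩, ⟨β, hβ⟩, ⟨r, hr⟩⟩, h1, h2⟩
    choose j hj1 hj2 using hch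
    have hinj : Function.Injective j := by
      intro π π' h
      apply Subtype.ext
      rw [hj2 π, hj2 π', h]
    let F : (Σ w : BrL L (2 ^ i), Σ β : Ir L, Fp L (N - L (dsp (w.1 ++ β.1)))) → ℝ≥0∞ :=
      fun t => wt μ t.1.1 * ((if (2 : ℝ) ^ i < L (dsp t.2.1.1) then wt μ t.2.1.1 else 0) *
        wt μ t.2.2.1)
    have hF : ∀ π : Strad L N i, wt μ π.1 = F (j π) := by
      intro π
      have h3 := (j π).1.2
      have h4 := (j π).2.1.2
      have h5 := (j π).2.2.2
      change wt μ π.1 = wt μ (j π).1.1 * ((if (2 : ℝ) ^ i < L (dsp (j π).2.1.1) then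
        wt μ (j π).2.1.1 else 0) * wt μ (j π).2.2.1)
      rw [hj2 π, if_pos (hj1 π), wt_append_Br μ h3.1
        (Br_up (Br_append h4.1 (Fp_subset_Br h5))), wt_append_Br μ h4.1 (Fp_up h5)]
    calc ∑' π : Strad L N i, wt μ π.1 = ∑' π : Strad L N i, F (j π) := tsum_congr hF
      _ ≤ ∑' t, F t := ENNReal.tsum_comp_le_tsum_of_injective hinj F
      _ = ∑' w : BrL L (2 ^ i), ∑' β : Ir L, ∑' r : Fp L (N - L (dsp (w.1 ++ β.1))),
          wt μ w.1 * ((if (2 : ℝ) ^ i < L (dsp β.1) then wt μ β.1 else 0) * wt μ r.1) := by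
          rw [ENNReal.tsum_sigma']
          refine tsum_congr fun w => ?_
          rw [ENNReal.tsum_sigma']
      _ ≤ ∑' w : BrL L (2 ^ i), ∑' β : Ir L,
          wt μ w.1 * ((if (2 : ℝ) ^ i < L (dsp β.1) then wt μ β.1 else 0) * 1) := by
          gcongr with w β
          rw [ENNReal.tsum_mul_left, ENNReal.tsum_mul_left]
          gcongr
          refine tsum_wt_le_one μ ?_
          intro a ha b hab
          by_contra hb
          have h3 := (hab.1 (dsp a) (dsp_mem_exits hb)).2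
          linarith [ha.2]
      _ = (∑' w : BrL L (2 ^ i), wt μ w.1) *
          ∑' β : Ir L, (if (2 : ℝ) ^ i < L (dsp β.1) then wt μ β.1 else 0) := by
          rw [← ENNReal.tsum_mul_right]
          refine tsum_congr fun w => ?_
          rw [← ENNReal.tsum_mul_left]
          refine tsum_congr fun β => ?_
          rw [mul_one]
      _ ≤ (2 ^ i * (wt μ [u])⁻¹) *
          ∑' β : Ir L, (if (2 : ℝ) ^ i < L (dsp β.1) then wt μ β.1 else 0) := by
          gcongr
          have := brL_le μ hu (2 ^ i)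
          push_cast at this
          exact this

end Vale.Agent.P147.Z
end

section

/-!
# Polynomial growth of the width: the recursion
-/

open MeasureTheory
open scoped ENNReal

namespace Vale.Agent.P147.Z.Gr

variable {d : ℕ} (μ : Measure (Row d)) [IsProbabilityMeasure μ]

/-- Sum over a prefix-free set, each of whose elements has a prefix in `T`. -/
lemma tsum_prefix_le {S T : Set (List (Dir d))} (hS : Free S)
    (h : ∀ l ∈ S, ∃ a b, l = a ++ b ∧ a ∈ T) : ∑' l : S, wt μ l.1 ≤ ∑' a : T, wt μ a.1 := by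
  classical
  calc ∑' l : S, wt μ l.1
      ≤ ∑' l : S, ∑' a : T, (if ∃ b, l.1 = a.1 ++ b then wt μ l.1 else 0) := by
        refine ENNReal.tsum_le_tsum fun l => ?_
        obtain ⟨a, b, hab, ha⟩ := h l.1 l.2
        refine le_trans ?_ (ENNReal.le_tsum (⟨a, ha⟩ : T))
        rw [if_pos ⟨b, hab⟩]
    _ = ∑' a : T, ∑' l : S, (if ∃ b, l.1 = a.1 ++ b then wt μ l.1 else 0) := ENNReal.tsum_comm
    _ ≤ ∑' a : T, wt μ a.1 := by
        refine ENNReal.tsum_le_tsum fun a => ?_
        refine le_trans ?_ (tsum_append_le μ hS a.1)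
        have h1 : ∑' l : S, (if ∃ b, l.1 = a.1 ++ b then wt μ l.1 else 0) =
            ∑' l : List (Dir d), (if l ∈ S ∧ ∃ b, l = a.1 ++ b then wt μ l else 0) := by
          rw [tsum_subtype S (fun l => if ∃ b, l = a.1 ++ b then wt μ l else 0)]
          refine tsum_congr fun l => ?_
          by_cases hl : l ∈ S
          · simp only [hl, Set.indicator_of_mem, true_and]
          · simp only [hl, not_false_eq_true, Set.indicator_of_notMem, false_and, ↓reduceIte]
        have h2 : ∑' c : {c : List (Dir d) | a.1 ++ c ∈ S}, wt μ (a.1 ++ c.1) =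
            ∑' c : List (Dir d), (if a.1 ++ c ∈ S then wt μ (a.1 ++ c) else 0) := by
          rw [tsum_subtype {c : List (Dir d) | a.1 ++ c ∈ S} (fun c => wt μ (a.1 ++ c))]
          refine tsum_congr fun c => ?_
          by_cases hl : a.1 ++ c ∈ S
          · simp [hl]
          · simp [hl]
        rw [h1, h2]
        have hinj : Function.Injective (fun c : List (Dir d) => a.1 ++ c) :=
          fun x y hxy => List.append_cancel_left hxy
        rw [← hinj.tsum_eq]
        · refine ENNReal.tsum_le_tsum fun c => ?_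
          by_cases hl : a.1 ++ c ∈ S
          · simp only [hl, List.append_cancel_left_eq, exists_eq', and_self, ↓reduceIte, Std.le_refl]
          · simp only [hl, List.append_cancel_left_eq, exists_eq', and_true, ↓reduceIte, Std.le_refl]
        · intro l hl
          rw [Function.mem_support] at hl
          have : l ∈ S ∧ ∃ b, l = a.1 ++ b := by
            by_contra hcon
            exact hl (if_neg hcon)
          obtain ⟨_, b, rfl⟩ := this
          exact ⟨b, rfl⟩

lemma abs_vec_le (u : Dir d) (k : Fin d) : |vec u k| ≤ 1 := by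
  obtain ⟨i, s⟩ := u
  rcases eq_or_ne k i with rfl | h
  · cases s <;> simp only [vec, Bool.false_eq_true, ↓reduceIte, Int.reduceNeg, Pi.single_eq_same, abs_neg, abs_one, Std.le_refl]
  · simp only [vec, Int.reduceNeg, Pi.single_eq_of_ne h, abs_zero, zero_le_one]

lemma abs_dsp_le (l : List (Dir d)) (k : Fin d) : |dsp l k| ≤ l.length := by
  induction l with
  | nil => simp only [dsp_nil, Pi.zero_apply, abs_zero, List.length_nil, CharP.cast_eq_zero, Std.le_refl]
  | cons u l ih =>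
    rw [dsp_cons, Pi.add_apply]
    have h1 := abs_add_le (vec u k) (dsp l k)
    have h2 := abs_vec_le u k
    simp only [List.length_cons, Nat.cast_add, Nat.cast_one]
    linarith only [ih, h1, h2]

lemma mem_exits_prefix {a b : List (Dir d)} (hb : b ≠ []) : dsp a ∈ exits 0 (a ++ b) :=
  mem_exits.2 ⟨a, b, rfl, hb, by simp⟩

lemma dep_site {L : Site d →+ ℝ} {N s : ℕ} (hN : 1 ≤ N) (hs : 1 ≤ s)
    {π : List (Dir d)} (hπ : π ∈ Fp L (N : ℝ)) (hT : π ∉ Tube L N s) :
    ∃ a b, π = a ++ b ∧ b ≠ [] ∧ ∃ k, ((s : ℝ) - 1) * (1 + L (dsp a)) < |((dsp a k : ℤ) : ℝ)| := by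
  have hN' : (1 : ℝ) ≤ N := by exact_mod_cast hN
  have hs' : (1 : ℝ) ≤ s := by exact_mod_cast hs
  have hex : ∃ a b, π = a ++ b ∧ ∃ k, (s : ℝ) * (1 + L (dsp a)) < |((dsp a k : ℤ) : ℝ)| := by
    by_contra hcon
    push Not at hcon
    exact hT ⟨hπ, fun a b hab i => hcon a b hab i⟩
  obtain ⟨a, b, hab, k, hk⟩ := hex
  rcases eq_or_ne b [] with rfl | hb
  · rw [List.append_nil] at hab
    subst hab
    rcases List.eq_nil_or_concat' π with h0 | ⟨a', u, h0⟩
    · exfalso
      have := hπ.2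
      rw [h0] at this
      simp only [dsp_nil, map_zero] at this
      linarith only [hN', this]
    · have h1 := hπ.1 (dsp a') (by rw [h0]; exact mem_exits_prefix (by simp))
      have h2 := hπ.2
      refine ⟨a', [u], h0, by simp, k, ?_⟩
      have h3 : |((dsp π k : ℤ) : ℝ)| ≤ |((dsp a' k : ℤ) : ℝ)| + 1 := by
        rw [h0, dsp_append, Pi.add_apply]
        have h4 := abs_add_le (dsp a' k) (dsp [u] k)
        have h5 := abs_dsp_le [u] k
        simp only [List.length_cons, List.length_nil, zero_add, Nat.cast_one] at h5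
        have h6 : |dsp a' k + dsp [u] k| ≤ |dsp a' k| + 1 := by linarith only [h4, h5]
        exact_mod_cast h6
      nlinarith only [hk, h1, h3, h2]
  · have h1 := hπ.1 (dsp a) (by rw [hab]; exact mem_exits_prefix hb)
    refine ⟨a, b, hab, hb, k, ?_⟩
    linarith only [hk, h1]

lemma decomp {L : Site d →+ ℝ} {i0 j σ : ℕ} (hσ : 1 ≤ σ) {π : List (Dir d)}
    (hπ : π ∈ Fp L ((2 ^ i0 * 2 ^ (j + 1) : ℕ) : ℝ))
    (hT : π ∉ Tube L (2 ^ i0 * 2 ^ (j + 1)) (4 * σ)) :
    ∃ i ≤ j + 1, (∃ a b, π = a ++ b ∧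
      a ∈ Rch L (min ((2 : ℝ) ^ i0 * 2 ^ (i + 1)) (2 ^ i0 * 2 ^ (j + 1))) (σ * 2 ^ i)) ∨
      (i ≤ j ∧ π ∈ Strad L ((2 ^ i0 * 2 ^ (j + 1) : ℕ) : ℝ) (i0 + i)) := by
  classical
  have hσ' : (1 : ℝ) ≤ σ := by exact_mod_cast hσ
  have hN1 : 1 ≤ 2 ^ i0 * 2 ^ (j + 1) := Nat.mul_pos (by positivity) (by positivity)
  obtain ⟨a, b, hab, hb, k, hk⟩ := dep_site hN1 (by omega) hπ hT
  have hcast : ((2 ^ i0 * 2 ^ (j + 1) : ℕ) : ℝ) = 2 ^ i0 * 2 ^ (j + 1) := by push_cast; ring
  -- all prefixes of `a` are departure sites of `π`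
  have hpre : ∀ a2 b2, a = a2 ++ b2 → 0 ≤ L (dsp a2) ∧ L (dsp a2) < 2 ^ i0 * 2 ^ (j + 1) := by
    intro a2 b2 h2
    have := hπ.1 (dsp a2) (by
      rw [hab, h2, List.append_assoc]; exact mem_exits_prefix (by simp [hb]))
    rw [hcast] at this
    exact this
  have hP : ∃ i, L (dsp a) < 2 ^ i0 * 2 ^ i := ⟨j + 1, (hpre a [] (by simp)).2⟩
  set i := Nat.find hP with hi
  have hi1 : L (dsp a) < 2 ^ i0 * 2 ^ i := Nat.find_spec hP
  have hij : i ≤ j + 1 := Nat.find_min' hP (hpre a [] (by simp)).2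
  have hi2 : (2 : ℝ) ^ i ≤ 2 * (1 + L (dsp a)) := by
    rcases Nat.eq_zero_or_pos i with h0 | h0
    · rw [h0, pow_zero]
      have := (hpre a [] (by simp)).1
      linarith only [this]
    · obtain ⟨i', hi'⟩ : ∃ i', i = i' + 1 := ⟨i - 1, by omega⟩
      have h3 : ¬ (L (dsp a) < 2 ^ i0 * 2 ^ i') := Nat.find_min hP (by omega)
      push Not at h3
      rw [hi', pow_succ]
      have h4 : (1 : ℝ) ≤ 2 ^ i0 := one_le_pow₀ (by norm_num)
      have h5 : (0 : ℝ) < 2 ^ i' := by positivity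
      linarith only [mul_nonneg (sub_nonneg.2 h4) (le_of_lt (sub_pos.2 h5)), h3]
  have hk2 : (σ : ℝ) * 2 ^ i < |((dsp a k : ℤ) : ℝ)| := by
    refine lt_of_le_of_lt ?_ hk
    push_cast
    have h5 : (0 : ℝ) < 2 ^ i := by positivity
    nlinarith only [hi2, h5, hσ']
  have hout : dsp a ∉ bx d (σ * 2 ^ i) := by
    intro hmem
    rw [bx, Fintype.mem_piFinset] at hmem
    have h6 := Finset.mem_Icc.1 (hmem k)
    have h7 : |dsp a k| ≤ ((σ * 2 ^ i : ℕ) : ℤ) := abs_le.2 ⟨h6.1, h6.2⟩
    have h8 : |((dsp a k : ℤ) : ℝ)| ≤ (σ : ℝ) * 2 ^ i := by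
      have : ((|dsp a k| : ℤ) : ℝ) ≤ (((σ * 2 ^ i : ℕ) : ℤ) : ℝ) := by exact_mod_cast h7
      push_cast at this
      exact this
    linarith only [hk2, h8]
  have hM : ∃ m, dsp (a.take m) ∉ bx d (σ * 2 ^ i) := ⟨a.length, by rw [List.take_length]; exact hout⟩
  set m := Nat.find hM with hm
  have hm1 : dsp (a.take m) ∉ bx d (σ * 2 ^ i) := Nat.find_spec hM
  have hm2 : m ≤ a.length := Nat.find_min' hM (by rw [List.take_length]; exact hout)
  have hsplit : a = a.take m ++ a.drop m := (List.take_append_drop m a).symm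
  by_cases hlev : ∀ a2 b2, a.take m = a2 ++ b2 → L (dsp a2) < 2 ^ i0 * 2 ^ (i + 1)
  · refine ⟨i, hij, Or.inl ⟨a.take m, a.drop m ++ b, by rw [← List.append_assoc, ← hsplit, hab],
      ?_, ?_, hm1⟩⟩
    · intro x hx
      obtain ⟨a2, b2, h2, hb2, rfl⟩ := mem_exits.1 hx
      rw [zero_add]
      have h3 := hpre a2 (b2 ++ a.drop m) (by rw [← List.append_assoc, ← h2, ← hsplit])
      refine ⟨⟨by linarith only [h3], lt_min (hlev a2 b2 h2) h3.2⟩, ?_⟩
      have h4 : a2.length < m := by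
        have := congrArg List.length h2
        rw [List.length_take, List.length_append] at this
        have h5 : 0 < b2.length := List.length_pos_iff.2 hb2
        (clear * - hP hM hm2 this h5; omega)
      have h6 : a.take a2.length = a2 := by
        conv_lhs => rw [hsplit, h2]
        simp
      by_contra hcon
      exact Nat.find_min hM h4 (by rw [h6]; exact hcon)
    · have h3 := hpre (a.take m) (a.drop m) hsplit
      exact ⟨by linarith only [h3], lt_min (hlev (a.take m) [] (by simp)) h3.2⟩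
  · push Not at hlev
    obtain ⟨a2, b2, h2, h3⟩ := hlev
    have h4 := hpre a2 (b2 ++ a.drop m) (by rw [← List.append_assoc, ← h2, ← hsplit])
    have h5 : i ≤ j := by
      by_contra hcon
      have h6 : i = j + 1 := by omega
      have h7 : (2 : ℝ) ^ i0 * 2 ^ (i + 1) < 2 ^ i0 * 2 ^ (j + 1) := lt_of_le_of_lt h3 h4.2
      rw [h6, pow_succ] at h7
      have h8 : (0 : ℝ) < 2 ^ i0 * 2 ^ (j + 1) := by positivity
      nlinarith only [h4, h7]
    have h6 : a = a2 ++ (b2 ++ a.drop m) := by rw [← List.append_assoc, ← h2, ← hsplit]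
    refine ⟨i, hij, Or.inr ⟨h5, hπ, a2, b2 ++ a.drop m, b, by rw [← h6, hab], ?_, ?_⟩⟩
    · rw [add_assoc, pow_add]; exact h3
    · rw [← h6, pow_add]; exact hi1

lemma tsum_cover {X : Type*} (f : X → ℝ≥0∞) {S T : Set X} (A : ℕ → Set X) (B : ℕ → Set X) (m n : ℕ)
    (h : ∀ x ∈ S, x ∈ T ∨ (∃ i < m, x ∈ A i) ∨ ∃ i < n, x ∈ B i) :
    ∑' x : S, f x ≤ ∑' x : T, f x + ∑ i ∈ Finset.range m, ∑' x : A i, f x +
      ∑ i ∈ Finset.range n, ∑' x : B i, f x := by
  have h1 : S ⊆ (T ∪ ⋃ i ∈ Finset.range m, A i) ∪ ⋃ i ∈ Finset.range n, B i := by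
    intro x hx
    rcases h x hx with h | ⟨i, hi, h⟩ | ⟨i, hi, h⟩
    · exact Or.inl (Or.inl h)
    · exact Or.inl (Or.inr (Set.mem_biUnion (Finset.mem_coe.2 (Finset.mem_range.2 hi)) h))
    · exact Or.inr (Set.mem_biUnion (Finset.mem_coe.2 (Finset.mem_range.2 hi)) h)
  refine (ENNReal.tsum_mono_subtype f h1).trans ?_
  refine (ENNReal.tsum_union_le f _ _).trans ?_
  gcongr
  · refine (ENNReal.tsum_union_le f _ _).trans ?_
    gcongr
    exact ENNReal.tsum_biUnion_le f _ _
  · exact ENNReal.tsum_biUnion_le f _ _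

lemma geom_le {y : ℝ≥0∞} (hy : y ≤ 1 / 2) (j : ℕ) :
    ∑ i ∈ Finset.range (j + 1), y ^ (j + 1 - i) ≤ 2 * y := by
  have h1 : ∑ i ∈ Finset.range (j + 1), y ^ (j + 1 - i) =
      ∑ i ∈ Finset.range (j + 1), y ^ (i + 1) := by
    rw [← Finset.sum_range_reflect]
    refine Finset.sum_congr rfl fun i hi => ?_
    have := Finset.mem_range.1 hi
    congr 1
    omega
  rw [h1]
  calc ∑ i ∈ Finset.range (j + 1), y ^ (i + 1) ≤ ∑' i : ℕ, y ^ (i + 1) :=
        ENNReal.sum_le_tsum _
    _ = (∑' i : ℕ, y ^ i) * y := by rw [← ENNReal.tsum_mul_right]; simp only [pow_succ]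
    _ = (1 - y)⁻¹ * y := by rw [ENNReal.tsum_geometric]
    _ ≤ 2 * y := by
        gcongr
        rw [ENNReal.inv_le_iff_inv_le]
        refine ENNReal.le_sub_of_add_le_left (ne_top_of_le_ne_top (by simp) hy) ?_
        calc y + 2⁻¹ ≤ 1 / 2 + 2⁻¹ := by gcongr
          _ = 1 := by rw [one_div, ENNReal.inv_two_add_inv_two]

lemma width_arith {σ0 B M K i j : ℕ} (hB : B = 96 * M * (K + 1)) (hM : 1 ≤ M) (hij : i ≤ j) :
    24 * (4 * (σ0 * B ^ i)) * (M * 2 ^ i) * ((j + 1 - i) * K + 1) ≤ σ0 * B ^ (j + 1) * 2 ^ i := by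
  obtain ⟨m, rfl⟩ : ∃ m, j = i + m := ⟨j - i, by omega⟩
  have h1 : i + m + 1 - i = m + 1 := by omega
  rw [h1]
  have hB2 : 2 ≤ B := by
    rw [hB]
    nlinarith only [hM]
  have h2 : m + 1 ≤ B ^ m := Nat.lt_pow_self (by omega)
  have h3 : 96 * M * ((m + 1) * K + 1) ≤ B ^ (m + 1) := by
    rw [pow_succ]
    calc 96 * M * ((m + 1) * K + 1) ≤ 96 * M * ((m + 1) * (K + 1)) := by
          gcongr; nlinarith only []
      _ = (m + 1) * B := by rw [hB]; ring
      _ ≤ B ^ m * B := by (clear * - h2; gcongr)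
  calc 24 * (4 * (σ0 * B ^ i)) * (M * 2 ^ i) * ((m + 1) * K + 1)
      = σ0 * B ^ i * 2 ^ i * (96 * M * ((m + 1) * K + 1)) := by ring
    _ ≤ σ0 * B ^ i * 2 ^ i * B ^ (m + 1) := by (clear * - h3; gcongr)
    _ = σ0 * B ^ (i + m + 1) * 2 ^ i := by rw [add_assoc, pow_add B i (m + 1)]; ring

open Classical in
theorem rec_step {L : Site d →+ ℝ} (hL : Lvl L) {u0 : Dir d} (hu0 : L (vec u0) = 1)
    {q y : ℝ≥0∞} (hq1 : q ≤ 1) (hq : ∀ a, q ≤ fu μ L a) {ε : ℕ → ℝ≥0∞}
    (hε : ∀ i (N : ℝ), ∑' π : Strad L N i, wt μ π.1 ≤ ε i) {i0 σ0 K B j : ℕ} (hσ0 : 1 ≤ σ0)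
    (hB : B = 96 * 2 ^ i0 * (K + 1)) (htail : ∑' i, ε (i0 + i) ≤ q / 4)
    (hy : y = (1 - (wt μ [u0] * (q / 2)) ^ 2) ^ K) (hy2 : y ≤ 1 / 2) (hyq : 6 * d * y ≤ q / 4)
    (ih : ∀ i ≤ j, q / 2 ≤ ∑' l : Tube L (2 ^ i0 * 2 ^ i) (4 * (σ0 * B ^ i)), wt μ l.1) :
    q / 2 ≤ ∑' l : Tube L (2 ^ i0 * 2 ^ (j + 1)) (4 * (σ0 * B ^ (j + 1))), wt μ l.1 := by
  have hB1 : 1 ≤ B := by
    rw [hB]
    exact Nat.mul_pos (Nat.mul_pos (by norm_num) (by positivity)) (by omega)
  set σ := σ0 * B ^ (j + 1) with hσdef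
  have hσ : 1 ≤ σ := Nat.mul_pos hσ0 (Nat.pow_pos hB1)
  set N : ℝ := ((2 ^ i0 * 2 ^ (j + 1) : ℕ) : ℝ) with hN
  have hNcast : N = 2 ^ i0 * 2 ^ (j + 1) := by rw [hN]; push_cast; ring
  set RR : ℕ → Set (List (Dir d)) := fun i =>
    Rch L (min ((2 : ℝ) ^ i0 * 2 ^ (i + 1)) (2 ^ i0 * 2 ^ (j + 1))) (σ * 2 ^ i) with hRR
  set A : ℕ → Set (List (Dir d)) := fun i =>
    {π | π ∈ Fp L N ∧ ∃ a b, π = a ++ b ∧ a ∈ RR i} with hA
  set St : ℕ → Set (List (Dir d)) := fun i => Strad L N (i0 + i) with hSt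
  have hcov := tsum_cover (fun l => wt μ l) (S := Fp L N) (T := Tube L (2 ^ i0 * 2 ^ (j + 1)) (4 * σ))
    A St (j + 2) (j + 1) (by
      intro π hπ
      by_cases hT : π ∈ Tube L (2 ^ i0 * 2 ^ (j + 1)) (4 * σ)
      · exact Or.inl hT
      · obtain ⟨i, hi, h | ⟨hi2, h⟩⟩ := decomp hσ hπ hT
        · exact Or.inr (Or.inl ⟨i, by omega, hπ, h⟩)
        · exact Or.inr (Or.inr ⟨i, by omega, h⟩))
  have hA1 : ∀ i, ∑' π : A i, wt μ π.1 ≤ ∑' π : RR i, wt μ π.1 := by
    intro i
    refine tsum_prefix_le μ (S := A i) (T := RR i) ?_ fun l hl => hl.2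
    intro a ha b hb
    exact Fp_free L N a ha.1 b hb.1
  -- lateral estimates
  have hlat : ∀ i ≤ j, ∑' π : RR i, wt μ π.1 ≤ 2 * d * y ^ (j + 1 - i) := by
    intro i hi
    have h1 := lateral μ hL hu0 (n := 2 ^ i0 * 2 ^ i) (s := 4 * (σ0 * B ^ i))
      (k := (j + 1 - i) * K) (R := σ * 2 ^ i) (g := q / 2)
      (t := min ((2 : ℝ) ^ i0 * 2 ^ (i + 1)) (2 ^ i0 * 2 ^ (j + 1)))
      (Nat.mul_pos (by positivity) (by positivity))
      (Nat.mul_pos (by norm_num) (Nat.mul_pos hσ0 (Nat.pow_pos hB1))) (ih i hi)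
      ((min_le_left _ _).trans (by push_cast; rw [pow_succ]; linarith only []))
      (width_arith hB Nat.one_le_two_pow hi)
    refine h1.trans (le_of_eq ?_)
    rw [hy, ← pow_mul, mul_comm K]
  have hlast : ∑' π : RR (j + 1), wt μ π.1 ≤ 2 * d * y := by
    have h1 := lateral μ hL hu0 (n := 2 ^ i0 * 2 ^ j) (s := 4 * (σ0 * B ^ j))
      (k := K) (R := σ * 2 ^ (j + 1)) (g := q / 2)
      (t := min ((2 : ℝ) ^ i0 * 2 ^ (j + 1 + 1)) (2 ^ i0 * 2 ^ (j + 1)))
      (Nat.mul_pos (by positivity) (by positivity))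
      (Nat.mul_pos (by norm_num) (Nat.mul_pos hσ0 (Nat.pow_pos hB1))) (ih j le_rfl)
      ((min_le_right _ _).trans (by push_cast; rw [pow_succ]; linarith only []))
      (by
        have := width_arith (σ0 := σ0) (i := j) (j := j) hB Nat.one_le_two_pow le_rfl
        rw [show j + 1 - j = 1 by (clear * -; omega), one_mul] at this
        refine this.trans ?_
        rw [hσdef]
        exact Nat.mul_le_mul_left _ (Nat.pow_le_pow_right (by norm_num) (by omega)))
    refine h1.trans (le_of_eq ?_)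
    rw [hy]
  have hsumA : ∑ i ∈ Finset.range (j + 2), ∑' x : A i, wt μ x ≤ q / 4 := by
    rw [Finset.sum_range_succ]
    calc _ ≤ ∑ i ∈ Finset.range (j + 1), 2 * d * y ^ (j + 1 - i) + 2 * d * y := by
          gcongr with i hi
          · exact (hA1 i).trans (hlat i (by have := Finset.mem_range.1 hi; omega))
          · exact (hA1 _).trans hlast
      _ = 2 * d * ∑ i ∈ Finset.range (j + 1), y ^ (j + 1 - i) + 2 * d * y := by
          rw [Finset.mul_sum]
      _ ≤ 2 * d * (2 * y) + 2 * d * y := by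
          gcongr
          exact geom_le hy2 j
      _ = 6 * d * y := by ring
      _ ≤ q / 4 := hyq
  have hsumS : ∑ i ∈ Finset.range (j + 1), ∑' x : St i, wt μ x ≤ q / 4 := by
    calc _ ≤ ∑ i ∈ Finset.range (j + 1), ε (i0 + i) := by
          gcongr with i hi
          exact hε _ _
      _ ≤ ∑' i, ε (i0 + i) := ENNReal.sum_le_tsum _
      _ ≤ q / 4 := htail
  have hfu : q ≤ ∑' x : Fp L N, wt μ x := hq N
  have h4 : q / 4 + q / 4 = q / 2 := by
    rw [show q / 4 + q / 4 = q * (4⁻¹ + 4⁻¹) by rw [mul_add]; simp only [ENNReal.div_eq_inv_mul, mul_comm]]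
    rw [show (4 : ℝ≥0∞)⁻¹ = 2⁻¹ * 2⁻¹ by
      rw [← ENNReal.mul_inv (by simp) (by simp)]; norm_num]
    rw [← mul_add, ENNReal.inv_two_add_inv_two, mul_one, ENNReal.div_eq_inv_mul, mul_comm]
  have hfin : q / 2 ≠ ⊤ := ne_top_of_le_ne_top ENNReal.one_ne_top
    ((ENNReal.div_le_of_le_mul (by
      calc q ≤ 1 := hq1
        _ ≤ 1 * 2 := by norm_num)))
  have hfinal : q / 2 + q / 2 ≤ ∑' l : Tube L (2 ^ i0 * 2 ^ (j + 1)) (4 * σ), wt μ l.1 + q / 2 := by
    rw [ENNReal.add_halves]
    calc q ≤ _ := hfu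
      _ ≤ _ := hcov
      _ ≤ ∑' l : Tube L (2 ^ i0 * 2 ^ (j + 1)) (4 * σ), wt μ l.1 + q / 4 + q / 4 := by (clear * - hsumA hsumS; (clear * - hsumA hsumS; gcongr))
      _ = _ := by rw [add_assoc, h4]
  exact (ENNReal.add_le_add_iff_right hfin).1 hfinal

lemma q_le_one {L : Site d →+ ℝ} {q : ℝ≥0∞} (hq : ∀ a, q ≤ fu μ L a) : q ≤ 1 :=
  (hq 0).trans (tsum_wt_le_one μ (Fp_free L 0))

omit [IsProbabilityMeasure μ] in
lemma tube_base {L : Site d →+ ℝ} {M : ℕ} {q : ℝ≥0∞} (hq0 : q ≠ 0) (hq1 : q ≤ 1)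
    (hq : q ≤ fu μ L M) :
    ∃ s : ℕ, 1 ≤ s ∧ q / 2 ≤ ∑' l : Tube L M (4 * s), wt μ l.1 := by
  classical
  have h1 : q / 2 < ∑' l : Fp L (M : ℝ), wt μ l.1 :=
    lt_of_lt_of_le (ENNReal.half_lt_self hq0 (ne_top_of_le_ne_top ENNReal.one_ne_top hq1)) hq
  rw [ENNReal.tsum_eq_iSup_sum, lt_iSup_iff] at h1
  obtain ⟨F, hF⟩ := h1
  refine ⟨1 + F.sup fun l => l.1.length, by omega, hF.le.trans ?_⟩
  have h2 : ∑ x ∈ F, wt μ x.1 =
      ∑' l : ((F.map (Function.Embedding.subtype _) : Finset (List (Dir d))) : Set (List (Dir d))),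
        wt μ l.1 := by
    rw [Finset.tsum_subtype' (F.map (Function.Embedding.subtype _)) (fun l => wt μ l),
      Finset.sum_map]
    rfl
  rw [h2]
  refine ENNReal.tsum_mono_subtype (fun l => wt μ l) ?_
  intro l hl
  rw [Finset.mem_coe, Finset.mem_map] at hl
  obtain ⟨⟨l, hlF⟩, hlm, rfl⟩ := hl
  refine ⟨hlF, fun a b hab k => ?_⟩
  change l = a ++ b at hab
  have h3 : 0 ≤ L (dsp a) := by
    rcases eq_or_ne b [] with rfl | hb
    · rw [List.append_nil] at hab
      rw [← hab]
      exact le_trans (Nat.cast_nonneg M) hlF.2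
    · exact (hlF.1 (dsp a) (by rw [hab]; exact mem_exits_prefix hb)).1
  have h4 := abs_dsp_le a k
  have h5 : a.length ≤ l.length := by rw [hab, List.length_append]; omega
  have h6 : l.length ≤ F.sup fun l => l.1.length :=
    Finset.le_sup (f := fun l : Fp L (M : ℝ) => l.1.length) hlm
  have h7 : |((dsp a k : ℤ) : ℝ)| ≤ (F.sup fun l => l.1.length : ℕ) := by
    have h8 : |dsp a k| ≤ ((F.sup fun l => l.1.length : ℕ) : ℤ) := by
      refine h4.trans ?_
      exact_mod_cast h5.trans h6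
    exact_mod_cast h8
  refine h7.trans ?_
  push_cast
  have h9 : (0 : ℝ) ≤ ((F.sup fun l => l.1.length : ℕ) : ℝ) := Nat.cast_nonneg _
  nlinarith only [h3]

theorem tube_growth {L : Site d →+ ℝ} (hL : Lvl L) (hμ : Elliptic μ) {q : ℝ≥0∞}
    (hq0 : q ≠ 0) (hq : ∀ a, q ≤ fu μ L a) :
    ∃ M s0 B : ℕ, 1 ≤ M ∧ 1 ≤ s0 ∧ 1 ≤ B ∧
      ∀ j, q / 2 ≤ ∑' l : Tube L (M * 2 ^ j) (s0 * B ^ j), wt μ l.1 := by
  have hq1 := q_le_one μ hq
  have hqt : q ≠ ⊤ := ne_top_of_le_ne_top ENNReal.one_ne_top hq1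
  obtain ⟨u0, hu0⟩ := hL.top
  obtain ⟨ε, hε1, hε⟩ := strad_sum_of μ hL hμ (mean_height μ hL hq0 hq)
  have hq4 : 0 < q / 4 := ENNReal.div_pos hq0 (by simp)
  obtain ⟨i0, hi0⟩ : ∃ i0, ∑' i, ε (i0 + i) ≤ q / 4 := by
    have h1 := ENNReal.tendsto_sum_nat_add ε hε1
    obtain ⟨i0, h2⟩ := (h1.eventually (ge_mem_nhds hq4)).exists
    exact ⟨i0, by simpa only [add_comm] using h2⟩
  set θ : ℝ≥0∞ := 1 - (wt μ [u0] * (q / 2)) ^ 2 with hθ
  have hθ1 : θ < 1 := by
    refine ENNReal.sub_lt_self ENNReal.one_ne_top one_ne_zero ?_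
    exact pow_ne_zero _ (mul_ne_zero (wt_ne_zero μ hμ _) (ENNReal.div_pos hq0 (by simp)).ne')
  obtain ⟨K, hK1, hK2⟩ : ∃ K : ℕ, θ ^ K ≤ 1 / 2 ∧ 6 * d * θ ^ K ≤ q / 4 := by
    have h1 := ENNReal.tendsto_pow_atTop_nhds_zero_of_lt_one hθ1
    have h2 : Filter.Tendsto (fun K : ℕ => 6 * (d : ℝ≥0∞) * θ ^ K) Filter.atTop (nhds 0) := by
      have := ENNReal.Tendsto.const_mul (a := 6 * (d : ℝ≥0∞)) h1
        (Or.inr (ENNReal.mul_ne_top (by simp) (ENNReal.natCast_ne_top d)))
      simpa only [mul_zero] using this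
    exact ((h1.eventually (ge_mem_nhds (by simp))).and
      (h2.eventually (ge_mem_nhds hq4))).exists
  obtain ⟨σ0, hσ0, hbase⟩ := tube_base μ (L := L) (M := 2 ^ i0) hq0 hq1 (hq _)
  set B := 96 * 2 ^ i0 * (K + 1) with hB
  have hall : ∀ j, ∀ i ≤ j, q / 2 ≤ ∑' l : Tube L (2 ^ i0 * 2 ^ i) (4 * (σ0 * B ^ i)),
      wt μ l.1 := by
    intro j
    induction j with
    | zero =>
      intro i hi
      obtain rfl : i = 0 := by omega
      have h3 : Tube L (2 ^ i0 * 2 ^ 0) (4 * (σ0 * B ^ 0)) = Tube L (2 ^ i0) (4 * σ0) := by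
        rw [pow_zero, pow_zero, mul_one, mul_one]
      rw [h3]
      exact hbase
    | succ j ih =>
      intro i hi
      rcases Nat.lt_or_ge i (j + 1) with h | h
      · exact ih i (by omega)
      · obtain rfl : i = j + 1 := by omega
        exact rec_step μ hL hu0 hq1 hq hε hσ0 hB hi0 rfl hK1 hK2 ih
  refine ⟨2 ^ i0, 4 * σ0, B, Nat.one_le_two_pow, by (clear * - hσ0; omega), ?_, fun j => ?_⟩
  · rw [hB]
    exact Nat.mul_pos (Nat.mul_pos (by norm_num) (by positivity)) (by omega)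
  · rw [mul_assoc]
    exact hall j j le_rfl

end Vale.Agent.P147.Z.Gr
end

section

/-! The conditional meeting estimate: a walk whose chance to leave `D` through `B` is small seldom
meets the paths, in an independent environment, that leave `D` through `B`. -/

open MeasureTheory Filter
open scoped ENNReal

namespace Vale.Agent.P147.Z

variable {d : ℕ}

lemma sum_qw_ext (ω : Env d) (x : Site d) (l : List (Dir d)) (k : ℕ) :
    ∑ g ∈ wds d k, qw ω x (l ++ g) = qw ω x l := by
  simp only [qw_append, ← Finset.mul_sum, sum_qwds, mul_one]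

lemma sum_wt_ext (μ : Measure (Row d)) (l : List (Dir d)) (k : ℕ) :
    ∑ g ∈ wds d k, wt μ (l ++ g) = wt μ l := by
  simp only [wt]
  rw [← lintegral_finsetSum _ (fun g _ => measurable_qw 0 (l ++ g))]
  simp only [sum_qw_ext]

lemma sum_wt_dir (μ : Measure (Row d)) (l : List (Dir d)) :
    ∑ u : Dir d, wt μ (l ++ [u]) = wt μ l := by
  have := sum_wt_ext μ l 1
  rw [sum_wds_succ] at this
  simpa only [sum_wds_zero] using this

lemma measurable_qw2 (x y : Site d) (a b : List (Dir d)) :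
    Measurable (fun ω : Env d => qw ω x a * qw ω y b) :=
  (measurable_qw x a).mul (measurable_qw y b)

variable (μ : Measure (Row d)) [IsProbabilityMeasure μ]

lemma sum_pair_ext (y : Site d) (ρ l : List (Dir d))
    (hl : Disjoint (exits y ρ) (exits 0 l)) (k : ℕ) :
    ∑ g ∈ wds d k, ∫⁻ ω, qw ω 0 (l ++ g) * qw ω y ρ ∂(envLaw μ) = wt μ l * wt μ ρ := by
  rw [← lintegral_finsetSum _ (fun g _ => measurable_qw2 0 y (l ++ g) ρ)]
  simp only [← Finset.sum_mul, sum_qw_ext]
  exact lintegral_mul_of_disjoint μ 0 y l ρ hl.symm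

open Classical in
/-- The masses of the continuations that avoid `ρ` agree, for a common environment and for
independent environments. -/
lemma avoid_eq {D : Set (Site d)} {y : Site d} {ρ : List (Dir d)}
    (k : ℕ) (l : List (Dir d)) (hl : Disjoint (exits y ρ) (exits 0 l)) :
    ∑ g ∈ wds d k, (∫⁻ ω, qw ω 0 (l ++ g) * qw ω y ρ ∂(envLaw μ)) *
        (if Disjoint (exits y ρ) (exD D (dsp l) g) then 1 else 0) =
      ∑ g ∈ wds d k, (wt μ (l ++ g) * wt μ ρ) *
        (if Disjoint (exits y ρ) (exD D (dsp l) g) then 1 else 0) := by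
  induction k generalizing l with
  | zero =>
    simp only [sum_wds_zero, List.append_nil, exD_nil, Finset.disjoint_empty_right, if_true, mul_one]
    exact lintegral_mul_of_disjoint μ 0 y l ρ hl.symm
  | succ k ih =>
    by_cases hD : dsp l ∈ D
    · by_cases hy : dsp l ∈ exits y ρ
      · have e : ∀ (u : Dir d) (g : List (Dir d)),
            ¬ Disjoint (exits y ρ) (exD D (dsp l) (u :: g)) := by
          intro u g h
          rw [exD_cons, if_pos hD] at h
          exact Finset.disjoint_left.1 h hy (Finset.mem_insert_self _ _)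
        rw [sum_wds_succ, sum_wds_succ]
        refine Finset.sum_congr rfl fun u _ => Finset.sum_congr rfl fun g _ => ?_
        rw [if_neg (e u g), mul_zero, mul_zero]
      · have e : ∀ (u : Dir d) (g : List (Dir d)),
            Disjoint (exits y ρ) (exD D (dsp l) (u :: g)) ↔
            Disjoint (exits y ρ) (exD D (dsp (l ++ [u])) g) := by
          intro u g
          rw [exD_cons, if_pos hD, Finset.disjoint_insert_right]
          simp [hy]
        have hd : ∀ u : Dir d, Disjoint (exits y ρ) (exits 0 (l ++ [u])) := by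
          intro u
          rw [exits_append, Finset.disjoint_union_right]
          refine ⟨hl, ?_⟩
          simp [hy]
        rw [sum_wds_succ, sum_wds_succ]
        refine Finset.sum_congr rfl fun u _ => ?_
        have := ih (l ++ [u]) (hd u)
        simp only [e]
        simpa only [dsp_append, dsp_cons, dsp_nil, add_zero, mul_ite, mul_one, mul_zero, List.append_assoc,     List.cons_append, List.nil_append] using this
    · have e : ∀ (u : Dir d) (g : List (Dir d)),
          Disjoint (exits y ρ) (exD D (dsp l) (u :: g)) := by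
        intro u g
        rw [exD_cons, if_neg hD]
        exact Finset.disjoint_empty_right _
      have h1 := sum_pair_ext μ y ρ l hl (k + 1)
      have h2 := sum_wt_ext μ l (k + 1)
      rw [sum_wds_succ] at h1 h2
      rw [sum_wds_succ, sum_wds_succ]
      simp only [e, if_true, mul_one]
      rw [h1]
      simp only [← Finset.sum_mul]
      rw [h2]

open Classical in
/-- The masses of the continuations that meet `ρ` agree. -/
lemma meet_eq {D : Set (Site d)} {y : Site d} {ρ : List (Dir d)}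
    (k : ℕ) (l : List (Dir d)) (hl : Disjoint (exits y ρ) (exits 0 l)) :
    ∑ g ∈ wds d k, (∫⁻ ω, qw ω 0 (l ++ g) * qw ω y ρ ∂(envLaw μ)) *
        (if ¬ Disjoint (exits y ρ) (exD D (dsp l) g) then 1 else 0) =
      ∑ g ∈ wds d k, (wt μ (l ++ g) * wt μ ρ) *
        (if ¬ Disjoint (exits y ρ) (exD D (dsp l) g) then 1 else 0) := by
  have h0 := avoid_eq (D := D) μ k l hl
  have hsplit : ∀ (F : List (Dir d) → ℝ≥0∞), ∑ g ∈ wds d k, F g *
        (if Disjoint (exits y ρ) (exD D (dsp l) g) then 1 else 0) +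
      ∑ g ∈ wds d k, F g *
        (if ¬ Disjoint (exits y ρ) (exD D (dsp l) g) then 1 else 0) = ∑ g ∈ wds d k, F g := by
    intro F
    rw [← Finset.sum_add_distrib]
    refine Finset.sum_congr rfl fun g _ => ?_
    by_cases h : Disjoint (exits y ρ) (exD D (dsp l) g) <;> simp [h]
  have h1 := hsplit (fun g => ∫⁻ ω, qw ω 0 (l ++ g) * qw ω y ρ ∂(envLaw μ))
  have h2 := hsplit (fun g => wt μ (l ++ g) * wt μ ρ)
  rw [sum_pair_ext μ y ρ l hl k] at h1
  rw [← Finset.sum_mul, sum_wt_ext] at h2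
  have hfin : ∑ g ∈ wds d k, (wt μ (l ++ g) * wt μ ρ) *
        (if Disjoint (exits y ρ) (exD D (dsp l) g) then 1 else 0) ≠ ⊤ := by
    refine ne_top_of_le_ne_top ?_ (le_self_add.trans h2.le)
    exact ENNReal.mul_ne_top ((wt_le_one μ l).trans_lt ENNReal.one_lt_top).ne
      ((wt_le_one μ ρ).trans_lt ENNReal.one_lt_top).ne
  rw [h0, ← h2] at h1
  exact (ENNReal.add_right_inj hfin).1 h1

open Classical in
/-- **Conditional meeting estimate** (Lemma A'). -/
theorem lemA {D B : Set (Site d)} (hDB : Disjoint D B) (y : Site d) {T : Set (List (Dir d))}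
    (hT : T ⊆ EB D B y) (l : List (Dir d)) (k : ℕ) {M : ℝ} (hM : 0 < M) (hM1 : M ≤ 1) :
    ∑ g ∈ wds d k, wt μ (l ++ g) * ∑' ρ : T, wt μ (ρ : List (Dir d)) *
        (if Disjoint (exits y (ρ : List (Dir d))) (exits 0 l) ∧
          ¬ Disjoint (exits y (ρ : List (Dir d))) (exD D (dsp l) g) then 1 else 0) ≤
      wt μ l * ENNReal.ofReal M +
        (∑' ρ : EB D B (dsp l), wt μ (l ++ (ρ : List (Dir d)))) *
          ENNReal.ofReal (Real.log (1 / M)) := by
  set P : List (Dir d) → List (Dir d) → Prop := fun g ρ =>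
    Disjoint (exits y ρ) (exits 0 l) ∧ ¬ Disjoint (exits y ρ) (exD D (dsp l) g) with hP
  have step1 : ∑ g ∈ wds d k, wt μ (l ++ g) * ∑' ρ : T, wt μ (ρ : List (Dir d)) *
        (if P g ρ then 1 else 0) =
      ∑' ρ : T, ∑ g ∈ wds d k, (wt μ (l ++ g) * wt μ (ρ : List (Dir d))) *
        (if P g ρ then 1 else 0) := by
    rw [Summable.tsum_finsetSum (fun _ _ => ENNReal.summable)]
    refine Finset.sum_congr rfl fun g _ => ?_
    rw [← ENNReal.tsum_mul_left]
    refine tsum_congr fun ρ => ?_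
    rw [mul_assoc]
  have step2 : ∀ ρ : T, ∑ g ∈ wds d k, (wt μ (l ++ g) * wt μ (ρ : List (Dir d))) *
        (if P g ρ then 1 else 0) =
      ∑ g ∈ wds d k, (∫⁻ ω, qw ω 0 (l ++ g) * qw ω y (ρ : List (Dir d)) ∂(envLaw μ)) *
        (if P g ρ then 1 else 0) := by
    intro ρ
    by_cases hd : Disjoint (exits y (ρ : List (Dir d))) (exits 0 l)
    · have := meet_eq (D := D) μ k l hd
      simp only [hP, hd, true_and]
      exact this.symm
    · simp only [hP, hd, false_and, ↓reduceIte, mul_zero, Finset.sum_const_zero]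
  have step3 : ∑' ρ : T, ∑ g ∈ wds d k, (∫⁻ ω, qw ω 0 (l ++ g) *
        qw ω y (ρ : List (Dir d)) ∂(envLaw μ)) * (if P g ρ then 1 else 0) =
      ∫⁻ ω, ∑ g ∈ wds d k, qw ω 0 (l ++ g) * ∑' ρ : T, qw ω y (ρ : List (Dir d)) *
        (if P g ρ then 1 else 0) ∂(envLaw μ) := by
    rw [lintegral_finsetSum]
    swap
    · intro g _
      exact (measurable_qw 0 (l ++ g)).mul (Measurable.tsum fun ρ =>
        (measurable_qw y (ρ : List (Dir d))).mul_const _)
    rw [Summable.tsum_finsetSum (fun _ _ => ENNReal.summable)]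
    refine Finset.sum_congr rfl fun g _ => ?_
    simp only [← ENNReal.tsum_mul_left]
    rw [lintegral_tsum]
    swap
    · intro ρ
      exact ((measurable_qw 0 (l ++ g)).mul
        ((measurable_qw y (ρ : List (Dir d))).mul_const _)).aemeasurable
    refine tsum_congr fun ρ => ?_
    simp only [← mul_assoc]
    rw [lintegral_mul_const]
    exact (measurable_qw 0 (l ++ g)).mul (measurable_qw y (ρ : List (Dir d)))
  have hmain : ∀ ω : Env d, ∑ g ∈ wds d k, qw ω 0 (l ++ g) *
        ∑' ρ : T, qw ω y (ρ : List (Dir d)) * (if P g ρ then 1 else 0) ≤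
      qw ω 0 l * (ENNReal.ofReal M + hB D B ω (dsp l) * ENNReal.ofReal (Real.log (1 / M))) := by
    intro ω
    calc _ ≤ ∑ g ∈ wds d k, qw ω 0 (l ++ g) *
          max (ENNReal.ofReal M) ((exD D (dsp l) g).sup (hB D B ω)) := by
          refine Finset.sum_le_sum fun g _ => ?_
          gcongr
          refine le_trans ?_ (le_max_right _ _)
          exact meet_le ω y (exD D (dsp l) g) hT (P g) (fun ρ _ h => h.2)
      _ = qw ω 0 l * ∑ g ∈ wds d k, qw ω (dsp l) g *
          max (ENNReal.ofReal M) ((exD D (dsp l) g).sup (hB D B ω)) := by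
          rw [Finset.mul_sum]
          refine Finset.sum_congr rfl fun g _ => ?_
          rw [qw_append, zero_add, mul_assoc]
      _ ≤ _ := by
          gcongr
          exact doob hDB ω k (dsp l) hM hM1
  have hint : ∫⁻ ω, qw ω 0 l * hB D B ω (dsp l) ∂(envLaw μ) =
      ∑' ρ : EB D B (dsp l), wt μ (l ++ (ρ : List (Dir d))) := by
    simp only [hB, ← ENNReal.tsum_mul_left]
    rw [lintegral_tsum]
    · refine tsum_congr fun ρ => ?_
      rw [wt]
      refine lintegral_congr fun ω => ?_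
      rw [qw_append, zero_add]
    · intro ρ
      exact ((measurable_qw 0 l).mul (measurable_qw (dsp l) (ρ : List (Dir d)))).aemeasurable
  calc _ = ∫⁻ ω, ∑ g ∈ wds d k, qw ω 0 (l ++ g) * ∑' ρ : T, qw ω y (ρ : List (Dir d)) *
        (if P g ρ then 1 else 0) ∂(envLaw μ) := by
        rw [← step3, ← tsum_congr step2, ← step1]
    _ ≤ ∫⁻ ω, qw ω 0 l * (ENNReal.ofReal M +
          hB D B ω (dsp l) * ENNReal.ofReal (Real.log (1 / M))) ∂(envLaw μ) :=
        lintegral_mono hmain
    _ = ∫⁻ ω, qw ω 0 l * ENNReal.ofReal M ∂(envLaw μ) +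
          ∫⁻ ω, qw ω 0 l * hB D B ω (dsp l) *
            ENNReal.ofReal (Real.log (1 / M)) ∂(envLaw μ) := by
        rw [← lintegral_add_left ((measurable_qw 0 l).mul_const _)]
        refine lintegral_congr fun ω => ?_
        ring
    _ = _ := by
        have hm : Measurable (fun ω : Env d => qw ω 0 l * hB D B ω (dsp l)) :=
          (measurable_qw 0 l).mul (measurable_hB D B (dsp l))
        rw [lintegral_mul_const _ (measurable_qw 0 l), lintegral_mul_const _ hm, hint, wt]

/-! The stopped tree. -/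

omit [IsProbabilityMeasure μ] in
open Classical in
/-- The expectation over the stopped tree, as a sum over lists of fixed length. -/
lemma Ex_eq (D : Set (Site d)) (K : Finset (Site d) → ℝ≥0∞) (n : ℕ) (l : List (Dir d)) :
    Ex (wt μ) D (fun l' => K (sit D l')) n l =
      ∑ g ∈ wds d (n + 1), wt μ (l ++ g) * K (exits 0 l ∪ exD D (dsp l) g) := by
  have hout : ∀ (n : ℕ) (l : List (Dir d)), dsp l ∉ D →
      ∑ g ∈ wds d (n + 1), wt μ (l ++ g) * K (exits 0 l ∪ exD D (dsp l) g) =
        wt μ l * K (sit D l) := by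
    intro n l hD
    rw [sum_wds_succ]
    simp only [exD_cons, if_neg hD, Finset.union_empty, sit]
    rw [← sum_wt_ext μ l (n + 1), sum_wds_succ, Finset.sum_mul]
    refine Finset.sum_congr rfl fun u _ => ?_
    rw [Finset.sum_mul]
  induction n generalizing l with
  | zero =>
    by_cases hD : dsp l ∈ D
    · rw [sum_wds_succ]
      simp only [Ex, sum_wds_zero, exD_cons, if_pos hD, exD_nil, sit]
      rw [← Finset.sum_mul, sum_wt_dir]
      congr 2
      ext x
      simp [or_comm]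
    · rw [hout 0 l hD]
      simp only [Ex]
  | succ n ih =>
    by_cases hD : dsp l ∈ D
    · rw [sum_wds_succ]
      simp only [Ex, if_pos hD]
      refine Finset.sum_congr rfl fun u _ => ?_
      rw [ih (l ++ [u])]
      refine Finset.sum_congr rfl fun g _ => ?_
      rw [exD_cons, if_pos hD, List.append_assoc]
      congr 2
      rw [exits_append]
      ext x
      simp [or_assoc]
    · rw [hout (n + 1) l hD]
      simp only [Ex, if_neg hD]

open Classical in
/-- **Lemma A'**: conditional meeting estimate. -/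
theorem aprime {L : Site d →+ ℝ} {t : ℝ} {l : List (Dir d)} (hl : dsp l ∈ Db L t) {z : Site d}
    {T : Set (List (Dir d))} (hT : T ⊆ Ds L t z) {m : ℝ} (hm : 0 < m) (hm1 : m ≤ 1) (n : ℕ) :
    Ex (wt μ) (Db L t) (fun l' => ∑' ρ : T, if Disjoint (exits z ρ.1) (exits 0 l) ∧
        ¬ Disjoint (exits z ρ.1) (sit (Db L t) l') then wt μ ρ.1 else 0) n l ≤
      ENNReal.ofReal m * wt μ l + ENNReal.ofReal (Real.log (1 / m)) * Eb μ L t l := by
  have hDB : Disjoint (Db L t) {x : Site d | L x ≤ -1} := by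
    rw [Set.disjoint_left]
    intro x hx hx'
    exact absurd hx.1 (not_lt.2 hx')
  have h1 := lemA μ hDB z (T := T) hT l (n + 1) hm hm1
  have h2 := Ex_eq μ (Db L t) (fun S => ∑' ρ : T, if Disjoint (exits z ρ.1) (exits 0 l) ∧
        ¬ Disjoint (exits z ρ.1) S then wt μ ρ.1 else 0) n l
  refine (h2.trans_le ?_).trans (h1.trans (le_of_eq ?_))
  · refine Finset.sum_le_sum fun g _ => ?_
    gcongr with ρ
    by_cases hd : Disjoint (exits z ρ.1) (exits 0 l)
    · by_cases hd' : Disjoint (exits z ρ.1) (exD (Db L t) (dsp l) g)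
      · simp only [hd, Finset.disjoint_union_right, hd', and_self, not_true_eq_false, and_false, ↓reduceIte, mul_zero, Std.le_refl]
      · simp [Finset.disjoint_union_right, hd, hd']
    · simp [hd]
  · rw [mul_comm (wt μ l), mul_comm (∑' ρ : EB (Db L t) {x : Site d | L x ≤ -1} (dsp l), _)]
    rfl

end Vale.Agent.P147.Z
end

section
attribute [-instance] ProperSMul.toContinuousSMul IsTopologicalTorsor.toContinuousSMul IdemSemiring.toCanonicallyOrderedAdd IdemSemiring.toMulLeftMono IdemSemiring.toMulRightMono AddQuantale.instAddLeftMono AddQuantale.instAddRightMono Quantale.instMulLeftMono Quantale.instMulRightMono FiniteDimensional.rclike_to_real IsScalarTower.complexToReal FiniteDimensional.complexToReal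

/-!
# Exponential moments of the killing process

`doob_e`: maximal inequality for the martingale of conditional backtrack probabilities.
`tail_kill`: exponential tail of the weight of a family of paths met by the walk.
-/

open MeasureTheory
open scoped ENNReal

namespace Vale.Agent.P147.Z

variable {d : ℕ}

namespace Expo

section Ex

variable {W : List (Dir d) → ℝ≥0∞} {D : Set (Site d)} {F G : List (Dir d) → ℝ≥0∞}

lemma Ex_zero (l : List (Dir d)) : Ex W D F 0 l = W l * F l := rfl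

lemma Ex_succ_mem {l : List (Dir d)} (h : dsp l ∈ D) (n : ℕ) :
    Ex W D F (n + 1) l = ∑ u : Dir d, Ex W D F n (l ++ [u]) := by
  rw [Ex, if_pos h]

lemma Ex_not_mem {l : List (Dir d)} (h : dsp l ∉ D) (n : ℕ) :
    Ex W D F n l = W l * F l := by
  cases n with
  | zero => rfl
  | succ n => rw [Ex, if_neg h]

lemma Ex_mono {l : List (Dir d)} (n : ℕ) (h : ∀ c, F (l ++ c) ≤ G (l ++ c)) :
    Ex W D F n l ≤ Ex W D G n l := by
  induction n generalizing l with
  | zero =>
    rw [Ex_zero, Ex_zero]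
    gcongr
    simpa only [List.append_nil] using h []
  | succ n ih =>
    by_cases hl : dsp l ∈ D
    · rw [Ex_succ_mem hl, Ex_succ_mem hl]
      refine Finset.sum_le_sum fun u _ => ih fun c => ?_
      simpa only [List.append_assoc, List.cons_append, List.nil_append] using h ([u] ++ c)
    · rw [Ex_not_mem hl, Ex_not_mem hl]
      gcongr
      simpa only [List.append_nil] using h []

lemma Ex_congr {l : List (Dir d)} (n : ℕ) (h : ∀ c, F (l ++ c) = G (l ++ c)) :
    Ex W D F n l = Ex W D G n l :=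
  le_antisymm (Ex_mono n fun c => (h c).le) (Ex_mono n fun c => (h c).ge)

lemma Ex_mul_left (a : ℝ≥0∞) (n : ℕ) (l : List (Dir d)) :
    Ex W D (fun l' => a * F l') n l = a * Ex W D F n l := by
  induction n generalizing l with
  | zero => rw [Ex_zero, Ex_zero]; ring
  | succ n ih =>
    by_cases hl : dsp l ∈ D
    · rw [Ex_succ_mem hl, Ex_succ_mem hl, Finset.mul_sum]
      exact Finset.sum_congr rfl fun u _ => ih _
    · rw [Ex_not_mem hl, Ex_not_mem hl]; ring

lemma Ex_add (n : ℕ) (l : List (Dir d)) :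
    Ex W D (fun l' => F l' + G l') n l = Ex W D F n l + Ex W D G n l := by
  induction n generalizing l with
  | zero => rw [Ex_zero, Ex_zero, Ex_zero]; ring
  | succ n ih =>
    by_cases hl : dsp l ∈ D
    · rw [Ex_succ_mem hl, Ex_succ_mem hl, Ex_succ_mem hl, ← Finset.sum_add_distrib]
      exact Finset.sum_congr rfl fun u _ => ih _
    · rw [Ex_not_mem hl, Ex_not_mem hl, Ex_not_mem hl]; ring

end Ex

variable (μ : Measure (Row d)) [IsProbabilityMeasure μ]

omit [IsProbabilityMeasure μ] in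
lemma sum_row (p : Row d) : ∑ u, ENNReal.ofReal (p.1 u) = 1 := by
  have h := p.2
  rw [← ENNReal.ofReal_sum_of_nonneg (fun u _ => h.1 u), h.2, ENNReal.ofReal_one]

omit [IsProbabilityMeasure μ] in
lemma sum_wt (l : List (Dir d)) : ∑ u : Dir d, wt μ (l ++ [u]) = wt μ l := by
  simp only [wt]
  rw [← lintegral_finsetSum _ fun u _ => measurable_qw 0 _]
  refine lintegral_congr fun ω => ?_
  simp only [qw_append, qw_cons, qw_nil, mul_one]
  rw [← Finset.mul_sum, sum_row, mul_one]

omit [IsProbabilityMeasure μ] in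
lemma Ex_one {D : Set (Site d)} (n : ℕ) (l : List (Dir d)) :
    Ex (wt μ) D (fun _ => 1) n l = wt μ l := by
  induction n generalizing l with
  | zero => rw [Ex_zero, mul_one]
  | succ n ih =>
    by_cases hl : dsp l ∈ D
    · rw [Ex_succ_mem hl, Finset.sum_congr rfl fun u _ => ih _, sum_wt]
    · rw [Ex_not_mem hl, mul_one]

omit [IsProbabilityMeasure μ] in
lemma Ex_const {D : Set (Site d)} (a : ℝ≥0∞) (n : ℕ) (l : List (Dir d)) :
    Ex (wt μ) D (fun _ => a) n l = a * wt μ l := by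
  have := Ex_mul_left (W := wt μ) (D := D) (F := fun _ => 1) a n l
  rw [Ex_one] at this
  simpa using this

omit [IsProbabilityMeasure μ] in
/-- The bottom exit weight is a martingale. -/
lemma sum_Eb {L : Site d →+ ℝ} {t : ℝ} {l : List (Dir d)} (hl : dsp l ∈ Db L t) :
    ∑ u : Dir d, Eb μ L t (l ++ [u]) = Eb μ L t l := by
  simp only [Eb]
  rw [← tsum_fintype (L := SummationFilter.unconditional _)]
  rw [← ENNReal.tsum_sigma' (fun p : (Σ u : Dir d, Ds L t (dsp (l ++ [u]))) =>
    wt μ (l ++ [p.1] ++ p.2.1))]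
  let f : (Σ u : Dir d, Ds L t (dsp (l ++ [u]))) → Ds L t (dsp l) := fun p =>
    ⟨p.1 :: p.2.1, by
      obtain ⟨u, ρ, h1, h2⟩ := p
      refine ⟨fun x hx => ?_, ?_⟩
      · rw [exits_cons, Finset.mem_insert] at hx
        rcases hx with rfl | hx
        · exact hl
        · exact h1 x (by simpa using hx)
      · simpa only [dsp_cons, map_add, dsp_append, dsp_nil, add_zero, add_assoc] using h2⟩
  have hf : Function.Bijective f := by
    constructor
    · rintro ⟨u, ρ, h1⟩ ⟨u', ρ', h1'⟩ h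
      simp only [f, Subtype.mk.injEq, List.cons.injEq] at h
      obtain ⟨rfl, rfl⟩ := h
      rfl
    · rintro ⟨ρ, h1, h2⟩
      cases ρ with
      | nil =>
        exfalso
        simp only [dsp_nil, add_zero] at h2
        exact absurd hl.1 (not_lt.2 h2)
      | cons u ρ =>
        refine ⟨⟨u, ρ, fun x hx => h1 x ?_, ?_⟩, rfl⟩
        · rw [exits_cons, Finset.mem_insert]
          right
          simpa using hx
        · simpa only [dsp_append, dsp_cons, dsp_nil, add_zero, add_assoc, map_add] using h2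
  rw [← (Equiv.ofBijective f hf).tsum_eq]
  refine tsum_congr fun p => ?_
  simp only [List.append_assoc, List.cons_append, List.nil_append, Equiv.ofBijective_apply, f]

end Expo

open Expo

variable (μ : Measure (Row d)) [IsProbabilityMeasure μ]

open Classical in
theorem doob_e {L : Site d →+ ℝ} {t : ℝ} (l0 : List (Dir d)) (lam : ℝ≥0∞) (n : ℕ) :
    lam * Ex (wt μ) (Db L t) (fun l' => if ∃ i, l0.length ≤ i ∧ i ≤ l'.length ∧
        dsp (l'.take i) ∈ Db L t ∧ lam * wt μ (l'.take i) < Eb μ L t (l'.take i)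
        then 1 else 0) n l0 ≤ Eb μ L t l0 := by
  induction n generalizing l0 with
  | zero =>
    rw [Ex_zero]
    split_ifs with h
    · obtain ⟨i, h1, h2, -, h4⟩ := h
      obtain rfl : i = l0.length := le_antisymm h2 h1
      rw [List.take_length] at h4
      rw [mul_one]
      exact h4.le
    · simp only [mul_zero, zero_le]
  | succ n ih =>
    by_cases hD : dsp l0 ∈ Db L t
    · by_cases hlt : lam * wt μ l0 < Eb μ L t l0
      · refine le_trans ?_ hlt.le
        gcongr
        rw [← Ex_one μ (D := Db L t) (n + 1) l0]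
        refine Ex_mono _ fun c => ?_
        split_ifs <;> simp
      · rw [Ex_succ_mem hD, ← sum_Eb μ hD, Finset.mul_sum]
        refine Finset.sum_le_sum fun u _ => ?_
        refine le_trans ?_ (ih (l0 ++ [u]))
        gcongr
        refine Ex_mono _ fun c => ?_
        split_ifs with h1 h2
        · exact le_rfl
        · exfalso
          apply h2
          obtain ⟨i, h3, h4, h5, h6⟩ := h1
          rcases h3.eq_or_lt with rfl | h3
          · exfalso
            apply hlt
            simpa using h6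
          · exact ⟨i, by simpa only [List.length_append, List.length_cons, List.length_nil, zero_add, Order.add_one_le_iff] using h3, h4, h5, h6⟩
        · simp only [zero_le]
        · exact le_rfl
    · rw [Ex_not_mem hD, if_neg]
      · simp
      · rintro ⟨i, h1, h2, h3, -⟩
        obtain rfl : i = l0.length := le_antisymm h2 h1
        rw [List.take_length] at h3
        exact hD h3

namespace Expo

section kill

variable {μ} {T : Set (List (Dir d))} {z : Site d}

omit [IsProbabilityMeasure μ] in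
lemma kill_mono {S S' : Finset (Site d)} (h : S ⊆ S') : kill μ T z S ≤ kill μ T z S' := by
  unfold kill
  refine ENNReal.tsum_le_tsum fun ρ => ?_
  by_cases h1 : Disjoint (exits z ρ.1) S'
  · rw [if_pos h1, if_pos (h1.mono_right h)]
  · rw [if_neg h1]
    split_ifs
    · exact zero_le
    · exact le_rfl

omit [IsProbabilityMeasure μ] in
lemma kill_le (S : Finset (Site d)) : kill μ T z S ≤ ∑' ρ : T, wt μ ρ.1 := by
  unfold kill
  refine ENNReal.tsum_le_tsum fun ρ => ?_
  split_ifs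
  · exact zero_le
  · exact le_rfl

variable (μ T z) in
/-- The real version of `kill`. -/
noncomputable def kr (S : Finset (Site d)) : ℝ := (kill μ T z S).toReal

omit [IsProbabilityMeasure μ] in
lemma kr_nonneg (S : Finset (Site d)) : 0 ≤ kr μ T z S := ENNReal.toReal_nonneg

variable (hTF : ∑' ρ : T, wt μ ρ.1 ≤ 1)
include hTF

omit [IsProbabilityMeasure μ] in
lemma kill_ne_top (S : Finset (Site d)) : kill μ T z S ≠ ⊤ :=
  ne_top_of_le_ne_top ENNReal.one_ne_top ((kill_le S).trans hTF)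

omit [IsProbabilityMeasure μ] in
lemma kr_le_one (S : Finset (Site d)) : kr μ T z S ≤ 1 := by
  have := ENNReal.toReal_mono ENNReal.one_ne_top ((kill_le (μ := μ) (T := T) (z := z) S).trans hTF)
  rwa [ENNReal.toReal_one] at this

omit [IsProbabilityMeasure μ] in
lemma kr_mono {S S' : Finset (Site d)} (h : S ⊆ S') : kr μ T z S ≤ kr μ T z S' :=
  ENNReal.toReal_mono (kill_ne_top hTF _) (kill_mono h)

omit [IsProbabilityMeasure μ] in
lemma ofReal_kr_sub (S S' : Finset (Site d)) :
    ENNReal.ofReal (kr μ T z S' - kr μ T z S) = kill μ T z S' - kill μ T z S := by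
  rw [kr, kr, ENNReal.ofReal_sub _ ENNReal.toReal_nonneg, ENNReal.ofReal_toReal (kill_ne_top hTF _),
    ENNReal.ofReal_toReal (kill_ne_top hTF _)]

end kill

lemma sit_mem {D : Set (Site d)} {l : List (Dir d)} (h : dsp l ∈ D) (u : Dir d) :
    sit D l = exits 0 (l ++ [u]) := by
  classical
  rw [sit, if_pos h, exits_append]
  ext x
  simp

lemma sit_not_mem {D : Set (Site d)} {l : List (Dir d)} (h : dsp l ∉ D) :
    sit D l = exits 0 l := by
  classical
  rw [sit, if_neg h]

lemma exits_sub_sit (D : Set (Site d)) (l c : List (Dir d)) : exits 0 l ⊆ sit D (l ++ c) := by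
  classical
  have h : exits 0 l ⊆ exits 0 (l ++ c) := by
    rw [exits_append]; exact Finset.subset_union_left
  refine h.trans ?_
  rw [sit]
  split_ifs
  · exact Finset.subset_insert _ _
  · exact subset_rfl

section main

variable (L : Site d →+ ℝ) (t : ℝ) (T : Set (List (Dir d))) (z : Site d) (lam : ℝ)

/-- The backtrack probabilities stay small between times `k` and the end of `l'`. -/
def Gd (k : ℕ) (l' : List (Dir d)) : Prop :=
  ∀ i, k ≤ i → i ≤ l'.length → dsp (l'.take i) ∈ Db L t →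
    Eb μ L t (l'.take i) ≤ ENNReal.ofReal lam * wt μ (l'.take i)

open Classical in
/-- Exponential moment of the increments of the killing process. -/
noncomputable def Ph (θ : ℝ) (n : ℕ) (l : List (Dir d)) : ℝ≥0∞ :=
  Ex (wt μ) (Db L t) (fun l' => if Gd μ L t lam l.length l' then
    ENNReal.ofReal (Real.exp (θ * (kr μ T z (sit (Db L t) l') - kr μ T z (exits 0 l)))) else 0) n l

/-- First moment of the increments of the killing process. -/
noncomputable def In (n : ℕ) (l : List (Dir d)) : ℝ≥0∞ :=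
  Ex (wt μ) (Db L t) (fun l' =>
    ENNReal.ofReal (kr μ T z (sit (Db L t) l') - kr μ T z (exits 0 l))) n l

variable {L t T z lam}

omit [IsProbabilityMeasure μ] in
lemma Gd_of_bad {l c : List (Dir d)} (hD : dsp l ∈ Db L t)
    (hb : ¬ Eb μ L t l ≤ ENNReal.ofReal lam * wt μ l) : ¬ Gd μ L t lam l.length (l ++ c) := by
  intro h
  apply hb
  have := h l.length le_rfl (by simp only [List.length_append, le_add_iff_nonneg_right, zero_le])
  simpa only [ge_iff_le, List.take_left', hD, forall_const] using this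

omit [IsProbabilityMeasure μ] in
lemma Gd_succ {l c : List (Dir d)} (u : Dir d)
    (hb : Eb μ L t l ≤ ENNReal.ofReal lam * wt μ l) :
    Gd μ L t lam l.length (l ++ [u] ++ c) ↔ Gd μ L t lam (l ++ [u]).length (l ++ [u] ++ c) := by
  constructor
  · intro h i h1 h2 h3
    exact h i (by simp only [List.length_append, List.length_cons, List.length_nil, zero_add, Order.add_one_le_iff] at h1; omega) h2 h3
  · intro h i h1 h2 h3
    rcases h1.eq_or_lt with rfl | h1
    · simpa only [List.append_assoc, List.cons_append, List.nil_append, List.take_left'] using hb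
    · exact h i (by simpa only [List.length_append, List.length_cons, List.length_nil, zero_add, Order.add_one_le_iff] using h1) h2 h3

lemma exp_le {y : ℝ} (_hy : 0 ≤ y) : Real.exp y ≤ 1 + y * Real.exp y := by
  have h := Real.add_one_le_exp (-y)
  have h2 : Real.exp y * Real.exp (-y) = 1 := by rw [← Real.exp_add]; simp
  linarith only [mul_nonneg (sub_nonneg.2 h) (le_of_lt (sub_pos.2 (Real.exp_pos y))), h2]

variable (hTF : ∑' ρ : T, wt μ ρ.1 ≤ 1)
include hTF

omit [IsProbabilityMeasure μ] in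
/-- One step of the self-bounding inequality. -/
lemma Ph_le_aux {θ : ℝ} (hθ : 0 ≤ θ) {Kc : ℝ≥0∞}
    (hK : ∀ n l, Ph μ L t T z lam θ n l ≤ Kc * wt μ l) (n : ℕ) :
    ∀ l, Ph μ L t T z lam θ n l ≤ wt μ l + ENNReal.ofReal θ * Kc * In μ L t T z n l := by
  classical
  have base : ∀ l, wt μ l * (if Gd μ L t lam l.length l then
      ENNReal.ofReal (Real.exp (θ * (kr μ T z (sit (Db L t) l) - kr μ T z (exits 0 l)))) else 0) ≤
      wt μ l + ENNReal.ofReal θ * Kc * (wt μ l * 
        ENNReal.ofReal (kr μ T z (sit (Db L t) l) - kr μ T z (exits 0 l))) := by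
    intro l
    have h0 := hK 0 l
    rw [Ph, Ex_zero] at h0
    split_ifs at h0 ⊢ with hg
    · set δ := kr μ T z (sit (Db L t) l) - kr μ T z (exits 0 l) with hδ
      have hδ0 : 0 ≤ δ := by
        have := kr_mono (z := z) hTF (exits_sub_sit (Db L t) l [])
        rw [List.append_nil] at this
        linarith only [this]
      calc wt μ l * ENNReal.ofReal (Real.exp (θ * δ))
          ≤ wt μ l * (1 + ENNReal.ofReal θ * ENNReal.ofReal δ *
              ENNReal.ofReal (Real.exp (θ * δ))) := by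
            gcongr
            rw [← ENNReal.ofReal_mul hθ, ← ENNReal.ofReal_mul (by (clear * - hθ hδ0; positivity)),
              ← ENNReal.ofReal_one, ← ENNReal.ofReal_add (by norm_num) (by (clear * - hθ hδ0; positivity))]
            exact ENNReal.ofReal_le_ofReal (exp_le (by (clear * - hθ hδ0; positivity)))
        _ = wt μ l + ENNReal.ofReal θ * ENNReal.ofReal δ *
              (wt μ l * ENNReal.ofReal (Real.exp (θ * δ))) := by ring
        _ ≤ wt μ l + ENNReal.ofReal θ * ENNReal.ofReal δ * (Kc * wt μ l) := by (clear * - h0; gcongr)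
        _ = _ := by ring
    · simp only [mul_zero, zero_le]
  induction n with
  | zero =>
    intro l
    rw [Ph, In, Ex_zero, Ex_zero]
    exact base l
  | succ n ih =>
    intro l
    by_cases hD : dsp l ∈ Db L t
    · by_cases hb : Eb μ L t l ≤ ENNReal.ofReal lam * wt μ l
      · -- good present
        have hδ : ∀ u u' : Dir d, kr μ T z (exits 0 (l ++ [u])) = kr μ T z (exits 0 (l ++ [u'])) := by
          intro u u'
          rw [← sit_mem hD u, ← sit_mem hD u']
        set δ := kr μ T z (sit (Db L t) l) - kr μ T z (exits 0 l) with hδdef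
        have hδ0 : 0 ≤ δ := by
          have := kr_mono (z := z) hTF (exits_sub_sit (Db L t) l [])
          rw [List.append_nil] at this
          linarith
        have e1 : Ph μ L t T z lam θ (n + 1) l =
            ENNReal.ofReal (Real.exp (θ * δ)) * ∑ u : Dir d, Ph μ L t T z lam θ n (l ++ [u]) := by
          rw [Ph, Ex_succ_mem hD, Finset.mul_sum]
          refine Finset.sum_congr rfl fun u _ => ?_
          rw [Ph, ← Ex_mul_left]
          refine Ex_congr _ fun c => ?_
          rw [mul_ite, mul_zero]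
          have := Gd_succ (c := c) μ u hb
          simp only [this]
          refine if_congr Iff.rfl ?_ rfl
          rw [← ENNReal.ofReal_mul (Real.exp_pos _).le, ← Real.exp_add, hδdef, sit_mem hD u]
          congr 2
          ring
        have e2 : In μ L t T z (n + 1) l =
            ENNReal.ofReal δ * wt μ l + ∑ u : Dir d, In μ L t T z n (l ++ [u]) := by
          rw [In, Ex_succ_mem hD, ← sum_wt, Finset.mul_sum, ← Finset.sum_add_distrib]
          refine Finset.sum_congr rfl fun u _ => ?_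
          rw [In, ← Ex_const (D := Db L t) μ _ n, ← Ex_add]
          refine Ex_congr _ fun c => ?_
          rw [hδdef, sit_mem hD u, ← ENNReal.ofReal_add]
          · congr 1
            ring
          · rw [← sit_mem hD u]; exact hδ0
          · have := kr_mono (z := z) hTF (exits_sub_sit (Db L t) (l ++ [u]) c)
            linarith only [this]
        have h1 := hK (n + 1) l
        calc Ph μ L t T z lam θ (n + 1) l
            = ENNReal.ofReal (Real.exp (θ * δ)) * ∑ u : Dir d, Ph μ L t T z lam θ n (l ++ [u]) := e1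
          _ ≤ (1 + ENNReal.ofReal θ * ENNReal.ofReal δ * ENNReal.ofReal (Real.exp (θ * δ))) *
              ∑ u : Dir d, Ph μ L t T z lam θ n (l ++ [u]) := by
              gcongr
              rw [← ENNReal.ofReal_mul hθ, ← ENNReal.ofReal_mul (by (clear * - hθ hδ0; positivity)),
                ← ENNReal.ofReal_one, ← ENNReal.ofReal_add (by norm_num) (by (clear * - hθ hδ0; positivity))]
              exact ENNReal.ofReal_le_ofReal (exp_le (by (clear * - hθ hδ0; positivity)))
          _ = (∑ u : Dir d, Ph μ L t T z lam θ n (l ++ [u])) +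
              ENNReal.ofReal θ * ENNReal.ofReal δ * (ENNReal.ofReal (Real.exp (θ * δ)) *
              ∑ u : Dir d, Ph μ L t T z lam θ n (l ++ [u])) := by ring
          _ = (∑ u : Dir d, Ph μ L t T z lam θ n (l ++ [u])) +
              ENNReal.ofReal θ * ENNReal.ofReal δ * Ph μ L t T z lam θ (n + 1) l := by rw [← e1]
          _ ≤ (∑ u : Dir d, (wt μ (l ++ [u]) +
                ENNReal.ofReal θ * Kc * In μ L t T z n (l ++ [u]))) +
              ENNReal.ofReal θ * ENNReal.ofReal δ * (Kc * wt μ l) := by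
              gcongr with u _
              exact ih _
          _ = wt μ l + ENNReal.ofReal θ * Kc * In μ L t T z (n + 1) l := by
              rw [Finset.sum_add_distrib, sum_wt, ← Finset.mul_sum, e2]
              ring
      · have : Ph μ L t T z lam θ (n + 1) l ≤ 0 * wt μ l := by
          rw [Ph, ← Ex_const (D := Db L t) μ 0 (n + 1) l]
          refine Ex_mono _ fun c => ?_
          rw [if_neg (Gd_of_bad μ hD hb)]
        rw [zero_mul] at this
        exact this.trans zero_le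
    · rw [Ph, In, Ex_not_mem hD, Ex_not_mem hD]
      exact base l

lemma In_le (hT : T ⊆ Ds L t z) (hlam : 0 < lam) (hlam1 : lam ≤ 1) {l : List (Dir d)}
    (hD : dsp l ∈ Db L t) (hb : Eb μ L t l ≤ ENNReal.ofReal lam * wt μ l) (n : ℕ) :
    In μ L t T z n l ≤ ENNReal.ofReal (lam * (1 + Real.log (1 / lam))) * wt μ l := by
  classical
  have hlog : 0 ≤ Real.log (1 / lam) := by
    apply Real.log_nonneg
    rw [le_div_iff₀ hlam]
    linarith only [hlam1]
  calc In μ L t T z n l
      ≤ Ex (wt μ) (Db L t) (fun l' => ∑' ρ : T, if Disjoint (exits z ρ.1) (exits 0 l) ∧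
          ¬ Disjoint (exits z ρ.1) (sit (Db L t) l') then wt μ ρ.1 else 0) n l := by
        rw [In]
        refine Ex_mono _ fun c => ?_
        rw [ofReal_kr_sub hTF, tsub_le_iff_right]
        unfold kill
        rw [← ENNReal.tsum_add]
        refine ENNReal.tsum_le_tsum fun ρ => ?_
        by_cases h1 : Disjoint (exits z ρ.1) (exits 0 l) <;>
          by_cases h2 : Disjoint (exits z ρ.1) (sit (Db L t) (l ++ c)) <;> simp [h1, h2]
    _ ≤ ENNReal.ofReal lam * wt μ l + ENNReal.ofReal (Real.log (1 / lam)) * Eb μ L t l :=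
        aprime μ hD hT hlam hlam1 n
    _ ≤ ENNReal.ofReal lam * wt μ l +
        ENNReal.ofReal (Real.log (1 / lam)) * (ENNReal.ofReal lam * wt μ l) := by gcongr
    _ = _ := by
        rw [mul_add, mul_one, ENNReal.ofReal_add hlam.le (by positivity), ENNReal.ofReal_mul hlam.le]
        ring

lemma Ph_step (hT : T ⊆ Ds L t z) (hlam : 0 < lam) (hlam1 : lam ≤ 1) {Kc : ℝ≥0∞}
    (hK : ∀ n l, Ph μ L t T z lam (1 / (2 * (lam * (1 + Real.log (1 / lam))))) n l ≤
      Kc * wt μ l) (n : ℕ) (l : List (Dir d)) :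
    Ph μ L t T z lam (1 / (2 * (lam * (1 + Real.log (1 / lam))))) n l ≤
      (1 + Kc / 2) * wt μ l := by
  classical
  have hlog : 0 ≤ Real.log (1 / lam) := by
    apply Real.log_nonneg
    rw [le_div_iff₀ hlam]
    linarith only [hlam1]
  set G := lam * (1 + Real.log (1 / lam)) with hG
  have hG0 : 0 < G := by positivity
  by_cases hD : dsp l ∈ Db L t
  · by_cases hb : Eb μ L t l ≤ ENNReal.ofReal lam * wt μ l
    · calc Ph μ L t T z lam (1 / (2 * G)) n l
          ≤ wt μ l + ENNReal.ofReal (1 / (2 * G)) * Kc * In μ L t T z n l :=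
            Ph_le_aux μ hTF (by positivity) hK n l
        _ ≤ wt μ l + ENNReal.ofReal (1 / (2 * G)) * Kc * (ENNReal.ofReal G * wt μ l) := by
            gcongr
            exact In_le μ hTF hT hlam hlam1 hD hb n
        _ = wt μ l + (ENNReal.ofReal (1 / (2 * G)) * ENNReal.ofReal G) * Kc * wt μ l := by ring
        _ = wt μ l + 2⁻¹ * Kc * wt μ l := by
            rw [← ENNReal.ofReal_mul (by positivity)]
            have : 1 / (2 * G) * G = (2 : ℝ)⁻¹ := by field_simp
            rw [this, ENNReal.ofReal_inv_of_pos (by norm_num)]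
            (clear * -; norm_num)
        _ = (1 + Kc / 2) * wt μ l := by
            rw [div_eq_mul_inv]; ring
    · have : Ph μ L t T z lam (1 / (2 * G)) n l ≤ 0 * wt μ l := by
        rw [Ph, ← Ex_const (D := Db L t) μ 0 n l]
        refine Ex_mono _ fun c => ?_
        rw [if_neg (Gd_of_bad μ hD hb)]
      rw [zero_mul] at this
      exact this.trans zero_le
  · rw [Ph, Ex_not_mem hD, sit_not_mem hD, sub_self, mul_zero, Real.exp_zero, ENNReal.ofReal_one,
      mul_comm]
    gcongr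
    refine le_trans ?_ le_self_add
    split_ifs <;> simp

lemma Ph_le_two (hT : T ⊆ Ds L t z) (hlam : 0 < lam) (hlam1 : lam ≤ 1) (n : ℕ)
    (l : List (Dir d)) :
    Ph μ L t T z lam (1 / (2 * (lam * (1 + Real.log (1 / lam))))) n l ≤ 2 * wt μ l := by
  classical
  set θ := 1 / (2 * (lam * (1 + Real.log (1 / lam)))) with hθ
  have hlog : 0 ≤ Real.log (1 / lam) := by
    apply Real.log_nonneg
    rw [le_div_iff₀ hlam]
    linarith only [hlam1]
  have hθ0 : 0 ≤ θ := by positivity
  set C0 := ENNReal.ofReal (Real.exp θ) with hC0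
  have key : ∀ j : ℕ, ∀ n l, Ph μ L t T z lam θ n l ≤ (2 + C0 * 2⁻¹ ^ j) * wt μ l := by
    intro j
    induction j with
    | zero =>
      intro n l
      rw [pow_zero, mul_one]
      calc Ph μ L t T z lam θ n l ≤ Ex (wt μ) (Db L t) (fun _ => C0) n l := by
            rw [Ph]
            refine Ex_mono _ fun c => ?_
            split_ifs
            · rw [hC0]
              apply ENNReal.ofReal_le_ofReal
              apply Real.exp_le_exp.2
              have h1 := kr_le_one (z := z) hTF (sit (Db L t) (l ++ c))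
              have h2 := kr_nonneg (μ := μ) (T := T) (z := z) (exits 0 l)
              linarith only [mul_nonneg (sub_nonneg.2 hθ0) (sub_nonneg.2 h2), mul_nonneg (sub_nonneg.2 hθ0) (sub_nonneg.2 h1)]
            · exact zero_le
        _ = C0 * wt μ l := Ex_const μ _ _ _
        _ ≤ _ := by gcongr; exact le_add_self
    | succ j ih =>
      intro n l
      have := Ph_step μ hTF hT hlam hlam1 ih n l
      refine this.trans_eq ?_
      congr 1
      rw [ENNReal.add_div, ENNReal.div_self (by norm_num) (by norm_num), ← add_assoc,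
        one_add_one_eq_two, pow_succ, div_eq_mul_inv, mul_assoc]
  have hlim : Filter.Tendsto (fun j : ℕ => (2 + C0 * 2⁻¹ ^ j) * wt μ l) Filter.atTop
      (nhds ((2 + C0 * 0) * wt μ l)) := by
    have h1 : Filter.Tendsto (fun j : ℕ => (2⁻¹ : ℝ≥0∞) ^ j) Filter.atTop (nhds 0) :=
      ENNReal.tendsto_pow_atTop_nhds_zero_of_lt_one (by norm_num)
    refine ENNReal.Tendsto.mul_const (Filter.Tendsto.add tendsto_const_nhds
      (ENNReal.Tendsto.const_mul h1 (Or.inr ENNReal.ofReal_ne_top))) (Or.inr ?_)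
    exact ne_top_of_le_ne_top ENNReal.one_ne_top (wt_le_one μ l)
  rw [mul_zero, add_zero] at hlim
  exact ge_of_tendsto' hlim fun j => key j n l

end main

end Expo

open Classical in
theorem tail_kill {L : Site d →+ ℝ} {t : ℝ} {l0 : List (Dir d)} (hl0 : dsp l0 ∈ Db L t)
    {z : Site d} {T : Set (List (Dir d))} (hT : T ⊆ Ds L t z) (hTF : ∑' ρ : T, wt μ ρ.1 ≤ 1)
    {lam x : ℝ} (hlam : 0 < lam)
    (hlam1 : lam ≤ 1) (hx : 0 ≤ x) (n : ℕ) :
    Ex (wt μ) (Db L t) (fun l' => if (∀ i, l0.length ≤ i → i ≤ l'.length →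
        dsp (l'.take i) ∈ Db L t → Eb μ L t (l'.take i) ≤ ENNReal.ofReal lam * wt μ (l'.take i)) ∧
        kill μ T z (exits 0 l0) + ENNReal.ofReal x ≤ kill μ T z (sit (Db L t) l')
        then 1 else 0) n l0 ≤
      ENNReal.ofReal (2 * Real.exp (-x / (2 * (lam * (1 + Real.log (1 / lam)))))) * wt μ l0 := by
  have hlog : 0 ≤ Real.log (1 / lam) := by
    apply Real.log_nonneg
    rw [le_div_iff₀ hlam]
    linarith only [hlam1]
  have hphi := Ph_le_two μ (z := z) hTF hT hlam hlam1 n l0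
  set θ := 1 / (2 * (lam * (1 + Real.log (1 / lam)))) with hθ
  have hθ0 : 0 ≤ θ := by positivity
  have hexp : -x / (2 * (lam * (1 + Real.log (1 / lam)))) = -(θ * x) := by
    rw [hθ]; ring
  calc _ ≤ Ex (wt μ) (Db L t) (fun l' => ENNReal.ofReal (Real.exp (-(θ * x))) *
        (if Gd μ L t lam l0.length l' then ENNReal.ofReal (Real.exp (θ *
          (kr μ T z (sit (Db L t) l') - kr μ T z (exits 0 l0)))) else 0)) n l0 := by
        refine Ex_mono _ fun c => ?_
        split_ifs with h1 h2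
        · rw [← ENNReal.ofReal_mul (Real.exp_pos _).le, ← Real.exp_add, ← ENNReal.ofReal_one]
          apply ENNReal.ofReal_le_ofReal
          rw [← Real.exp_zero]
          apply Real.exp_le_exp.2
          have h3 := ENNReal.toReal_mono (kill_ne_top (z := z) hTF _) h1.2
          rw [ENNReal.toReal_add (kill_ne_top hTF _) ENNReal.ofReal_ne_top,
            ENNReal.toReal_ofReal hx] at h3
          change kr μ T z _ + x ≤ kr μ T z _ at h3
          linarith only [mul_nonneg (sub_nonneg.2 hθ0) (sub_nonneg.2 h3)]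
        · exact absurd h1.1 h2
        · exact zero_le
        · simp
    _ = ENNReal.ofReal (Real.exp (-(θ * x))) * Ph μ L t T z lam θ n l0 := by
        rw [Ex_mul_left]
        rfl
    _ ≤ ENNReal.ofReal (Real.exp (-(θ * x))) * (2 * wt μ l0) := by (clear * - hphi; gcongr)
    _ = _ := by
        rw [hexp, ENNReal.ofReal_mul (by norm_num)]
        norm_num
        ring

end Vale.Agent.P147.Z
end

section

/-!
# The end side

`end_bound`: with high probability the last part of a first passage path does not meet too much of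
the downward paths that start at its end.
-/

open MeasureTheory
open scoped ENNReal

namespace Vale.Agent.P147.Z

variable {d : ℕ}

namespace EndB

open Expo

variable (μ : Measure (Row d))

lemma wt_mul_le_Ex {D : Set (Site d)} {F : List (Dir d) → ℝ≥0∞} {l : List (Dir d)} {a : ℝ≥0∞}
    (h : ∀ c, a ≤ F (l ++ c)) (n : ℕ) : a * wt μ l ≤ Ex (wt μ) D F n l := by
  rw [← Ex_const μ (D := D) a n l]
  exact Ex_mono n h

lemma Ex_finset_sum {D : Set (Site d)} {ι : Type*} (B : Finset ι)
    (F : ι → List (Dir d) → ℝ≥0∞) (n : ℕ) (l : List (Dir d)) :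
    Ex (wt μ) D (fun l' => ∑ y ∈ B, F y l') n l = ∑ y ∈ B, Ex (wt μ) D (F y) n l := by
  classical
  induction B using Finset.induction_on with
  | empty =>
    simp only [Finset.sum_empty]
    rw [Ex_const, zero_mul]
  | insert y B hy ih =>
    rw [Finset.sum_insert hy, ← ih, ← Ex_add]
    exact Ex_congr n fun c => Finset.sum_insert hy

/-- Sum over the members of a prefix-free set of bounded length. -/
lemma tree_le {D : Set (Site d)} {S : Set (List (Dir d))} (hS : Free S)
    (hSD : ∀ π ∈ S, ∀ x ∈ exits 0 π, x ∈ D) {F c : List (Dir d) → ℝ≥0∞}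
    (hc : ∀ π ∈ S, ∀ r, c π ≤ F (π ++ r)) (n : ℕ) (l0 : List (Dir d)) :
    ∑' r : {r : List (Dir d) | l0 ++ r ∈ S ∧ r.length ≤ n}, c (l0 ++ r.1) * wt μ (l0 ++ r.1) ≤
      Ex (wt μ) D F n l0 := by
  induction n generalizing l0 with
  | zero =>
    have hsub : {r : List (Dir d) | l0 ++ r ∈ S ∧ r.length ≤ 0} ⊆ {r | r = [] ∧ l0 ∈ S} := by
      rintro r ⟨h1, h2⟩
      have hr : r = [] := List.length_eq_zero_iff.1 (Nat.le_zero.1 h2)
      subst hr
      exact ⟨rfl, by simpa using h1⟩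
    by_cases hl : l0 ∈ S
    · calc ∑' r : {r : List (Dir d) | l0 ++ r ∈ S ∧ r.length ≤ 0},
            c (l0 ++ r.1) * wt μ (l0 ++ r.1)
          ≤ ∑' r : ({[]} : Set (List (Dir d))), c (l0 ++ r.1) * wt μ (l0 ++ r.1) :=
            ENNReal.tsum_mono_subtype (fun r => c (l0 ++ r) * wt μ (l0 ++ r))
              fun r hr => (hsub hr).1
        _ = c l0 * wt μ l0 := by
            rw [tsum_singleton ([] : List (Dir d)) fun r => c (l0 ++ r) * wt μ (l0 ++ r),
              List.append_nil]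
        _ ≤ Ex (wt μ) D F 0 l0 := wt_mul_le_Ex μ (hc l0 hl) 0
    · have : IsEmpty {r : List (Dir d) | l0 ++ r ∈ S ∧ r.length ≤ 0} :=
        ⟨fun r => hl (hsub r.2).2⟩
      rw [tsum_empty]
      exact zero_le
  | succ n ih =>
    by_cases hl : l0 ∈ S
    · calc ∑' r : {r : List (Dir d) | l0 ++ r ∈ S ∧ r.length ≤ n + 1},
            c (l0 ++ r.1) * wt μ (l0 ++ r.1)
          ≤ ∑' r : ({[]} : Set (List (Dir d))), c (l0 ++ r.1) * wt μ (l0 ++ r.1) :=
            ENNReal.tsum_mono_subtype (fun r => c (l0 ++ r) * wt μ (l0 ++ r))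
              fun r hr => hS l0 hl r hr.1
        _ = c l0 * wt μ l0 := by
            rw [tsum_singleton ([] : List (Dir d)) fun r => c (l0 ++ r) * wt μ (l0 ++ r),
              List.append_nil]
        _ ≤ Ex (wt μ) D F (n + 1) l0 := wt_mul_le_Ex μ (hc l0 hl) _
    · by_cases hD : dsp l0 ∈ D
      · rw [Ex_succ_mem hD]
        let A : Dir d → Set (List (Dir d)) := fun u =>
          {r : List (Dir d) | (l0 ++ [u]) ++ r ∈ S ∧ r.length ≤ n}
        let f : (Σ u : Dir d, A u) → {r : List (Dir d) | l0 ++ r ∈ S ∧ r.length ≤ n + 1} :=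
          fun p => ⟨p.1 :: p.2.1, by
            have := p.2.2.1
            simpa using this, by
            have := p.2.2.2
            simpa using this⟩
        have hf : Function.Surjective f := by
          rintro ⟨r, h1, h2⟩
          cases r with
          | nil => exact absurd (by simpa using h1) hl
          | cons u r =>
            exact ⟨⟨u, r, by simpa using h1, by simpa using h2⟩, rfl⟩
        calc ∑' r : {r : List (Dir d) | l0 ++ r ∈ S ∧ r.length ≤ n + 1},
              c (l0 ++ r.1) * wt μ (l0 ++ r.1)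
            ≤ ∑' p, c (l0 ++ (f p).1) * wt μ (l0 ++ (f p).1) :=
              ENNReal.tsum_le_tsum_comp_of_surjective hf
                fun r => c (l0 ++ r.1) * wt μ (l0 ++ r.1)
          _ = ∑' u : Dir d, ∑' r : A u, c ((l0 ++ [u]) ++ r.1) * wt μ ((l0 ++ [u]) ++ r.1) := by
              rw [ENNReal.tsum_sigma']
              refine tsum_congr fun u => tsum_congr fun r => ?_
              simp only [f, List.append_assoc, List.singleton_append]
          _ = ∑ u : Dir d, ∑' r : A u, c ((l0 ++ [u]) ++ r.1) * wt μ ((l0 ++ [u]) ++ r.1) :=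
              tsum_fintype _
          _ ≤ ∑ u : Dir d, Ex (wt μ) D F n (l0 ++ [u]) :=
              Finset.sum_le_sum fun u _ => ih (l0 ++ [u])
      · have : IsEmpty {r : List (Dir d) | l0 ++ r ∈ S ∧ r.length ≤ n + 1} := by
          refine ⟨fun r => ?_⟩
          obtain ⟨r, h1, -⟩ := r
          have hr : r ≠ [] := by
            rintro rfl
            exact hl (by simpa using h1)
          have := hSD _ h1 _ (end_mem_exits 0 l0 hr)
          rw [zero_add] at this
          exact hD this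
        rw [tsum_empty]
        exact zero_le

/-- Sum over the members of a prefix-free set. -/
lemma tree_le_of_forall {D : Set (Site d)} {S : Set (List (Dir d))} (hS : Free S)
    (hSD : ∀ π ∈ S, ∀ x ∈ exits 0 π, x ∈ D) {F c : List (Dir d) → ℝ≥0∞}
    (hc : ∀ π ∈ S, ∀ r, c π ≤ F (π ++ r)) (l0 : List (Dir d)) {K : ℝ≥0∞}
    (hK : ∀ n, Ex (wt μ) D F n l0 ≤ K) :
    ∑' r : {r : List (Dir d) | l0 ++ r ∈ S}, c (l0 ++ r.1) * wt μ (l0 ++ r.1) ≤ K := by
  classical
  refine ENNReal.summable.tsum_le_of_sum_le fun s => ?_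
  let n : ℕ := s.sup fun r => r.1.length
  let s' : Finset (List (Dir d)) := s.image Subtype.val
  have hs' : (s' : Set (List (Dir d))) ⊆ {r | l0 ++ r ∈ S ∧ r.length ≤ n} := by
    intro r hr
    rw [Finset.mem_coe, Finset.mem_image] at hr
    obtain ⟨r', hr', rfl⟩ := hr
    exact ⟨r'.2, Finset.le_sup (f := fun r : {r : List (Dir d) | l0 ++ r ∈ S} => r.1.length) hr'⟩
  calc ∑ r ∈ s, c (l0 ++ r.1) * wt μ (l0 ++ r.1)
      = ∑ r ∈ s', c (l0 ++ r) * wt μ (l0 ++ r) := by
        rw [Finset.sum_image fun a _ b _ h => Subtype.ext h]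
    _ = ∑' r : (s' : Set (List (Dir d))), c (l0 ++ r.1) * wt μ (l0 ++ r.1) :=
        (Finset.tsum_subtype' s' fun r => c (l0 ++ r) * wt μ (l0 ++ r)).symm
    _ ≤ ∑' r : {r : List (Dir d) | l0 ++ r ∈ S ∧ r.length ≤ n},
          c (l0 ++ r.1) * wt μ (l0 ++ r.1) :=
        ENNReal.tsum_mono_subtype (fun r => c (l0 ++ r) * wt μ (l0 ++ r)) hs'
    _ ≤ Ex (wt μ) D F n l0 := tree_le μ hS hSD hc n l0
    _ ≤ K := hK n

open Classical in
lemma kill_eq_of_mem {T : Set (List (Dir d))} {y : Site d} {L : Site d →+ ℝ} {t : ℝ}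
    (hT : T ⊆ Ds L t y) (hy : y ∈ Db L t) {S : Finset (Site d)} (hS : y ∈ S) :
    ∑' ρ : T, wt μ ρ.1 ≤ kill μ T y S := by
  refine ENNReal.tsum_le_tsum fun ρ => ?_
  have hne : ρ.1 ≠ [] := by
    intro h
    have h2 := (hT ρ.2).2
    rw [h, dsp_nil, add_zero] at h2
    exact absurd hy.1 (not_lt.2 h2)
  rw [if_neg]
  intro hdis
  exact (Finset.disjoint_left.1 hdis) (start_mem_exits y hne) hS

lemma mem_sit {D : Set (Site d)} (π r : List (Dir d)) (h : dsp π ∈ D) :
    dsp π ∈ sit D (π ++ r) := by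
  classical
  by_cases hr : r = []
  · subst hr
    rw [List.append_nil, sit, if_pos h]
    exact Finset.mem_insert_self _ _
  · have h1 : dsp π ∈ exits 0 (π ++ r) := by
      have := end_mem_exits 0 π hr
      rwa [zero_add] at this
    rw [sit]
    split_ifs
    · exact Finset.mem_insert_of_mem h1
    · exact h1

end EndB

open Expo EndB

variable (μ : Measure (Row d)) [IsProbabilityMeasure μ]

open Classical in
theorem end_bound {L : Site d →+ ℝ} (hL : Lvl L) {t h N : ℝ} (h0 : 0 ≤ h) (hhN : h ≤ N)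
    (hNt : N + 1 ≤ t) (B : Finset (Site d)) (T : Site d → Set (List (Dir d)))
    (hT : ∀ y ∈ B, T y ⊆ Ds L t y) (hTF : ∀ y ∈ B, ∑' ρ : T y, wt μ ρ.1 ≤ 1)
    (hB : ∀ y ∈ B, y ∈ Db L t) {w0 : ℝ≥0∞}
    (hw : ∀ y ∈ B, w0 ≤ ∑' ρ : T y, wt μ ρ.1) {lam x : ℝ} (hlam : 0 < lam) (hlam1 : lam ≤ 1)
    (hx : 0 ≤ x) :
    ∑' π : Fp L N, (if dsp π.1 ∈ B ∧
        kill μ (T (dsp π.1)) (dsp π.1) (exits 0 (fpre L h π.1)) + ENNReal.ofReal x < w0
        then wt μ π.1 else 0) ≤
      (ENNReal.ofReal lam)⁻¹ * ∑' γ : Fp L h, Eb μ L t γ.1 +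
        B.card * ENNReal.ofReal (2 * Real.exp (-x / (2 * (lam * (1 + Real.log (1 / lam)))))) := by
  set K : ℝ≥0∞ := ENNReal.ofReal (2 * Real.exp (-x / (2 * (lam * (1 + Real.log (1 / lam)))))) with hKdef
  have hlam0 : ENNReal.ofReal lam ≠ 0 := by
    rw [Ne, ENNReal.ofReal_eq_zero, not_le]
    exact hlam
  -- the bound for a fixed beginning
  have main : ∀ γ : Fp L h,
      ∑' r : {r : List (Dir d) | γ.1 ++ r ∈ Fp L N}, (if dsp (γ.1 ++ r.1) ∈ B ∧
        kill μ (T (dsp (γ.1 ++ r.1))) (dsp (γ.1 ++ r.1)) (exits 0 γ.1) + ENNReal.ofReal x < w0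
        then wt μ (γ.1 ++ r.1) else 0) ≤
      (ENNReal.ofReal lam)⁻¹ * Eb μ L t γ.1 + B.card * K * wt μ γ.1 := by
    rintro ⟨l0, hl0⟩
    have hl0D : dsp l0 ∈ Db L t := by
      have h1 := Fp_dsp_lt hL (by linarith : (-1 : ℝ) < h) hl0
      have h2 := hl0.2
      exact ⟨by linarith, by linarith⟩
    let bad : List (Dir d) → Prop := fun l' => ∃ i, l0.length ≤ i ∧ i ≤ l'.length ∧
        dsp (l'.take i) ∈ Db L t ∧
        ENNReal.ofReal lam * wt μ (l'.take i) < Eb μ L t (l'.take i)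
    let G : Site d → List (Dir d) → Prop := fun y l' =>
      (∀ i, l0.length ≤ i → i ≤ l'.length →
        dsp (l'.take i) ∈ Db L t → Eb μ L t (l'.take i) ≤ ENNReal.ofReal lam * wt μ (l'.take i)) ∧
        kill μ (T y) y (exits 0 l0) + ENNReal.ofReal x ≤ kill μ (T y) y (sit (Db L t) l')
    let F1 : List (Dir d) → ℝ≥0∞ := fun l' => if bad l' then 1 else 0
    let F2 : Site d → List (Dir d) → ℝ≥0∞ := fun y l' => if G y l' then 1 else 0
    let F : List (Dir d) → ℝ≥0∞ := fun l' => F1 l' + ∑ y ∈ B, F2 y l'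
    let c : List (Dir d) → ℝ≥0∞ := fun π => if dsp π ∈ B ∧
        kill μ (T (dsp π)) (dsp π) (exits 0 l0) + ENNReal.ofReal x < w0 then 1 else 0
    have hSD : ∀ π ∈ Fp L N, ∀ x ∈ exits 0 π, x ∈ Db L t := by
      intro π hπ x hx
      have := hπ.1 x hx
      exact ⟨by linarith [this.1], by linarith [this.2]⟩
    have hc : ∀ π ∈ Fp L N, ∀ r, c π ≤ F (π ++ r) := by
      intro π hπ r
      by_cases hcond : dsp π ∈ B ∧
        kill μ (T (dsp π)) (dsp π) (exits 0 l0) + ENNReal.ofReal x < w0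
      · simp only [c, if_pos hcond, F]
        by_cases hb : bad (π ++ r)
        · simp only [F1, if_pos hb]
          exact le_self_add
        · refine le_trans ?_ le_add_self
          have hG : G (dsp π) (π ++ r) := by
            refine ⟨fun i h1 h2 h3 => ?_, ?_⟩
            · by_contra hlt
              exact hb ⟨i, h1, h2, h3, not_le.1 hlt⟩
            · refine hcond.2.le.trans ((hw _ hcond.1).trans ?_)
              exact kill_eq_of_mem μ (hT _ hcond.1) (hB _ hcond.1)
                (mem_sit π r (hB _ hcond.1))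
          calc (1 : ℝ≥0∞) = F2 (dsp π) (π ++ r) := by simp only [F2, if_pos hG]
            _ ≤ ∑ y ∈ B, F2 y (π ++ r) :=
                Finset.single_le_sum (f := fun y => F2 y (π ++ r)) (fun _ _ => zero_le) hcond.1
      · simp only [c, if_neg hcond]
        exact zero_le
    have hEx : ∀ n, Ex (wt μ) (Db L t) F n l0 ≤
        (ENNReal.ofReal lam)⁻¹ * Eb μ L t l0 + B.card * K * wt μ l0 := by
      intro n
      have e1 : Ex (wt μ) (Db L t) F n l0 = Ex (wt μ) (Db L t) F1 n l0 +
          ∑ y ∈ B, Ex (wt μ) (Db L t) (F2 y) n l0 := by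
        rw [← Ex_finset_sum, ← Ex_add]
      rw [e1]
      refine add_le_add ?_ ?_
      · rw [← ENNReal.mul_le_iff_le_inv hlam0 ENNReal.ofReal_ne_top]
        exact doob_e μ l0 (ENNReal.ofReal lam) n
      · calc ∑ y ∈ B, Ex (wt μ) (Db L t) (F2 y) n l0 ≤ ∑ _y ∈ B, K * wt μ l0 := by
              refine Finset.sum_le_sum fun y hy => ?_
              exact tail_kill μ hl0D (hT y hy) (hTF y hy) hlam hlam1 hx n
          _ = B.card * K * wt μ l0 := by
              rw [Finset.sum_const, nsmul_eq_mul, mul_assoc]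
    have key := tree_le_of_forall μ (Fp_free L N) hSD hc l0 hEx
    refine le_trans (le_of_eq (tsum_congr fun r => ?_)) key
    simp only [c]
    split_ifs
    · rw [one_mul]
    · rw [zero_mul]
  -- decomposition at the first passage to level `h`
  let f : (Σ γ : Fp L h, {r : List (Dir d) | γ.1 ++ r ∈ Fp L N}) → Fp L N :=
    fun p => ⟨p.1.1 ++ p.2.1, p.2.2⟩
  have hf : Function.Surjective f := by
    rintro ⟨π, hπ⟩
    obtain ⟨r, hr⟩ := exists_fpre L h π
    refine ⟨⟨⟨fpre L h π, fpre_mem hhN hπ⟩, ⟨r, ?_⟩⟩, ?_⟩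
    · simp only [Set.mem_ofPred_eq]
      rw [← hr]
      exact hπ
    · exact Subtype.ext hr.symm
  calc ∑' π : Fp L N, (if dsp π.1 ∈ B ∧
        kill μ (T (dsp π.1)) (dsp π.1) (exits 0 (fpre L h π.1)) + ENNReal.ofReal x < w0
        then wt μ π.1 else 0)
      ≤ ∑' p, (if dsp (f p).1 ∈ B ∧
        kill μ (T (dsp (f p).1)) (dsp (f p).1) (exits 0 (fpre L h (f p).1)) + ENNReal.ofReal x < w0
        then wt μ (f p).1 else 0) :=
        ENNReal.tsum_le_tsum_comp_of_surjective hf fun π => (if dsp π.1 ∈ B ∧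
          kill μ (T (dsp π.1)) (dsp π.1) (exits 0 (fpre L h π.1)) + ENNReal.ofReal x < w0
          then wt μ π.1 else 0)
    _ = ∑' γ : Fp L h, ∑' r : {r : List (Dir d) | γ.1 ++ r ∈ Fp L N},
          (if dsp (γ.1 ++ r.1) ∈ B ∧
        kill μ (T (dsp (γ.1 ++ r.1))) (dsp (γ.1 ++ r.1)) (exits 0 γ.1) + ENNReal.ofReal x < w0
        then wt μ (γ.1 ++ r.1) else 0) := by
        rw [ENNReal.tsum_sigma']
        refine tsum_congr fun γ => tsum_congr fun r => ?_
        simp only [f]
        rw [fpre_append γ.2]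
    _ ≤ ∑' γ : Fp L h, ((ENNReal.ofReal lam)⁻¹ * Eb μ L t γ.1 + B.card * K * wt μ γ.1) :=
        ENNReal.tsum_le_tsum main
    _ = (ENNReal.ofReal lam)⁻¹ * ∑' γ : Fp L h, Eb μ L t γ.1 +
          B.card * K * ∑' γ : Fp L h, wt μ γ.1 := by
        rw [ENNReal.tsum_add, ENNReal.tsum_mul_left, ENNReal.tsum_mul_left]
    _ ≤ (ENNReal.ofReal lam)⁻¹ * ∑' γ : Fp L h, Eb μ L t γ.1 + B.card * K := by
        refine add_le_add le_rfl ?_
        calc B.card * K * ∑' γ : Fp L h, wt μ γ.1 ≤ B.card * K * 1 :=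
              mul_le_mul_right (tsum_wt_le_one μ (Fp_free L h)) _
          _ = B.card * K := mul_one _

end Vale.Agent.P147.Z
end
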